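import Vale.Agent.P321.Iter

/-!
Choice of parameters for a given length.
-/

namespace Vale.Agent.P321

lemma pow_four_le {t : ℕ} (h : 16 ≤ t) : t ^ 4 ≤ 2 ^ t := by
  induction t, h using Nat.le_induction with
  | base => norm_num
  | succ t ht ih =>
    have h1 : (t + 1) ^ 4 ≤ 2 * t ^ 4 := by
      have a1 : 16 * t ^ 3 ≤ t ^ 4 := by rw [pow_succ t 3, mul_comm]; gcongr
      have a2 : 16 * t ^ 2 ≤ t ^ 3 := by rw [pow_succ t 2, mul_comm]; gcongr
      have a3 : 16 * t ≤ t ^ 2 := by rw [sq]; gcongr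
      have e : (t + 1) ^ 4 = t ^ 4 + 4 * t ^ 3 + 6 * t ^ 2 + 4 * t + 1 := by ring
      omega
    rw [pow_succ 2 t]; omega

theorem close_words' {q : ℝ} (hq : 0 < q) (hq1 : q ≤ 1) : ∃ n₀ : ℕ, ∀ n ≥ n₀,
    ∃ (x y : List Bool) (ε : ℝ), x.length = n ∧ y.length = n ∧ x ≠ y ∧
      L1 (phi q x - phi q y) ε ∧ (n : ℝ) ^ (1 / 8000 * Real.log (Real.log n)) * (3 * ε) ≤ 1 := by
  obtain ⟨w₀, h⟩ := close_words hq hq1
  refine ⟨2 ^ 2 ^ (2 * (222 * (946 + w₀))), fun n hn => ?_⟩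
  have hn0 : n ≠ 0 := by have := Nat.two_pow_pos (2 ^ (2 * (222 * (946 + w₀)))); omega
  obtain ⟨L, hL⟩ : ∃ L, L = Nat.log 2 n := ⟨_, rfl⟩
  have hL1 : 2 ^ L ≤ n := hL ▸ Nat.pow_log_le_self 2 hn0
  have hL2 : n < 2 ^ (L + 1) := hL ▸ Nat.lt_pow_succ_log_self one_lt_two n
  have hL3 : 2 ^ (2 * (222 * (946 + w₀))) ≤ L := hL ▸ Nat.le_log_of_pow_le one_lt_two hn
  have hL0 : L ≠ 0 := by have := Nat.two_pow_pos (2 * (222 * (946 + w₀))); omega
  obtain ⟨s, hs⟩ : ∃ s, s = Nat.log 2 L := ⟨_, rfl⟩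
  have hs1 : 2 ^ s ≤ L := hs ▸ Nat.pow_log_le_self 2 hL0
  have hs2 : L < 2 ^ (s + 1) := hs ▸ Nat.lt_pow_succ_log_self one_lt_two L
  have hs3 : 2 * (222 * (946 + w₀)) ≤ s := hs ▸ Nat.le_log_of_pow_le one_lt_two hL3
  obtain ⟨t, ht1, ht2⟩ : ∃ t, 2 * t ≤ s ∧ s ≤ 2 * t + 1 := ⟨s / 2, by omega, by omega⟩
  have ht3 : 222 * (946 + w₀) ≤ t := by omega
  have hD : 0 < 222 * t * 2 ^ t := Nat.mul_pos (by omega) (Nat.two_pow_pos t)
  obtain ⟨w, hw⟩ : ∃ w, w = L / (222 * t * 2 ^ t) := ⟨_, rfl⟩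
  have hw1 : 222 * t * 2 ^ t * w ≤ L := hw ▸ Nat.mul_div_le _ _
  have hw2 : L < 222 * t * 2 ^ t * (w + 1) := hw ▸ Nat.lt_mul_div_succ _ hD
  have hw3 : 6 * t * (155 + t) + 10 + w₀ ≤ w := by
    rw [hw, Nat.le_div_iff_mul_le hD]
    have a1 : 6 * t * (155 + t) + 10 + w₀ ≤ (946 + w₀) * t ^ 2 := by nlinarith
    calc _ ≤ (946 + w₀) * t ^ 2 * (222 * t * 2 ^ t) := Nat.mul_le_mul_right _ a1
      _ = 222 * (946 + w₀) * t ^ 3 * 2 ^ t := by ring
      _ ≤ t * t ^ 3 * 2 ^ t := by gcongr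
      _ = t ^ 4 * 2 ^ t := by ring
      _ ≤ 2 ^ t * 2 ^ t := Nat.mul_le_mul_right _ (pow_four_le (by omega))
      _ = 2 ^ (2 * t) := by rw [← pow_add, two_mul]
      _ ≤ 2 ^ s := Nat.pow_le_pow_right (by norm_num) ht1
      _ ≤ L := hs1
  obtain ⟨x, y, h1, h2, h3, h4⟩ := h t w (by omega) (by omega) (by omega)
  have h5 : y.length ≤ n :=
    h3.trans ((Nat.pow_le_pow_right (by norm_num) (by rw [← mul_assoc]; exact hw1)).trans hL1)
  obtain ⟨d, hd⟩ : ∃ d, d = t * t * (2 ^ t * w) := ⟨_, rfl⟩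
  rw [← hd] at h4
  refine ⟨x ++ List.replicate (n - y.length) false, y ++ List.replicate (n - y.length) false,
    2 * (1 / 2) ^ d, by simp; omega, by simp; omega, fun e => h2 (List.append_cancel_right e),
    ?_, ?_⟩
  · rw [phi_append, phi_append, ← sub_mul]
    simpa using h4.mul (phi_prob hq.le hq1 _).l1
  have hdL : t * L ≤ 444 * d := by
    have a1 : 222 * t * 2 ^ t * (w + 1) ≤ 222 * t * 2 ^ t * (2 * w) :=
      Nat.mul_le_mul_left _ (by omega)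
    calc t * L ≤ t * (222 * t * 2 ^ t * (2 * w)) := Nat.mul_le_mul_left _ (by omega)
      _ = 444 * d := by rw [hd]; ring
  have htL : 2400 ≤ t * L := by
    have : t * 1 ≤ t * L := Nat.mul_le_mul_left _ (by omega)
    omega
  have hnpos : (0 : ℝ) < n := by exact_mod_cast Nat.pos_of_ne_zero hn0
  have l2 := Real.log_pos (one_lt_two (α := ℝ))
  have l3 : Real.log 2 ≤ 1 := by have := Real.log_two_lt_d9; linarith
  have hL1' : (1 : ℝ) ≤ L := by exact_mod_cast Nat.pos_of_ne_zero hL0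
  have ht' : (1 : ℝ) ≤ t := by exact_mod_cast (by omega : 1 ≤ t)
  have b1 : Real.log n ≤ (L + 1) * Real.log 2 := by
    have : (n : ℝ) ≤ 2 ^ (L + 1) := by exact_mod_cast hL2.le
    have := Real.log_le_log hnpos this
    rwa [Real.log_pow, Nat.cast_add, Nat.cast_one] at this
  have b0 : 0 < Real.log n := by
    refine Real.log_pos ?_
    have : 2 ^ 1 ≤ 2 ^ L := Nat.pow_le_pow_right (by norm_num) (by omega)
    exact_mod_cast (by omega : 1 < n)
  have b2 : Real.log (Real.log n) ≤ 4 * t := by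
    have a1 : (L : ℝ) + 1 ≤ 2 ^ (s + 1) := by exact_mod_cast hs2
    have a2 := Real.log_le_log b0 (b1.trans ((mul_le_of_le_one_right (by positivity) l3).trans a1))
    rw [Real.log_pow] at a2
    have a3 : ((s + 1 : ℕ) : ℝ) ≤ 4 * t := by exact_mod_cast (by omega : s + 1 ≤ 4 * t)
    exact a2.trans ((mul_le_of_le_one_right (by positivity) l3).trans a3)
  have b3 : (n : ℝ) ^ (1 / 8000 * Real.log (Real.log n)) ≤ 2 ^ d / 8 := by
    have c1 : ((t : ℝ) * L) ≤ 444 * d := by exact_mod_cast hdL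
    have c2 : (2400 : ℝ) ≤ t * L := by exact_mod_cast htL
    rw [Real.rpow_def_of_pos hnpos, show (2 : ℝ) ^ d / 8 = Real.exp ((d - 3) * Real.log 2) by
      rw [sub_mul, Real.exp_sub, mul_comm (d : ℝ), ← Real.rpow_def_of_pos two_pos, mul_comm 3,
        ← Real.rpow_def_of_pos two_pos, Real.rpow_natCast]; norm_num]
    refine Real.exp_le_exp.2 ?_
    calc Real.log n * (1 / 8000 * Real.log (Real.log n)) ≤ Real.log n * (1 / 8000 * (4 * t)) := by
          gcongr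
      _ ≤ ((2 * L) * Real.log 2) * (1 / 8000 * (4 * t)) := by
          gcongr; exact b1.trans (by gcongr; linarith)
      _ = (t * L / 1000) * Real.log 2 := by ring
      _ ≤ _ := by gcongr; linarith
  calc _ ≤ (2 : ℝ) ^ d / 8 * (3 * (2 * (1 / 2) ^ d)) := by gcongr
    _ = 3 / 4 * ((2 : ℝ) * (1 / 2)) ^ d := by rw [mul_pow]; ring
    _ ≤ 1 := by norm_num

end Vale.Agent.P321
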