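import Vale.Agent.P321.Trim

/-!
The bottom level: one missing letter in an alternating word, moved by one cell.
-/

namespace Vale.Agent.P321

open Finset

/-- law of the trace of one letter -/
noncomputable def lt (q : ℝ) (b : Bool) : Ms :=
  q • (1 : Ms) + (1 - q) • MonoidAlgebra.single (FreeMonoid.of b) 1

/-- law of the trace of a word -/
noncomputable def phi (q : ℝ) (x : List Bool) : Ms := (x.map (lt q)).prod

/-- repetition of a word -/
def rep (n : ℕ) (w : List Bool) : List Bool := (List.replicate n w).flatten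

/-- concatenation of two kinds of blocks along a pattern -/
def pw (x y : List Bool) (l : List Bool) : List Bool := (l.map fun b => bif b then x else y).flatten

lemma phi_append (q : ℝ) (x y : List Bool) : phi q (x ++ y) = phi q x * phi q y := by simp [phi]
lemma phi_nil (q : ℝ) : phi q [] = 1 := rfl
lemma phi_cons (q : ℝ) (b : Bool) (x : List Bool) : phi q (b :: x) = lt q b * phi q x := rfl

lemma phi_rep (q : ℝ) (n : ℕ) (w : List Bool) : phi q (rep n w) = phi q w ^ n := by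
  induction n with
  | zero => rfl
  | succ n ih =>
    rw [pow_succ', ← ih, ← phi_append]; rfl

lemma phi_pw (q : ℝ) (x y l : List Bool) : phi q (pw x y l) = pz (phi q x) (phi q y) l := by
  induction l with
  | nil => rfl
  | cons b l ih =>
    rw [pz_cons, ← ih]
    cases b <;> exact phi_append q _ _

lemma length_rep (n : ℕ) (w : List Bool) : (rep n w).length = n * w.length := by simp [rep]

lemma length_pw {x y : List Bool} (h : x.length = y.length) (l : List Bool) :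
    (pw x y l).length = l.length * y.length := by
  induction l with
  | nil => simp [pw]
  | cons b l ih =>
    have : pw x y (b :: l) = (bif b then x else y) ++ pw x y l := rfl
    rw [this, List.length_append, ih, List.length_cons]
    cases b <;> simp [h] <;> ring

lemma lt_prob {q : ℝ} (h0 : 0 ≤ q) (h1 : q ≤ 1) (b : Bool) : Prob (lt q b) :=
  ⟨(nn_one.smul h0).add ((nn_single _ zero_le_one).smul (by linarith)), by
    rw [lt, mass_add, mass_smul, mass_smul, mass_one, mass_single]; ring⟩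

lemma phi_prob {q : ℝ} (h0 : 0 ≤ q) (h1 : q ≤ 1) (x : List Bool) : Prob (phi q x) := by
  induction x with
  | nil => exact prob_one
  | cons b x ih => exact (lt_prob h0 h1 b).mul ih

lemma lt_ge {q : ℝ} (h1 : q ≤ 1) (b : Bool) : Le (q • (1 : Ms)) (lt q b) :=
  le_add_right ((nn_single _ zero_le_one).smul (by linarith))

section

variable {W V : Ms} {q : ℝ} (hq : 0 < q) (hq1 : q ≤ 1) (hW : Prob W) (hV : Prob V)
  (hWq : Le (q • (1 : Ms)) W) (hVq : Le (q • (1 : Ms)) V) {r : ℕ} (hr : 4 ≤ r * q ^ 4)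

include hq hWq hVq in
lemma base_lazy : Le ((q ^ 2) • (1 : Ms)) (W * V) := by
  have := hWq.mul hVq (nn_one.smul hq.le) (nn_one.smul hq.le)
  rwa [smul_mul_smul_comm, one_mul, ← sq] at this

include hq hq1 hWq hVq hr in
lemma base_sm : Sm (W * V) r := by
  refine ⟨0, r, (q ^ 2) • 1, nn_one.smul (by positivity), ?_, ?_, ?_, by omega⟩
  · have := le_smul_of_le nn_one (pow_le_one₀ hq.le hq1 : q ^ 2 ≤ 1)
    rwa [one_smul, ← pow_zero (W * V)] at this
  · simpa using base_lazy hq hWq hVq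
  · rw [mass_smul, mass_one, mul_one, ← pow_mul]; exact hr

include hq hq1 hW hV hVq in
lemma base_ab : Ab (W * V) (W - W * V) (1 / q) := by
  have hU := hW.mul hV
  have h1 : 1 ≤ 1 / q := by rw [le_div_iff₀ hq]; linarith
  refine (ab_iff hU.nn (by positivity)).2 ⟨?_, ?_⟩
  · have h2 := (hVq.mul_left hW.nn).smul (by positivity : 0 ≤ 1 / q)
    rw [mul_smul_comm, mul_one, smul_smul, one_div_mul_cancel hq.ne', one_smul] at h2
    refine Le.trans ?_ h2
    unfold Le; rw [sub_sub_cancel]; exact hU.nn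
  · have h2 := le_smul_of_le hU.nn h1
    rw [one_smul] at h2
    refine Le.trans ?_ h2
    unfold Le; rw [neg_sub, sub_sub_cancel]; exact hW.nn

include hq hq1 hW hV hWq hVq hr in
lemma base_pair {J K : ℕ} (hK : K + 1 = r * (J + 1)) :
    ∃ D, mass D = 0 ∧
      Ab ((W * V) ^ K * (W * V * W) * (W * V) ^ K) D ((2 * r / q + 2) * (4 / (q * √(J + 1)))) ∧
      Chi ((W * V) ^ K * (W * V * W) * (W * V) ^ K) D
        (4 * r / q * (8 / (q ^ 2 * ((J + 1) * √(J + 1)))) +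
          2 * (2 * (1 / 2) ^ J * (4 / (q * √(J + 1)))) ^ 2) ∧
      L1 ((W * V) ^ K * (W * V * W) * (W * V) ^ K + D - (W * V) ^ K * (W * (W * V)) * (W * V) ^ K)
        (4 * (1 / 2) ^ J * (4 / (q * √(J + 1))) + 2 * (1 / 2) ^ J) := by
  have hU := hW.mul hV
  have hE := base_ab hq hq1 hW hV hVq
  have hsm := base_sm hq hq1 hWq hVq hr
  have hlz := base_lazy hq hWq hVq
  set U := W * V with hUd
  have hr1 : 1 ≤ r := by
    rcases Nat.eq_zero_or_pos r with rfl | h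
    · norm_num at hr
    · exact h
  have hKJ : r * J ≤ K := by rw [mul_add] at hK; omega
  obtain ⟨T, R, μ, e, hT, hR, hμ⟩ := hsm.two hU hKJ hKJ
  have e' : Lm (U ^ K) * Rm (U ^ K) = T * A2 U ^ (1 * J) + R := by rw [one_mul]; exact e
  have le1 := core_le1 (k := 2) hU e' hR
  have eD : tmM U (W - U) 1 = W * U - U * W := by simp only [tmM]; noncomm_ring
  have hmE : mass (W - U) = 0 := by rw [mass_sub, hW.one, hU.one, sub_self]
  have h1 : Ab (U ^ (2 * K + 2)) (T ((A2 U ^ (1 * J)) (W * U - U * W))) (4 / (q * √(J + 1))) := by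
    have i1 := tm_ab hE J 1
    rw [eD, show 2 ^ 1 = 2 from rfl, ← A2_pow_pow] at i1
    refine ((hT.ab i1).ref1 le1).mono (le_of_eq ?_)
    ring
  have h2 : Chi (U ^ (2 * K + 2)) (T ((A2 U ^ (1 * J)) (W * U - U * W)))
      (8 / (q ^ 2 * ((J + 1) * √(J + 1)))) := by
    have i1 := (bes_band (w := 1) hU hmE (by simpa using hE.chi hU) one_pos (J + 1) (drho J)).neg
    rw [← A2_pow_diff, ← map_neg, show J + 1 + 1 = 2 + J by omega, ← A2_pow_pow,
      show -(U * (W - U) - (W - U) * U) = W * U - U * W by noncomm_ring] at i1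
    rw [one_mul J] at le1 ⊢
    refine ((hT.chi i1).ref1 le1).mono ?_
    have i2 := drho_sq_sum J
    rw [show 2 + J = J + 2 by omega]
    have i3 : 0 ≤ ∑ u ∈ range (J + 2), drho J u ^ 2 := sq_sum_nonneg _ _
    have i4 := hR.nonneg
    simp only [Nat.cast_one, one_mul]
    calc (1 - μ) * ((q ^ 2)⁻¹ * ∑ u ∈ range (J + 2), drho J u ^ 2)
        ≤ 1 * ((q ^ 2)⁻¹ * (8 / ((J + 1) * √(J + 1)))) := by gcongr; linarith
      _ = _ := by field_simp
  obtain ⟨Bad, hB, hBm, hBle⟩ := lazy_dom (V := U - (q ^ 2) • 1) (c := q ^ 2) (r := r)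
    (J := 2 * (J + 1)) (M := 2 * K + 1) hlz (by positivity) (pow_le_one₀ hq.le hq1)
    (by rw [mass_sub, hU.one, mass_smul, mass_one, mul_one]) (by omega)
    (by rw [mul_left_comm, ← hK]; ring) (hr.trans (by
      have : q ^ 4 ≤ q ^ 2 := pow_le_pow_of_le_one hq.le hq1 (by norm_num)
      gcongr))
  rw [add_sub_cancel] at hBle
  have hY : Prob (U ^ K * (U * W) * U ^ K) := ((hU.pow _).mul (hU.mul hW)).mul (hU.pow _)
  have h3 : Le ((r : ℝ) • U ^ (2 * K + 1)) ((r / q) • (U ^ K * (U * W) * U ^ K)) := by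
    have i1 := (((hWq.mul_left hU.nn).mul_left (hU.nn.pow K)).mul_right (hU.nn.pow K)).smul
      (by positivity : 0 ≤ r / q)
    rwa [mul_smul_comm, mul_smul_comm, smul_mul_assoc, smul_smul, div_mul_cancel₀ _ hq.ne',
      mul_one, ← pow_succ, ← pow_add, show K + 1 + K = 2 * K + 1 by omega] at i1
  have hβ : mass Bad ≤ (1 / 2) ^ J :=
    hBm.trans (pow_le_pow_of_le_one (by norm_num) (by norm_num) (by omega))
  obtain ⟨D, d1, d2, d3, d4⟩ := trim hY hB (by positivity) hβ (hBle.trans (h3.add Le.rfl)) h1 h2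
    (by rw [hT.mass, ((mk_A2 hU).pow _).mass, mass_sub, (hW.mul hU).one, (hU.mul hW).one]
        simp)
  have hh : (1 / 2 : ℝ) ^ J ≤ 1 := pow_le_one₀ (by norm_num) (by norm_num)
  refine ⟨D, d1, d2.mono ?_, d3.mono (le_of_eq (by ring)), ?_⟩
  · have : (0 : ℝ) ≤ 4 / (q * √(J + 1)) := by positivity
    have e1 : 2 * (r / q) = 2 * r / q := by ring
    nlinarith
  · have j1 := hR.l1 ((hW.mul hU).l1.sub (hU.mul hW).l1)
    have j2 := d4.sub j1
    rw [core_W' e'] at j2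
    convert j2.mono ?_ using 1
    · noncomm_ring
    · linarith

end

lemma inv_zero {Y X : Ms} {ν : ℕ} {Λ θ : ℝ} (hY : Prob Y) (hX : Prob X) (h1 : Chi Y (X - Y) Λ)
    (h2 : Ab Y (X - Y) θ) (hs : Sm Y ν) (hν : 0 < ν) : Inv Y Y X 0 1 0 ν Λ 0 0 θ 1 := by
  have hp : ∀ F, pad Y 0 0 F = F := fun F => by simp [pad]
  refine ⟨hY, hY, hX, le_rfl, ?_, by simpa using chi_zero hY.nn, by simpa using Le.rfl, le_rfl,
    by rwa [hp, hp], by rwa [hp], hν, 1, 0, 0, ?_, by simpa using mk_one, mk_zero, by simp [rho]⟩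
  · have := bes_triv (P := Y ^ (2 * 0 + 1)) (F := fun σ => pad Y 0 σ (X - Y)) (S := 0) (η := Λ)
      fun s hs => by
        obtain rfl : s = 0 := by omega
        simpa [hp] using h1
    simpa using this
  · apply LinearMap.ext; intro F; simp

lemma base_num {q C t h : ℝ} (hq : 0 < q) (hC : 1 / q ≤ C) (hC1 : 1 ≤ C) (ht : 256 * C ^ 4 ≤ t)
    (h0 : 0 ≤ h) (hh : h ≤ 1 / t ^ 100) :
    (2 * C / q + 2) * (4 / (q * t ^ 50)) ≤ 1 / t ^ 49 ∧
    2 * (4 * C / q * (8 / (q ^ 2 * (t ^ 100 * t ^ 50))) + 2 * (2 * h * (4 / (q * t ^ 50))) ^ 2)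
      ≤ 2 * (1 / t ^ 149) ∧ 4 / (q * t ^ 50) ≤ 1 := by
  have hC3 : C ^ 3 ≤ C ^ 4 := pow_le_pow_right₀ hC1 (by norm_num)
  have hC2 : C ^ 2 ≤ C ^ 4 := pow_le_pow_right₀ hC1 (by norm_num)
  have hC4 : 1 ≤ C ^ 4 := one_le_pow₀ hC1
  have hC5 : C ≤ C ^ 4 := le_self_pow₀ hC1 (by norm_num)
  have ht1 : 1 ≤ t := by linarith
  have ht0 : 0 < t := by linarith
  set x := 1 / q with hx
  have hx0 : 0 ≤ x := by positivity
  have a1 : (2 * C / q + 2) * (4 / (q * t ^ 50)) = (2 * C * x + 2) * (4 * x) / t / t ^ 49 := by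
    rw [hx]; field_simp
  have a2 : 4 * C / q * (8 / (q ^ 2 * (t ^ 100 * t ^ 50))) = 32 * C * x ^ 3 / t / t ^ 149 := by
    rw [hx]; field_simp; ring
  have a3 : 4 / (q * t ^ 50) = 4 * x / t ^ 50 := by rw [hx]; field_simp
  have a4 : 4 * x / t ^ 50 ≤ 1 := by
    rw [div_le_one (by positivity)]
    have : t ≤ t ^ 50 := le_self_pow₀ ht1 (by norm_num)
    linarith
  refine ⟨?_, ?_, a3 ▸ a4⟩
  · rw [a1]
    gcongr
    rw [div_le_one ht0]
    have : (2 * C * x + 2) * (4 * x) ≤ (2 * C * C + 2) * (4 * C) := by gcongr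
    nlinarith
  · rw [a2, a3]
    have b1 : 32 * C * x ^ 3 / t ≤ 1 / 2 := by
      rw [div_le_iff₀ ht0]
      have : 32 * C * x ^ 3 ≤ 32 * C * C ^ 3 := by gcongr
      nlinarith
    have b2 : 32 * C * x ^ 3 / t / t ^ 149 ≤ 1 / 2 / t ^ 149 := by gcongr
    have b3 : 2 * h * (4 * x / t ^ 50) ≤ 2 * (1 / t ^ 100) * 1 := by gcongr
    have b4 : (2 * h * (4 * x / t ^ 50)) ^ 2 ≤ (2 * (1 / t ^ 100) * 1) ^ 2 := by gcongr
    have b5 : 2 * (2 * (1 / t ^ 100) * 1) ^ 2 ≤ 1 / 2 / t ^ 149 := by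
      have e : 2 * (2 * (1 / t ^ 100) * 1) ^ 2 = 8 / t ^ 51 / t ^ 149 := by field_simp; ring
      rw [e]
      refine div_le_div_of_nonneg_right ?_ (by positivity)
      rw [div_le_iff₀ (by positivity)]
      have : t ≤ t ^ 51 := le_self_pow₀ ht1 (by norm_num)
      linarith
    have e : 1 / 2 / t ^ 149 = 1 / t ^ 149 / 2 := by ring
    linarith

lemma exists_four_pow {a : ℕ} (ha : 2 ≤ a) : ∃ l, a ≤ 2 ^ l * 2 ^ l ∧ 2 ^ l * 2 ^ l ≤ 4 * a := by
  have h1 : 0 < Nat.clog 4 a := Nat.clog_pos (by norm_num) (by omega)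
  have h2 := Nat.pow_pred_clog_lt_self (by norm_num : 1 < 4) (x := a) (by omega)
  have h3 := Nat.le_pow_clog (by norm_num : 1 < 4) a
  obtain ⟨l, hl⟩ : ∃ r, Nat.clog 4 a = r + 1 := ⟨Nat.clog 4 a - 1, by omega⟩
  rw [hl] at h2 h3
  rw [Nat.pred_succ] at h2
  refine ⟨l + 1, ?_, ?_⟩ <;> rw [← mul_pow]
  · exact h3
  · rw [pow_succ]; norm_num; omega

lemma base_track {U C : Ms} {c e K : ℕ} {ε : ℝ} (hU : Prob U) (hC : Prob C) (hs : Sm U (2 ^ c))
    (hE : Chi (U ^ 2) (C - U ^ 2) ε) (hε : ε ^ 2 ≤ 2 ^ c) (hK : K + 1 = 2 ^ c * 2 ^ (100 * e))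
    (he : 4 * (40 * 2 ^ (22 + 4 * c)) ^ 2 ≤ e) : Sm (U ^ K * C * U ^ K) (2 ^ (110 * e)) := by
  have hp : 1 ≤ 2 ^ (22 + 4 * c) := Nat.one_le_two_pow
  obtain ⟨l, hl1, hl2⟩ := exists_four_pow (a := 100 * e) (by nlinarith)
  have h1 : 40 * 2 ^ (22 + 4 * c + l) ≤ 100 * e := by
    rw [pow_add _ _ l, ← mul_assoc]
    apply Nat.mul_self_le_mul_self_iff.1
    calc 40 * 2 ^ (22 + 4 * c) * 2 ^ l * (40 * 2 ^ (22 + 4 * c) * 2 ^ l)
        = (40 * 2 ^ (22 + 4 * c)) ^ 2 * (2 ^ l * 2 ^ l) := by ring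
      _ ≤ (40 * 2 ^ (22 + 4 * c)) ^ 2 * (4 * (100 * e)) := Nat.mul_le_mul_left _ hl2
      _ = (4 * (40 * 2 ^ (22 + 4 * c)) ^ 2) * (100 * e) := by ring
      _ ≤ _ := Nat.mul_le_mul_right _ (by omega)
  have h2 : 22 + 4 * c + l < 2 ^ (22 + 4 * c + l) := Nat.lt_two_pow_self
  obtain ⟨R, hR⟩ : ∃ R, R + (36 + 5 * c + 2 * l) = 100 * e :=
    ⟨100 * e - (36 + 5 * c + 2 * l), by omega⟩
  have hN : 2 * K + 2 = 2 ^ (c + 100 * e + 1) := by rw [pow_succ, pow_add]; omega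
  have h3 : 100 * e < 2 ^ (100 * e) := Nat.lt_two_pow_self
  have h4 : 2 ^ (100 * e) ≤ K + 1 := by
    rw [hK]; exact Nat.le_mul_of_pos_left _ (Nat.two_pow_pos c)
  have h := nontrack (K := K) (R := R) (r := 2 ^ (22 + 4 * c + l)) hU hC hs (Nat.two_pow_pos c) two_pos hE
    rfl dvd_rfl (by omega) (by omega) Nat.one_le_two_pow (by omega) (by
      rw [hN, ← pow_mul, ← pow_add]
      calc 100 * 2 ^ (c + 100 * e + 1) * 2 ^ c ≤ 2 ^ 7 * 2 ^ (c + 100 * e + 1) * 2 ^ c := by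
            gcongr; norm_num
        _ = 2 ^ (7 + (c + 100 * e + 1) + c) := by rw [← pow_add, ← pow_add]
        _ ≤ _ := Nat.pow_le_pow_right (by norm_num) (by omega)) (by
      rw [hN]
      calc 2 ^ R ≤ 2 ^ (c + 100 * e + 1) := Nat.pow_le_pow_right (by norm_num) (by omega)
        _ ≤ 200 * 2 ^ (c + 100 * e + 1) := by omega
        _ ≤ _ := Nat.le_mul_of_pos_right _ (Nat.two_pow_pos c)) (by
      rw [hN]
      have a1 : (R : ℝ) ≤ 2 ^ l * 2 ^ l := by exact_mod_cast (by omega : R ≤ 2 ^ l * 2 ^ l)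
      push_cast
      calc (2 : ℝ) ^ 35 * 2 ^ 2 * ε ^ 2 * 2 ^ c * 2 ^ R * R
          ≤ 2 ^ 35 * 2 ^ 2 * 2 ^ c * 2 ^ c * 2 ^ R * (2 ^ l * 2 ^ l) := by gcongr
        _ = 2 ^ (35 + 2 + c + c + R + (l + l)) := by simp only [pow_add]
        _ ≤ _ := pow_le_pow_right₀ one_le_two (by omega))
  set r₀ := 2 ^ (22 + 4 * c + l) with hr₀
  refine (sm_of_ovl (r := 4 * 4 ^ (2 * r₀ + 1)) h (by positivity) (le_of_eq ?_)).mono ?_
  · push_cast
    rw [← pow_mul, mul_comm (2 * r₀ + 1) 2, pow_mul (1 / 2 : ℝ), mul_assoc, ← mul_pow]; norm_num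
  · have a1 : 1 ≤ r₀ * 2 ^ R := Nat.mul_pos (Nat.two_pow_pos _) (Nat.two_pow_pos _)
    calc (2 * r₀ * 2 ^ R + 1 + 1) * (4 * 4 ^ (2 * r₀ + 1))
        ≤ (2 ^ 2 * (r₀ * 2 ^ R)) * (4 * 4 ^ (2 * r₀ + 1)) := by
          refine Nat.mul_le_mul_right _ ?_
          rw [mul_assoc]; omega
      _ = 2 ^ (2 + (22 + 4 * c + l + R) + (2 + 2 * (2 * r₀ + 1))) := by
          have e4 : 4 * 4 ^ (2 * r₀ + 1) = 2 ^ (2 + 2 * (2 * r₀ + 1)) := by
            rw [pow_add 2, pow_mul 2, show (2 : ℕ) ^ 2 = 4 from rfl]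
          rw [e4, pow_add 2 _ (2 + _), pow_add 2 2 (_ + R), pow_add 2 _ R, ← hr₀]
      _ ≤ _ := Nat.pow_le_pow_right (by norm_num) (by omega)

theorem base {q : ℝ} (hq : 0 < q) (hq1 : q ≤ 1) : ∃ e₀ : ℕ, ∀ e ≥ e₀,
    ∃ (x y : List Bool) (X : Ms), x.length = y.length ∧ x ≠ y ∧ y.length ≤ 2 ^ (110 * e) ∧
      Inv (phi q y) (phi q y) X 0 1 0 (2 ^ (110 * e)) ((1 / 2) ^ (149 * e)) 0 0
        ((1 / 2) ^ (49 * e)) 1 ∧ L1 (X - phi q x) ((1 / 2) ^ 2 ^ e) := by
  obtain ⟨c, hc⟩ := pow_unbounded_of_one_lt (4 / q ^ 4) (one_lt_two (α := ℝ))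
  have hq4 : q ^ 4 ≤ q := pow_le_of_le_one hq.le hq1 (by norm_num)
  have hr : 4 ≤ ((2 ^ c : ℕ) : ℝ) * q ^ 4 := by
    rw [div_lt_iff₀ (by positivity)] at hc; push_cast; linarith
  have hC1 : (1 : ℝ) ≤ 2 ^ c := one_le_pow₀ one_le_two
  have hC : 1 / q ≤ 2 ^ c := by
    rw [div_le_iff₀ hq]; push_cast at hr
    have : (2 : ℝ) ^ c * q ^ 4 ≤ 2 ^ c * q := by gcongr
    linarith
  refine ⟨4 * (40 * 2 ^ (22 + 4 * c)) ^ 2, fun e he => ?_⟩
  have h1 : 22 + 4 * c < 2 ^ (22 + 4 * c) := Nat.lt_two_pow_self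
  have he1 : 22 + 4 * c ≤ e := by nlinarith
  obtain ⟨J, hJ⟩ : ∃ J, J + 1 = 2 ^ (100 * e) := ⟨2 ^ (100 * e) - 1, by
    have := Nat.one_le_two_pow (n := 100 * e); omega⟩
  obtain ⟨K, hK⟩ : ∃ K, K + 1 = 2 ^ c * (J + 1) := ⟨2 ^ c * (J + 1) - 1, by
    have : 0 < 2 ^ c * (J + 1) := Nat.mul_pos (Nat.two_pow_pos c) (Nat.succ_pos J)
    omega⟩
  have hW := lt_prob hq.le hq1 true
  have hV := lt_prob hq.le hq1 false
  obtain ⟨D, d1, d2, d3, d4⟩ := base_pair hq hq1 hW hV (lt_ge hq1 _) (lt_ge hq1 _) hr hK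
  have hU := hW.mul hV
  have hsm := base_track (C := lt q true * lt q false * lt q true) hU (hU.mul hW)
    (base_sm hq hq1 (lt_ge hq1 _) (lt_ge hq1 _) hr) (ε := (1 / q) ^ 2)
    (by rw [sq, ← mul_sub]; exact ((base_ab hq hq1 hW hV (lt_ge hq1 _)).chi hU).prob_mul hU)
    (by rw [← pow_mul, div_pow, one_pow, div_le_iff₀ (by positivity)]
        push_cast at hr; norm_num; linarith) (hJ ▸ hK) he
  have hu : phi q [true, false] = lt q true * lt q false := by simp [phi]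
  have ey : phi q (rep K [true, false] ++ [true, false, true] ++ rep K [true, false]) =
      (lt q true * lt q false) ^ K * (lt q true * lt q false * lt q true) *
        (lt q true * lt q false) ^ K := by
    rw [phi_append, phi_append, phi_rep, hu]; simp [phi, mul_assoc]
  have ex : phi q (rep K [true, false] ++ [true, true, false] ++ rep K [true, false]) =
      (lt q true * lt q false) ^ K * (lt q true * (lt q true * lt q false)) *
        (lt q true * lt q false) ^ K := by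
    rw [phi_append, phi_append, phi_rep, hu]; simp [phi]
  rw [← ey] at d2 d3 d4 hsm
  rw [← ex] at d4
  have hY := phi_prob hq.le hq1 (rep K [true, false] ++ [true, false, true] ++ rep K [true, false])
  have hJ' : (J : ℝ) + 1 = (2 ^ e) ^ 100 := by
    rw [← pow_mul, mul_comm]; exact_mod_cast hJ
  have hs : √((J : ℝ) + 1) = (2 ^ e) ^ 50 := by
    rw [hJ', show 100 = 50 * 2 from rfl, pow_mul, Real.sqrt_sq (by positivity)]
  have hh : (1 / 2 : ℝ) ^ J ≤ 1 / (2 ^ e) ^ 100 := by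
    rw [← hJ', one_div_pow]
    refine one_div_le_one_div_of_le (by positivity) ?_
    exact_mod_cast Nat.lt_two_pow_self
  obtain ⟨n1, n2, n3⟩ := base_num (t := 2 ^ e) hq hC hC1 (by
    rw [← pow_mul, show (256 : ℝ) = 2 ^ 8 by norm_num, ← pow_add]
    exact pow_le_pow_right₀ one_le_two (by omega)) (by positivity) hh
  rw [hs] at d2 d3 d4
  rw [hJ'] at d3
  push_cast at d2 d3
  have p1 : ∀ a : ℕ, (1 : ℝ) / (2 ^ e) ^ a = (1 / 2) ^ (a * e) := fun a => by
    rw [← pow_mul, one_div_pow, mul_comm]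
  rw [p1] at n1 n2
  have d2' := d2.mono n1
  refine ⟨rep K [true, false] ++ [true, true, false] ++ rep K [true, false],
    rep K [true, false] ++ [true, false, true] ++ rep K [true, false], _ + D, by simp, ?_, ?_,
    inv_zero hY ⟨?_, ?_⟩ ?_ ?_ hsm (Nat.two_pow_pos _), d4.mono ?_⟩
  · intro h
    simp at h
  · simp only [List.length_append, length_rep, List.length_cons, List.length_nil]
    have : 2 ^ c * (J + 1) * 4 ≤ 2 ^ (110 * e) := by
      rw [hJ, show (4 : ℕ) = 2 ^ 2 from rfl, ← pow_add, ← pow_add]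
      exact Nat.pow_le_pow_right (by norm_num) (by omega)
    omega
  · have i1 := d2'.mono (pow_le_one₀ (by norm_num) (by norm_num))
    nth_rewrite 1 [← add_sub_cancel_left (phi q _) D] at i1
    have := i1.le_down
    rw [sub_self, zero_smul] at this
    exact this.nn nn_zero
  · rw [mass_add, d1, hY.one, add_zero]
  · rw [add_sub_cancel_left]; exact d3.mono (by linarith)
  · rw [add_sub_cancel_left]; exact d2'
  · have a1 : 2 ^ e + 3 ≤ J := by
      have : 2 ^ (e + 2) ≤ 2 ^ (100 * e) := Nat.pow_le_pow_right (by norm_num) (by omega)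
      have : 2 ^ 1 ≤ 2 ^ e := Nat.pow_le_pow_right (by norm_num) (by omega)
      rw [pow_add] at *; omega
    have a2 : (1 / 2 : ℝ) ^ J ≤ (1 / 2) ^ (2 ^ e + 3) :=
      pow_le_pow_of_le_one (by norm_num) (by norm_num) a1
    rw [pow_add] at a2
    have a3 : (0 : ℝ) ≤ (1 / 2) ^ J := by positivity
    have a4 : (0 : ℝ) ≤ (1 / 2) ^ 2 ^ e := by positivity
    nlinarith

end Vale.Agent.P321
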