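import Mathlib

/-!
Elementary bounds on the symmetric binomial distribution.
-/

namespace Vale.Agent.P321

open Finset

/-- symmetric binomial weights -/
noncomputable def rho (J u : ℕ) : ℝ := (J.choose u : ℝ) / 2 ^ J

/-- shifted binomial weights -/
noncomputable def rho' (J : ℕ) : ℕ → ℝ
  | 0 => 0
  | u + 1 => rho J u

/-- first differences of the binomial weights -/
noncomputable def drho (J u : ℕ) : ℝ := rho' J u - rho J u

lemma rho_nonneg (J u : ℕ) : 0 ≤ rho J u := by unfold rho; positivity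

lemma rho_eq_zero {J u : ℕ} (h : J < u) : rho J u = 0 := by
  simp [rho, Nat.choose_eq_zero_of_lt h]

lemma drho_eq_zero {J u : ℕ} (h : J + 1 < u) : drho J u = 0 := by
  obtain ⟨v, rfl⟩ : ∃ v, u = v + 1 := ⟨u - 1, by omega⟩
  simp only [drho, rho']
  rw [rho_eq_zero (by omega), rho_eq_zero (by omega), sub_zero]

lemma sum_le_of_supp {f : ℕ → ℝ} (hf : ∀ u, 0 ≤ f u) (s t : Finset ℕ)
    (h : ∀ u, u ∉ t → f u = 0) : ∑ u ∈ s, f u ≤ ∑ u ∈ t, f u := by
  calc ∑ u ∈ s, f u ≤ ∑ u ∈ s ∪ t, f u :=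
        Finset.sum_le_sum_of_subset_of_nonneg Finset.subset_union_left fun _ _ _ => hf _
    _ = ∑ u ∈ t, f u := (Finset.sum_subset Finset.subset_union_right fun u _ hu => h u hu).symm

lemma rho_succ_sum (n : ℕ) (f : ℕ → ℝ) :
    ∑ u ∈ range (n + 2), rho (n + 1) u * f u =
      (∑ u ∈ range (n + 1), rho n u * f u + ∑ u ∈ range (n + 1), rho n u * f (u + 1)) / 2 := by
  have h := Finset.sum_choose_succ_mul (R := ℝ) (fun i _ => f i / 2 ^ (n + 1)) n
  have e : ∀ (m : ℕ) (g : ℕ → ℝ) (s : Finset ℕ) (k : ℕ), ∑ u ∈ s, (m.choose u : ℝ) / 2 ^ k * g u =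
      ∑ u ∈ s, (m.choose u : ℝ) * (g u / 2 ^ k) := fun m g s k =>
    Finset.sum_congr rfl fun _ _ => by ring
  unfold rho
  rw [e, h, add_div, Finset.sum_div, Finset.sum_div]
  congr 1 <;> exact Finset.sum_congr rfl fun _ _ => by rw [pow_succ]; field_simp

lemma rho_var (n : ℕ) (c : ℝ) :
    ∑ u ∈ range (n + 1), rho n u * (2 * (u : ℝ) - n + c) ^ 2 = n + c ^ 2 := by
  induction n generalizing c with
  | zero => simp [rho]
  | succ n ih =>
    rw [rho_succ_sum n fun u => (2 * (u : ℝ) - (n + 1 : ℕ) + c) ^ 2]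
    have h1 := ih (c - 1)
    have h2 := ih (c + 1)
    have e1 : ∑ u ∈ range (n + 1), rho n u * (2 * (u : ℝ) - (n + 1 : ℕ) + c) ^ 2 =
        ∑ u ∈ range (n + 1), rho n u * (2 * (u : ℝ) - n + (c - 1)) ^ 2 :=
      Finset.sum_congr rfl fun _ _ => by push_cast; ring
    have e2 : ∑ u ∈ range (n + 1), rho n u * (2 * ((u + 1 : ℕ) : ℝ) - (n + 1 : ℕ) + c) ^ 2 =
        ∑ u ∈ range (n + 1), rho n u * (2 * (u : ℝ) - n + (c + 1)) ^ 2 :=
      Finset.sum_congr rfl fun _ _ => by push_cast; ring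
    rw [e1, e2, h1, h2]; push_cast; ring

lemma rho_sum (n : ℕ) : ∑ u ∈ range (n + 1), rho n u = 1 := by
  unfold rho
  rw [← Finset.sum_div, ← Nat.cast_sum, Nat.sum_range_choose]
  push_cast; field_simp

lemma rho_sum_le (n : ℕ) (s : Finset ℕ) : ∑ u ∈ s, rho n u ≤ 1 := by
  rw [← rho_sum n]
  refine sum_le_of_supp (rho_nonneg n) _ _ fun u hu => rho_eq_zero ?_
  rw [Finset.mem_range] at hu; omega

lemma drho_eq (J u : ℕ) :
    drho J u = rho (J + 1) u * (2 * (2 * (u : ℝ) - (J + 1 : ℕ)) / (J + 1)) := by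
  have hJ : (J : ℝ) + 1 ≠ 0 := by positivity
  cases u with
  | zero =>
    simp only [drho, rho', rho, Nat.choose_zero_right]
    push_cast; rw [pow_succ]; field_simp; ring
  | succ u =>
    have h1 : ((J : ℝ) + 1) * J.choose u = (J + 1).choose (u + 1) * ((u : ℝ) + 1) := by
      exact_mod_cast Nat.add_one_mul_choose_eq J u
    have h2 : (((J + 1).choose (u + 1) : ℕ) : ℝ) = J.choose u + J.choose (u + 1) := by
      exact_mod_cast Nat.choose_succ_succ' J u
    simp only [drho, rho', rho]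
    push_cast; rw [pow_succ]; field_simp
    linear_combination 2 * h1 + (J + 1 : ℝ) * h2

lemma drho_abs_sum (J : ℕ) : ∑ u ∈ range (J + 2), |drho J u| ≤ 2 / √(J + 1) := by
  have hJ : (0 : ℝ) < J + 1 := by positivity
  have hs : 0 < √((J : ℝ) + 1) := Real.sqrt_pos.2 hJ
  have e : ∑ u ∈ range (J + 2), |drho J u| =
      2 / (J + 1) * ∑ u ∈ range (J + 2), rho (J + 1) u * |2 * (u : ℝ) - (J + 1 : ℕ)| := by
    rw [Finset.mul_sum]
    refine Finset.sum_congr rfl fun u _ => ?_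
    rw [drho_eq, abs_mul, abs_of_nonneg (rho_nonneg _ _), abs_div, abs_mul, abs_of_pos hJ,
      abs_two]
    ring
  have h1 : (∑ u ∈ range (J + 2), rho (J + 1) u * |2 * (u : ℝ) - (J + 1 : ℕ)|) ^ 2 ≤
      (∑ u ∈ range (J + 2), rho (J + 1) u) *
        ∑ u ∈ range (J + 2), rho (J + 1) u * (2 * (u : ℝ) - (J + 1 : ℕ) + 0) ^ 2 := by
    refine Finset.sum_sq_le_sum_mul_sum_of_sq_le_mul _ (fun u _ => rho_nonneg _ _)
      (fun u _ => mul_nonneg (rho_nonneg _ _) (sq_nonneg _)) fun u _ => le_of_eq ?_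
    rw [mul_pow, sq_abs]; ring
  rw [rho_sum (J + 1), rho_var (J + 1) 0] at h1
  have h2 : ∑ u ∈ range (J + 2), rho (J + 1) u * |2 * (u : ℝ) - (J + 1 : ℕ)| ≤ √(J + 1) := by
    apply Real.le_sqrt_of_sq_le
    push_cast at h1 ⊢; linarith
  rw [e]
  refine (mul_le_mul_of_nonneg_left h2 (by positivity)).trans (le_of_eq ?_)
  field_simp
  exact Real.sq_sqrt hJ.le

lemma drho_abs_sum_le (J : ℕ) (s : Finset ℕ) : ∑ u ∈ s, |drho J u| ≤ 2 / √(J + 1) := by
  refine le_trans ?_ (drho_abs_sum J)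
  refine sum_le_of_supp (fun _ => abs_nonneg _) _ _ fun u hu => ?_
  rw [Finset.mem_range] at hu
  rw [drho_eq_zero (by omega), abs_zero]

lemma rho_tele (J v j : ℕ) : rho J v - rho J (v + j) = ∑ l ∈ range j, drho J (v + l + 1) := by
  induction j with
  | zero => simp
  | succ j ih => rw [Finset.sum_range_succ, ← ih]; simp only [drho, rho', ← add_assoc]; ring

lemma rho_le (J u : ℕ) : rho J u ≤ 2 / √(J + 1) := by
  have h := rho_tele J u (J + 1)
  rw [rho_eq_zero (show J < u + (J + 1) by omega), sub_zero] at h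
  rw [h]
  refine le_trans ?_ (drho_abs_sum_le J ((range (J + 1)).image fun l => u + l + 1))
  rw [Finset.sum_image fun a _ b _ h => by simpa using h]
  exact Finset.sum_le_sum fun _ _ => le_abs_self _

lemma rho_sq_sum (J : ℕ) (s : Finset ℕ) : ∑ u ∈ s, rho J u ^ 2 ≤ 2 / √(J + 1) := by
  have h0 : (0 : ℝ) ≤ 2 / √(J + 1) := by positivity
  calc ∑ u ∈ s, rho J u ^ 2 ≤ ∑ u ∈ s, 2 / √(J + 1) * rho J u :=
        Finset.sum_le_sum fun u _ => by
          rw [sq]; exact mul_le_mul_of_nonneg_right (rho_le J u) (rho_nonneg _ _)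
    _ ≤ 2 / √(J + 1) := by
        rw [← Finset.mul_sum]
        exact mul_le_of_le_one_right h0 (rho_sum_le J s)

lemma drho_sq_sum (J : ℕ) : ∑ u ∈ range (J + 2), drho J u ^ 2 ≤ 8 / ((J + 1) * √(J + 1)) := by
  have hJ : (0 : ℝ) < J + 1 := by positivity
  have hs : 0 < √((J : ℝ) + 1) := Real.sqrt_pos.2 hJ
  have hm : ∀ u, rho (J + 1) u ≤ 2 / √(J + 1) := fun u => (rho_le (J + 1) u).trans (by
    refine div_le_div_of_nonneg_left (by norm_num) hs (Real.sqrt_le_sqrt ?_)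
    push_cast; linarith)
  calc ∑ u ∈ range (J + 2), drho J u ^ 2
      ≤ ∑ u ∈ range (J + 2), (2 / √(J + 1) * (4 / (J + 1) ^ 2)) *
          (rho (J + 1) u * (2 * (u : ℝ) - (J + 1 : ℕ) + 0) ^ 2) := by
        refine Finset.sum_le_sum fun u _ => ?_
        rw [drho_eq]
        have h0 := rho_nonneg (J + 1) u
        have h1 : 0 ≤ 4 / ((J : ℝ) + 1) ^ 2 * (rho (J + 1) u * (2 * (u : ℝ) - (J + 1 : ℕ)) ^ 2) := by
          positivity
        have h2 := mul_le_mul_of_nonneg_right (hm u) h1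
        refine le_of_eq_of_le ?_ (h2.trans (le_of_eq (by ring)))
        field_simp; ring
    _ = 8 / ((J + 1) * √(J + 1)) := by
        rw [← Finset.mul_sum, rho_var (J + 1) 0]
        push_cast; field_simp; ring

lemma rho_sep_sum (J N : ℕ) (hN : 0 < N) (A : Finset ℕ)
    (hA : ∀ a ∈ A, ∀ b ∈ A, a < b → a + N ≤ b) :
    ∑ v ∈ A, rho J v ≤ 1 / N + 2 / √(J + 1) := by
  have hN' : (0 : ℝ) < N := by exact_mod_cast hN
  have key : ∀ (f : ℕ → ℝ) (B : ℝ), (∀ s : Finset ℕ, ∑ u ∈ s, f u ≤ B) →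
      ∑ v ∈ A, ∑ j ∈ range N, f (v + j) ≤ B := by
    intro f B hf
    rw [← Finset.sum_product']
    refine le_trans (le_of_eq ?_) (hf ((A ×ˢ range N).image fun x => x.1 + x.2))
    rw [Finset.sum_image]
    rintro ⟨a, i⟩ ha ⟨b, j⟩ hb h
    simp only [Finset.coe_product, Set.mem_prod, Finset.mem_coe, Finset.mem_range] at ha hb h
    rcases lt_trichotomy a b with hab | hab | hab
    · have := hA a ha.1 b hb.1 hab; omega
    · subst hab; have : i = j := by omega
      rw [this]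
    · have := hA b hb.1 a ha.1 hab; omega
  have h1 := key (rho J) 1 (rho_sum_le J)
  have h2 := key (fun u => |drho J (u + 1)|) (2 / √(J + 1)) fun s => by
    refine le_trans (le_of_eq ?_) (drho_abs_sum_le J (s.image (· + 1)))
    rw [Finset.sum_image fun a _ b _ h => by simpa using h]
  have h3 : ∀ v, (N : ℝ) * rho J v ≤ ∑ j ∈ range N, rho J (v + j) +
      N * ∑ j ∈ range N, |drho J (v + j + 1)| := by
    intro v
    have : ∀ j ∈ range N, rho J v ≤ rho J (v + j) + ∑ l ∈ range N, |drho J (v + l + 1)| := by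
      intro j hj
      have h4 := rho_tele J v j
      have h5 : ∑ l ∈ range j, drho J (v + l + 1) ≤ ∑ l ∈ range N, |drho J (v + l + 1)| :=
        (Finset.sum_le_sum fun _ _ => le_abs_self _).trans
          (Finset.sum_le_sum_of_subset_of_nonneg
            (Finset.range_subset_range.2 (Finset.mem_range.1 hj).le) fun _ _ _ => abs_nonneg _)
      linarith
    have h6 := Finset.sum_le_sum this
    rw [Finset.sum_add_distrib] at h6
    simpa using h6
  have h4 := Finset.sum_le_sum fun v (_ : v ∈ A) => h3 v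
  rw [← Finset.mul_sum, Finset.sum_add_distrib, ← Finset.mul_sum] at h4
  have h5 := mul_le_mul_of_nonneg_left h2 hN'.le
  rw [div_add' _ _ _ hN'.ne', le_div_iff₀ hN']
  linarith

lemma half_pow_le (J : ℕ) : (1 / 2 : ℝ) ^ J ≤ 1 / √(J + 1) := by
  have hJ : (0 : ℝ) < J + 1 := by positivity
  have hs : 0 < √((J : ℝ) + 1) := Real.sqrt_pos.2 hJ
  rw [one_div_pow]
  refine one_div_le_one_div_of_le hs ?_
  have h1 : (J : ℝ) + 1 ≤ 2 ^ J := by exact_mod_cast Nat.lt_two_pow_self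
  have h2 : (1 : ℝ) ≤ 2 ^ J := one_le_pow₀ one_le_two
  apply Real.sqrt_le_iff.2 ⟨by positivity, by nlinarith⟩

end Vale.Agent.P321
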