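import Vale.Agent.P321.Meas

/-!
The chi-square size of a signed measure against a reference measure.
-/

namespace Vale.Agent.P321

open Finset

/-- pointwise order -/
def Le (F G : Ms) : Prop := Nn (G - F)

lemma Le.rfl {F : Ms} : Le F F := by unfold Le; rw [sub_self]; exact nn_zero
lemma le_of_eq' {F G : Ms} (h : F = G) : Le F G := h ▸ Le.rfl
lemma Le.trans {F G H : Ms} (h1 : Le F G) (h2 : Le G H) : Le F H := by
  have := Nn.add h1 h2
  unfold Le
  convert this using 1; abel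
lemma Le.ev_le {F G : Ms} (h : Le F G) {g : Wd → ℝ} (hg : ∀ w, 0 ≤ g w) : ev F g ≤ ev G g := by
  have := Nn.ev_nonneg h hg
  rw [ev_sub] at this; linarith
lemma Le.mass_le {F G : Ms} (h : Le F G) : mass F ≤ mass G := h.ev_le fun _ => zero_le_one
lemma Le.add {F G F' G' : Ms} (h : Le F G) (h' : Le F' G') : Le (F + F') (G + G') := by
  have := Nn.add h h'
  unfold Le
  convert this using 1; abel
lemma Le.smul {F G : Ms} {c : ℝ} (hc : 0 ≤ c) (h : Le F G) : Le (c • F) (c • G) := by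
  have := Nn.smul hc h
  unfold Le
  rwa [smul_sub] at this
lemma Le.mul_right {F G H : Ms} (h : Le F G) (hH : Nn H) : Le (F * H) (G * H) := by
  have := Nn.mul h hH
  unfold Le
  rwa [sub_mul] at this
lemma Le.mul_left {F G H : Ms} (h : Le F G) (hH : Nn H) : Le (H * F) (H * G) := by
  have := Nn.mul hH h
  unfold Le
  rwa [mul_sub] at this
lemma Le.nn {F G : Ms} (h : Le F G) (hF : Nn F) : Nn G := by
  have := Nn.add h hF
  rwa [sub_add_cancel] at this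
lemma Le.mul {F G F' G' : Ms} (h : Le F G) (h' : Le F' G') (hF : Nn F) (hF' : Nn F') :
    Le (F * F') (G * G') :=
  (h.mul_right hF').trans (h'.mul_left (h.nn hF))
lemma Le.pow {F G : Ms} (h : Le F G) (hF : Nn F) (n : ℕ) : Le (F ^ n) (G ^ n) := by
  induction n with
  | zero => simpa using Le.rfl
  | succ n ih => rw [pow_succ, pow_succ]; exact ih.mul h (hF.pow n) hF
lemma le_add_right {F G : Ms} (hG : Nn G) : Le F (F + G) := by
  unfold Le; rwa [add_sub_cancel_left]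
lemma le_add_left {F G : Ms} (hG : Nn G) : Le F (G + F) := by
  unfold Le; rwa [add_sub_cancel_right]
lemma le_smul_of_le {P : Ms} (hP : Nn P) {a b : ℝ} (h : a ≤ b) : Le (a • P) (b • P) := by
  unfold Le; rw [← sub_smul]; exact hP.smul (sub_nonneg.2 h)
lemma le_iff {F G : Ms} : Le F G ↔ ∀ w, F.coeff w ≤ G.coeff w := by
  unfold Le Nn
  simp only [MonoidAlgebra.coeff_sub, Finsupp.coe_sub, Pi.sub_apply, sub_nonneg]

/-- `F` has a density against `P` whose squared `L²(P)` norm is at most `η` -/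
structure Chi (P F : Ms) (η : ℝ) : Prop where
  nn : Nn P
  nonneg : 0 ≤ η
  le : ∀ g : Wd → ℝ, ev F g ^ 2 ≤ η * ev P fun w => g w ^ 2

lemma Nn.sq_nonneg' {P : Ms} (hP : Nn P) (g : Wd → ℝ) : 0 ≤ ev P fun w => g w ^ 2 :=
  hP.ev_nonneg fun _ => sq_nonneg _

lemma Chi.mono {P F : Ms} {η η' : ℝ} (h : Chi P F η) (hη : η ≤ η') : Chi P F η' :=
  ⟨h.nn, h.nonneg.trans hη, fun g =>
    (h.le g).trans (mul_le_mul_of_nonneg_right hη (h.nn.sq_nonneg' g))⟩

lemma Chi.ref {P P' F : Ms} {η c : ℝ} (h : Chi P F η) (hP' : Nn P') (hc : 0 ≤ c)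
    (hle : Le P (c • P')) : Chi P' F (c * η) := by
  refine ⟨hP', mul_nonneg hc h.nonneg, fun g => (h.le g).trans ?_⟩
  have := hle.ev_le (g := fun w => g w ^ 2) fun _ => sq_nonneg _
  rw [ev_smul] at this
  have := mul_le_mul_of_nonneg_left this h.nonneg
  linarith

lemma Chi.ref1 {P P' F : Ms} {η : ℝ} (h : Chi P F η) (hle : Le P P') : Chi P' F η := by
  have := h.ref (hle.nn h.nn) zero_le_one (by rwa [one_smul])
  rwa [one_mul] at this

lemma chi_zero {P : Ms} (hP : Nn P) : Chi P 0 0 := ⟨hP, le_rfl, fun g => by simp⟩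

lemma Chi.smul {P F : Ms} {η : ℝ} (h : Chi P F η) (c : ℝ) : Chi P (c • F) (c ^ 2 * η) :=
  ⟨h.nn, mul_nonneg (sq_nonneg _) h.nonneg, fun g => by
    rw [ev_smul, mul_pow, mul_assoc]
    exact mul_le_mul_of_nonneg_left (h.le g) (sq_nonneg _)⟩

lemma Chi.neg {P F : Ms} {η : ℝ} (h : Chi P F η) : Chi P (-F) η := by
  have := h.smul (-1)
  simpa using this

lemma Chi.add_sq {P F G : Ms} {a b : ℝ} (h1 : Chi P F (a ^ 2)) (h2 : Chi P G (b ^ 2))
    (ha : 0 ≤ a) (hb : 0 ≤ b) : Chi P (F + G) ((a + b) ^ 2) := by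
  refine ⟨h1.nn, sq_nonneg _, fun g => ?_⟩
  have hs := h1.nn.sq_nonneg' g
  set s := ev P fun w => g w ^ 2
  have e1 : |ev F g| ≤ a * √s := by
    apply abs_le_of_sq_le_sq' _ (by positivity) |> abs_le.2
    rw [mul_pow, Real.sq_sqrt hs]; exact h1.le g
  have e2 : |ev G g| ≤ b * √s := by
    apply abs_le_of_sq_le_sq' _ (by positivity) |> abs_le.2
    rw [mul_pow, Real.sq_sqrt hs]; exact h2.le g
  have e3 : |ev F g + ev G g| ≤ (a + b) * √s := (abs_add_le _ _).trans (by linarith)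
  rw [ev_add]
  have := sq_le_sq' (abs_le.1 e3).1 (abs_le.1 e3).2
  rwa [mul_pow, Real.sq_sqrt hs] at this

lemma Chi.add_t {P F G : Ms} {a b t : ℝ} (h1 : Chi P F a) (h2 : Chi P G b) (ht : 0 < t) :
    Chi P (F + G) ((1 + t) * a + (1 + 1 / t) * b) := by
  have ha := h1.nonneg
  have hb := h2.nonneg
  refine ⟨h1.nn, by positivity, fun g => ?_⟩
  have e1 := h1.le g
  have e2 := h2.le g
  rw [ev_add]
  set x := ev F g
  set y := ev G g
  have : (x + y) ^ 2 ≤ (1 + t) * x ^ 2 + (1 + 1 / t) * y ^ 2 := by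
    have h0 : 0 ≤ (t * x - y) ^ 2 / t := by positivity
    have : (1 + t) * x ^ 2 + (1 + 1 / t) * y ^ 2 - (x + y) ^ 2 = (t * x - y) ^ 2 / t := by
      field_simp; ring
    linarith
  have f1 := mul_le_mul_of_nonneg_left e1 (by positivity : 0 ≤ 1 + t)
  have f2 := mul_le_mul_of_nonneg_left e2 (by positivity : 0 ≤ 1 + 1 / t)
  nlinarith

lemma Chi.add {P F G : Ms} {a b : ℝ} (h1 : Chi P F a) (h2 : Chi P G b) :
    Chi P (F + G) (2 * a + 2 * b) := by
  have := h1.add_t h2 one_pos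
  norm_num at this
  exact this

lemma Chi.sub {P F G : Ms} {a b : ℝ} (h1 : Chi P F a) (h2 : Chi P G b) :
    Chi P (F - G) (2 * a + 2 * b) := by
  rw [sub_eq_add_neg]; exact h1.add h2.neg

lemma Chi.sum {ι : Type*} {P : Ms} (hP : Nn P) (s : Finset ι) {F : ι → Ms} {η : ι → ℝ}
    (h : ∀ i ∈ s, Chi P (F i) (η i)) : Chi P (∑ i ∈ s, F i) (s.card * ∑ i ∈ s, η i) := by
  refine ⟨hP, mul_nonneg (Nat.cast_nonneg _) (Finset.sum_nonneg fun i hi => (h i hi).nonneg),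
    fun g => ?_⟩
  rw [ev_sum, mul_assoc, Finset.sum_mul]
  refine sq_sum_le_card_mul_sum_sq.trans ?_
  exact mul_le_mul_of_nonneg_left (Finset.sum_le_sum fun i hi => (h i hi).le g) (Nat.cast_nonneg _)

lemma chi_wt {P : Ms} (hP : Nn P) (f : Wd → ℝ) : Chi P (wt f P) (ev P fun w => f w ^ 2) :=
  ⟨hP, hP.sq_nonneg' f, fun g => by rw [ev_wt]; exact hP.cs f g⟩

lemma Chi.density {P F : Ms} {η : ℝ} (h : Chi P F η) :
    ∃ f : Wd → ℝ, F = wt f P ∧ (ev P fun w => f w ^ 2) ≤ η := by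
  classical
  have hac : ∀ w, P.coeff w = 0 → F.coeff w = 0 := by
    intro w hw
    have := h.le fun v => if v = w then 1 else 0
    have e : (fun v : Wd => (if v = w then (1 : ℝ) else 0) ^ 2) = fun v => if v = w then 1 else 0 := by
      funext v; split_ifs <;> norm_num
    rw [e, ev_indicator, ev_indicator, hw, mul_zero] at this
    exact pow_eq_zero_iff (two_ne_zero) |>.1 (le_antisymm this (sq_nonneg _))
  have hF : F = wt (fun w => F.coeff w / P.coeff w) P := by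
    ext w
    rw [coeff_wt]
    by_cases hw : P.coeff w = 0
    · rw [hw, hac w hw, mul_zero]
    · field_simp
  refine ⟨_, hF, ?_⟩
  set f := fun w => F.coeff w / P.coeff w
  have h1 := h.le f
  have h2 : ev F f = ev P fun w => f w ^ 2 := by
    conv_lhs => rw [hF, ev_wt]
    simp only [sq]
  rw [h2] at h1
  have h0 := h.nn.sq_nonneg' f
  rcases h0.eq_or_lt with h0 | h0
  · rw [← h0]; exact h.nonneg
  · nlinarith

lemma wt_add (f g : Wd → ℝ) (P : Ms) : wt (fun w => f w + g w) P = wt f P + wt g P :=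
  ev_ext fun h => by rw [ev_add, ev_wt, ev_wt, ev_wt, ← ev_fadd]; simp only [add_mul]
lemma wt_smul (c : ℝ) (f : Wd → ℝ) (P : Ms) : wt (fun w => c * f w) P = c • wt f P :=
  ev_ext fun h => by rw [ev_smul, ev_wt, ev_wt, ← ev_fmul]; simp only [mul_assoc]
lemma wt_one (P : Ms) : wt (fun _ => 1) P = P :=
  ev_ext fun h => by rw [ev_wt]; simp only [one_mul]
lemma mass_wt (f : Wd → ℝ) (P : Ms) : mass (wt f P) = ev P f := by
  unfold mass; rw [ev_wt]; simp only [mul_one]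

lemma Chi.quad {P F G : Ms} {a b : ℝ} (h1 : Chi P F a) (h2 : Chi P G b) :
    ∃ c : ℝ, ∀ s t : ℝ, Chi P (s • F + t • G) (s ^ 2 * a + 2 * s * t * c + t ^ 2 * b) := by
  obtain ⟨f, rfl, hf⟩ := h1.density
  obtain ⟨g, rfl, hg⟩ := h2.density
  refine ⟨ev P fun w => f w * g w, fun s t => ?_⟩
  have := chi_wt h1.nn fun w => s * f w + t * g w
  rw [wt_add, wt_smul, wt_smul] at this
  refine this.mono ?_
  have e : (fun w => (s * f w + t * g w) ^ 2) =
      fun w => (s ^ 2 * f w ^ 2 + (2 * s * t) * (f w * g w)) + t ^ 2 * g w ^ 2 := by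
    funext w; ring
  rw [e, ev_fadd, ev_fadd, ev_fmul, ev_fmul, ev_fmul]
  have := mul_le_mul_of_nonneg_left hf (sq_nonneg s)
  have := mul_le_mul_of_nonneg_left hg (sq_nonneg t)
  linarith

lemma Chi.add_ref {P F : Ms} {a : ℝ} (hP : Prob P) (h : Chi P F a) (s t : ℝ) :
    Chi P (s • F + t • P) (s ^ 2 * a + 2 * s * t * mass F + t ^ 2) := by
  obtain ⟨f, rfl, hf⟩ := h.density
  have := chi_wt h.nn fun w => s * f w + t * 1
  rw [wt_add, wt_smul, wt_smul, wt_one] at this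
  refine this.mono ?_
  have e : (fun w => (s * f w + t * 1) ^ 2) =
      fun w => (s ^ 2 * f w ^ 2 + (2 * s * t) * f w) + t ^ 2 := by
    funext w; ring
  rw [e, ev_fadd, ev_fadd, ev_fmul, ev_fmul, ev_const, hP.one, mass_wt]
  have := mul_le_mul_of_nonneg_left hf (sq_nonneg s)
  linarith

lemma chi_self {P : Ms} (hP : Prob P) : Chi P P 1 := by
  have := (chi_zero hP.nn).add_ref hP 0 1
  simpa using this

lemma Chi.center {P F : Ms} {a : ℝ} (hP : Prob P) (h : Chi P F a) (hF : mass F = 1) :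
    Chi P (F - P) (a - 1) := by
  have := h.add_ref hP 1 (-1)
  rw [hF, one_smul, neg_one_smul, ← sub_eq_add_neg] at this
  convert this using 1; ring

lemma Chi.uncenter {P F : Ms} {a : ℝ} (hP : Prob P) (h : Chi P (F - P) a) (hF : mass F = 1) :
    Chi P F (1 + a) := by
  have := h.add_ref hP 1 1
  rw [mass_sub, hF, hP.one, one_smul, one_smul, sub_add_cancel] at this
  convert this using 1; ring

lemma chi_fiber {ι : Type*} (s : Finset ι) {P₁ P₂ : Ms} (hP₁ : Nn P₁) (hP₂ : Nn P₂)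
    (F : ι → Ms) (γ : ι → Wd → ℝ) (N : Wd → ℝ)
    (h : ∀ v, Chi P₁ (∑ i ∈ s, γ i v • F i) (N v)) :
    Chi (P₁ * P₂) (∑ i ∈ s, F i * wt (γ i) P₂) (ev P₂ N) := by
  refine ⟨hP₁.mul hP₂, hP₂.ev_nonneg fun v => (h v).nonneg, fun g => ?_⟩
  set a : Wd → ℝ := fun v => ev (∑ i ∈ s, γ i v • F i) fun w => g (w * v) with ha
  set b : Wd → ℝ := fun v => ev P₁ fun w => g (w * v) ^ 2 with hb
  have hb0 : ∀ v, 0 ≤ b v := fun v => hP₁.sq_nonneg' _
  have e1 : ev (∑ i ∈ s, F i * wt (γ i) P₂) g = ev P₂ a := by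
    rw [ev_sum]
    simp only [ha, ev_sum, ev_smul, ev_fsum]
    refine Finset.sum_congr rfl fun i _ => ?_
    rw [ev_mul', ev_wt]
  have e2 : (ev (P₁ * P₂) fun w => g w ^ 2) = ev P₂ b := by rw [ev_mul']
  rw [e1, e2]
  have e3 : ∀ v, |a v| ≤ √(N v) * √(b v) := by
    intro v
    apply abs_le_of_sq_le_sq' _ (by positivity) |> abs_le.2
    rw [mul_pow, Real.sq_sqrt (h v).nonneg, Real.sq_sqrt (hb0 v)]
    exact (h v).le _
  have e4 := hP₂.abs_ev_le e3
  have e5 := hP₂.cs (fun v => √(N v)) fun v => √(b v)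
  have e6 : (fun v => √(N v) ^ 2) = N := funext fun v => Real.sq_sqrt (h v).nonneg
  have e7 : (fun v => √(b v) ^ 2) = b := funext fun v => Real.sq_sqrt (hb0 v)
  rw [e6, e7] at e5
  exact (sq_le_sq' (abs_le.1 e4).1 (abs_le.1 e4).2).trans e5

lemma chi_tensor {ι : Type*} (s : Finset ι) {P₁ P₂ : Ms} (hP₁ : Nn P₁) (hP₂ : Nn P₂)
    (F G : ι → Ms) (Λ η : ι → ℝ) (hΛ : ∀ i ∈ s, 0 ≤ Λ i)
    (hF : ∀ α : ι → ℝ, Chi P₁ (∑ i ∈ s, α i • F i) (∑ i ∈ s, Λ i * α i ^ 2))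
    (hG : ∀ i ∈ s, Chi P₂ (G i) (η i)) :
    Chi (P₁ * P₂) (∑ i ∈ s, F i * G i) (∑ i ∈ s, Λ i * η i) := by
  classical
  have : ∀ i, ∃ f : Wd → ℝ, i ∈ s → G i = wt f P₂ ∧ (ev P₂ fun w => f w ^ 2) ≤ η i := by
    intro i
    by_cases hi : i ∈ s
    · obtain ⟨f, hf⟩ := (hG i hi).density
      exact ⟨f, fun _ => hf⟩
    · exact ⟨0, fun h => absurd h hi⟩
  choose γ hγ using this
  have h := chi_fiber s hP₁ hP₂ F γ (fun v => ∑ i ∈ s, Λ i * γ i v ^ 2) fun v => hF _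
  rw [Finset.sum_congr rfl fun i hi => show F i * G i = F i * wt (γ i) P₂ by rw [← (hγ i hi).1]]
  refine h.mono ?_
  rw [ev_fsum]
  refine Finset.sum_le_sum fun i hi => ?_
  rw [ev_fmul]
  exact mul_le_mul_of_nonneg_left (hγ i hi).2 (hΛ i hi)

lemma Chi.mul {P₁ P₂ F G : Ms} {a b : ℝ} (h1 : Chi P₁ F a) (h2 : Chi P₂ G b) :
    Chi (P₁ * P₂) (F * G) (a * b) := by
  have := chi_tensor (Finset.univ : Finset Unit) h1.nn h2.nn (fun _ => F) (fun _ => G)
    (fun _ => a) (fun _ => b) (fun _ _ => h1.nonneg)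
    (fun α => by simpa [mul_comm] using h1.smul (α ())) (fun _ _ => h2)
  simpa using this

lemma Chi.mul_prob {P F Q : Ms} {a : ℝ} (h : Chi P F a) (hQ : Prob Q) :
    Chi (P * Q) (F * Q) a := by
  have := h.mul (chi_self hQ)
  rwa [mul_one] at this

lemma Chi.prob_mul {P F Q : Ms} {a : ℝ} (h : Chi P F a) (hQ : Prob Q) :
    Chi (Q * P) (Q * F) a := by
  have := (chi_self hQ).mul h
  rwa [one_mul] at this

lemma chi_one : Chi (1 : Ms) 1 1 := chi_self prob_one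

lemma Chi.pow {P F : Ms} {a : ℝ} (h : Chi P F a) (n : ℕ) : Chi (P ^ n) (F ^ n) (a ^ n) := by
  induction n with
  | zero => simpa using chi_one
  | succ n ih => rw [pow_succ, pow_succ, pow_succ]; exact ih.mul h

/-- three orthogonal pieces on a product -/
lemma chi_orth3 {P₁ P₂ B₁ F₁ B₂ F₂ : Ms} {b₁ f₁ b₂ f₂ : ℝ} (hP₁ : Prob P₁) (hP₂ : Prob P₂)
    (hB₁ : Chi P₁ B₁ b₁) (hF₁ : Chi P₁ F₁ f₁) (hB₂ : Chi P₂ B₂ b₂) (hF₂ : Chi P₂ F₂ f₂)
    (mB₁ : mass B₁ = 0) (mF₁ : mass F₁ = 0) (mF₂ : mass F₂ = 0) :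
    Chi (P₁ * P₂) (B₁ * P₂ + P₁ * B₂ + F₁ * F₂) (b₁ + b₂ + f₁ * f₂) := by
  obtain ⟨β, rfl, hβ⟩ := hB₂.density
  obtain ⟨φ, rfl, hφ⟩ := hF₂.density
  obtain ⟨c, hc⟩ := hB₁.quad hF₁
  rw [mass_wt] at mF₂
  have h := chi_fiber (Finset.univ : Finset (Fin 3)) hP₁.nn hP₂.nn ![B₁, P₁, F₁]
    ![fun _ => 1, β, φ] (fun v => (b₁ + (2 * c) * φ v) + f₁ * φ v ^ 2 + β v ^ 2) (fun v => by
      have h1 := (hc 1 (φ v)).add_ref hP₁ 1 (β v)
      rw [mass_add, mass_smul, mass_smul, mB₁, mF₁] at h1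
      simp only [Fin.sum_univ_three, Matrix.cons_val_zero, Matrix.cons_val_one,
        Matrix.cons_val_two, Matrix.head_cons, Matrix.tail_cons]
      convert h1 using 1
      · simp only [one_smul]; abel
      · ring)
  simp only [Fin.sum_univ_three, Matrix.cons_val_zero, Matrix.cons_val_one,
        Matrix.cons_val_two, Matrix.head_cons, Matrix.tail_cons, wt_one] at h
  refine h.mono ?_
  rw [ev_fadd, ev_fadd, ev_fadd, ev_fmul, ev_fmul, ev_const, hP₂.one, mF₂]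
  have := mul_le_mul_of_nonneg_left hφ hF₁.nonneg
  linarith

lemma chi_orth2 {P₁ P₂ B₁ B₂ : Ms} {b₁ b₂ : ℝ} (hP₁ : Prob P₁) (hP₂ : Prob P₂)
    (hB₁ : Chi P₁ B₁ b₁) (hB₂ : Chi P₂ B₂ b₂) (mB₁ : mass B₁ = 0) :
    Chi (P₁ * P₂) (B₁ * P₂ + P₁ * B₂) (b₁ + b₂) := by
  have := chi_orth3 hP₁ hP₂ hB₁ (chi_zero hP₁.nn) hB₂ (chi_zero hP₂.nn) mB₁ mass_zero mass_zero
  simpa using this

/-- `|F| ≤ θ P` pointwise -/
structure Ab (P F : Ms) (θ : ℝ) : Prop where
  nn : Nn P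
  nonneg : 0 ≤ θ
  le : ∀ w, |F.coeff w| ≤ θ * P.coeff w

lemma Ab.abs_ev {P F : Ms} {θ : ℝ} (h : Ab P F θ) (g : Wd → ℝ) :
    |ev F g| ≤ θ * ev P fun w => |g w| := by
  classical
  rw [ev_eq_of_subset F g (F.coeff.support ∪ P.coeff.support) Finset.subset_union_left,
    ev_eq_of_subset P _ (F.coeff.support ∪ P.coeff.support) Finset.subset_union_right,
    Finset.mul_sum]
  refine (Finset.abs_sum_le_sum_abs _ _).trans (Finset.sum_le_sum fun w _ => ?_)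
  rw [abs_mul, ← mul_assoc]
  exact mul_le_mul_of_nonneg_right (h.le w) (abs_nonneg _)

lemma ab_of_ev {P F : Ms} {θ : ℝ} (hP : Nn P) (hθ : 0 ≤ θ)
    (h : ∀ g : Wd → ℝ, |ev F g| ≤ θ * ev P fun w => |g w|) : Ab P F θ := by
  classical
  refine ⟨hP, hθ, fun w => ?_⟩
  have := h fun v => if v = w then 1 else 0
  have e : (fun v : Wd => |if v = w then (1 : ℝ) else 0|) = fun v => if v = w then 1 else 0 := by
    funext v; split_ifs <;> norm_num
  rwa [e, ev_indicator, ev_indicator] at this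

lemma Ab.chi {P F : Ms} {θ : ℝ} (h : Ab P F θ) (hP : Prob P) : Chi P F (θ ^ 2) := by
  refine ⟨h.nn, sq_nonneg _, fun g => ?_⟩
  have h1 := h.abs_ev g
  have h2 := h.nn.cs (fun _ => 1) fun w => |g w|
  simp only [one_mul, one_pow, sq_abs, ev_const, hP.one] at h2
  have h3 := sq_le_sq' (abs_le.1 h1).1 (abs_le.1 h1).2
  rw [mul_pow] at h3
  exact h3.trans (mul_le_mul_of_nonneg_left h2 (sq_nonneg _))

lemma ab_iff {P F : Ms} {θ : ℝ} (hP : Nn P) (hθ : 0 ≤ θ) :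
    Ab P F θ ↔ Le F (θ • P) ∧ Le (-F) (θ • P) := by
  rw [le_iff, le_iff]
  simp only [MonoidAlgebra.coeff_smul_apply, smul_eq_mul, MonoidAlgebra.coeff_neg, Finsupp.neg_apply]
  constructor
  · intro h
    exact ⟨fun w => (abs_le.1 (h.le w)).2, fun w => by have := (abs_le.1 (h.le w)).1; linarith⟩
  · rintro ⟨h1, h2⟩
    exact ⟨hP, hθ, fun w => abs_le.2 ⟨by have := h2 w; linarith, h1 w⟩⟩

lemma Ab.mono {P F : Ms} {θ θ' : ℝ} (h : Ab P F θ) (hθ : θ ≤ θ') : Ab P F θ' :=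
  ⟨h.nn, h.nonneg.trans hθ, fun w => (h.le w).trans (mul_le_mul_of_nonneg_right hθ (h.nn w))⟩

lemma Ab.ref {P P' F : Ms} {θ c : ℝ} (h : Ab P F θ) (hP' : Nn P') (hc : 0 ≤ c)
    (hle : Le P (c • P')) : Ab P' F (c * θ) := by
  refine ⟨hP', mul_nonneg hc h.nonneg, fun w => (h.le w).trans ?_⟩
  have := le_iff.1 hle w
  rw [MonoidAlgebra.coeff_smul_apply, smul_eq_mul] at this
  have := mul_le_mul_of_nonneg_left this h.nonneg
  linarith

lemma Ab.ref1 {P P' F : Ms} {θ : ℝ} (h : Ab P F θ) (hle : Le P P') : Ab P' F θ := by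
  have := h.ref (hle.nn h.nn) zero_le_one (by rwa [one_smul])
  rwa [one_mul] at this

lemma ab_zero {P : Ms} (hP : Nn P) : Ab P 0 0 := ⟨hP, le_rfl, fun w => by simp⟩

lemma ab_self {P : Ms} (hP : Nn P) : Ab P P 1 :=
  ⟨hP, zero_le_one, fun w => by rw [abs_of_nonneg (hP w), one_mul]⟩

lemma Ab.add {P F G : Ms} {a b : ℝ} (h1 : Ab P F a) (h2 : Ab P G b) : Ab P (F + G) (a + b) :=
  ⟨h1.nn, add_nonneg h1.nonneg h2.nonneg, fun w => by
    rw [MonoidAlgebra.coeff_add, Finsupp.add_apply, add_mul]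
    exact (abs_add_le _ _).trans (add_le_add (h1.le w) (h2.le w))⟩

lemma Ab.smul {P F : Ms} {a : ℝ} (h : Ab P F a) (c : ℝ) : Ab P (c • F) (|c| * a) :=
  ⟨h.nn, mul_nonneg (abs_nonneg _) h.nonneg, fun w => by
    rw [MonoidAlgebra.coeff_smul_apply, smul_eq_mul, abs_mul, mul_assoc]
    exact mul_le_mul_of_nonneg_left (h.le w) (abs_nonneg _)⟩

lemma Ab.neg {P F : Ms} {a : ℝ} (h : Ab P F a) : Ab P (-F) a := by
  have := h.smul (-1)
  simpa using this

lemma Ab.sub {P F G : Ms} {a b : ℝ} (h1 : Ab P F a) (h2 : Ab P G b) : Ab P (F - G) (a + b) := by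
  rw [sub_eq_add_neg]; exact h1.add h2.neg

lemma Ab.mul {P₁ P₂ F G : Ms} {a b : ℝ} (h1 : Ab P₁ F a) (h2 : Ab P₂ G b) :
    Ab (P₁ * P₂) (F * G) (a * b) := by
  refine ab_of_ev (h1.nn.mul h2.nn) (mul_nonneg h1.nonneg h2.nonneg) fun g => ?_
  rw [ev_mul, ev_mul]
  refine (h1.abs_ev _).trans ?_
  rw [mul_assoc, ← ev_fmul P₁ b]
  exact mul_le_mul_of_nonneg_left (h1.nn.ev_mono fun w => h2.abs_ev _) h1.nonneg

lemma Ab.le_up {P F : Ms} {θ : ℝ} (h : Ab P (F - P) θ) : Le F ((1 + θ) • P) := by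
  have := ((ab_iff h.nn h.nonneg).1 h).1
  unfold Le at this ⊢
  convert this using 1
  rw [add_smul, one_smul]; abel

lemma Ab.le_down {P F : Ms} {θ : ℝ} (h : Ab P (F - P) θ) : Le ((1 - θ) • P) F := by
  have := ((ab_iff h.nn h.nonneg).1 h).2
  unfold Le at this ⊢
  convert this using 1
  rw [sub_smul, one_smul]; abel

end Vale.Agent.P321
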