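import Vale.Agent.P321.Ops
import Vale.Agent.P321.Binom

/-!
Smoothing by hidden coins, and Bessel-type families.
-/

namespace Vale.Agent.P321

open Finset

section generic

variable {E : Type} [AddCommGroup E] [Module ℝ E]

lemma avg_pow {Y₁ Y₂ : Module.End ℝ E} (h : Commute Y₁ Y₂) (J : ℕ) :
    ((1 / 2 : ℝ) • (Y₁ + Y₂)) ^ J = ∑ u ∈ range (J + 1), rho J u • (Y₁ ^ u * Y₂ ^ (J - u)) := by
  rw [smul_pow, h.add_pow, Finset.smul_sum]
  refine Finset.sum_congr rfl fun u _ => ?_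
  rw [← nsmul_eq_mul', ← Nat.cast_smul_eq_nsmul ℝ, smul_smul, rho]
  congr 1
  rw [one_div_pow]; ring

lemma avg_pow_diff {Y₁ Y₂ : Module.End ℝ E} (h : Commute Y₁ Y₂) (J : ℕ) :
    ((1 / 2 : ℝ) • (Y₁ + Y₂)) ^ J * (Y₁ - Y₂) =
      ∑ u ∈ range (J + 2), drho J u • (Y₁ ^ u * Y₂ ^ (J + 1 - u)) := by
  rw [avg_pow h, mul_sub, Finset.sum_mul, Finset.sum_mul]
  simp only [drho, sub_smul, Finset.sum_sub_distrib]
  congr 1
  · rw [Finset.sum_range_succ' _ (J + 1)]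
    simp only [rho', zero_smul, add_zero]
    refine Finset.sum_congr rfl fun u _ => ?_
    rw [smul_mul_assoc, Nat.add_sub_add_right, mul_assoc, (h.symm.pow_left _).eq, ← mul_assoc,
      ← pow_succ]
  · rw [Finset.sum_range_succ _ (J + 1), rho_eq_zero (Nat.lt_succ_self J), zero_smul, add_zero]
    refine Finset.sum_congr rfl fun u hu => ?_
    rw [Finset.mem_range] at hu
    rw [smul_mul_assoc, mul_assoc, ← pow_succ, show J - u + 1 = J + 1 - u by omega]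

/-- a graded notion of size compatible with two operators -/
structure SizeSys (Y₁ Y₂ : Module.End ℝ E) where
  N : ℕ → E → ℝ → Prop
  nonneg : ∀ {a F ε}, N a F ε → 0 ≤ ε
  zero : ∀ a, N a 0 0
  add : ∀ {a F G ε δ}, N a F ε → N a G δ → N a (F + G) (ε + δ)
  smul : ∀ {a F ε} (c : ℝ), N a F ε → N a (c • F) (|c| * ε)
  mono : ∀ {a F ε δ}, N a F ε → ε ≤ δ → N a F δ
  s1 : ∀ {a F ε}, N a F ε → N (a + 1) (Y₁ F) ε
  s2 : ∀ {a F ε}, N a F ε → N (a + 1) (Y₂ F) ε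

/-- `Ψ` raises the degree by `n` and multiplies every size by at most `ε` -/
def Dom (Y₁ Y₂ Ψ : Module.End ℝ E) (ε : ℝ) (n : ℕ) : Prop :=
  ∀ (S : SizeSys Y₁ Y₂) (a : ℕ) (F : E) (δ : ℝ), S.N a F δ → S.N (a + n) (Ψ F) (ε * δ)

variable {Y₁ Y₂ : Module.End ℝ E}

lemma Dom.mul {Ψ Φ : Module.End ℝ E} {a b : ℝ} {n m : ℕ} (h1 : Dom Y₁ Y₂ Ψ a n) (h2 : Dom Y₁ Y₂ Φ b m) :
    Dom Y₁ Y₂ (Ψ * Φ) (a * b) (n + m) := fun S k F δ h => by
  have := h1 S _ _ _ (h2 S k F δ h)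
  rwa [add_assoc, add_comm m, ← mul_assoc] at this

lemma Dom.mono {Ψ : Module.End ℝ E} {a b : ℝ} {n : ℕ} (h : Dom Y₁ Y₂ Ψ a n) (hab : a ≤ b) :
    Dom Y₁ Y₂ Ψ b n := fun S k F δ hF =>
  S.mono (h S k F δ hF) (mul_le_mul_of_nonneg_right hab (S.nonneg hF))

lemma dom_one : Dom Y₁ Y₂ 1 1 0 := fun S k F δ h => by simpa using h

lemma dom_zero (n : ℕ) : Dom Y₁ Y₂ 0 0 n := fun S k F δ _ => by simpa using S.zero _

lemma Dom.add {Ψ Φ : Module.End ℝ E} {a b : ℝ} {n : ℕ} (h1 : Dom Y₁ Y₂ Ψ a n) (h2 : Dom Y₁ Y₂ Φ b n) :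
    Dom Y₁ Y₂ (Ψ + Φ) (a + b) n := fun S k F δ h => by
  rw [add_mul]; exact S.add (h1 S k F δ h) (h2 S k F δ h)

lemma Dom.smul {Ψ : Module.End ℝ E} {a : ℝ} {n : ℕ} (h1 : Dom Y₁ Y₂ Ψ a n) (c : ℝ) :
    Dom Y₁ Y₂ (c • Ψ) (|c| * a) n := fun S k F δ h => by
  rw [mul_assoc]; exact S.smul c (h1 S k F δ h)

lemma Dom.neg {Ψ : Module.End ℝ E} {a : ℝ} {n : ℕ} (h1 : Dom Y₁ Y₂ Ψ a n) : Dom Y₁ Y₂ (-Ψ) a n := by
  simpa using h1.smul (-1)

lemma dom_mono (u v : ℕ) : Dom Y₁ Y₂ (Y₁ ^ u * Y₂ ^ v) 1 (u + v) := by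
  have h1 : ∀ u, Dom Y₁ Y₂ (Y₁ ^ u) 1 u := by
    intro u
    induction u with
    | zero => simpa using dom_one
    | succ u ih =>
      have : Dom Y₁ Y₂ Y₁ 1 1 := fun S k F δ h => by simpa using S.s1 h
      simpa [pow_succ] using ih.mul this
  have h2 : ∀ u, Dom Y₁ Y₂ (Y₂ ^ u) 1 u := by
    intro u
    induction u with
    | zero => simpa using dom_one
    | succ u ih =>
      have : Dom Y₁ Y₂ Y₂ 1 1 := fun S k F δ h => by simpa using S.s2 h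
      simpa [pow_succ] using ih.mul this
  simpa using (h1 u).mul (h2 v)

lemma dom_sum {ι : Type*} (s : Finset ι) {Ψ : ι → Module.End ℝ E} {a : ι → ℝ} {n : ℕ}
    (h : ∀ i ∈ s, Dom Y₁ Y₂ (Ψ i) (a i) n) : Dom Y₁ Y₂ (∑ i ∈ s, Ψ i) (∑ i ∈ s, a i) n := by
  classical
  induction s using Finset.induction_on with
  | empty => simpa using dom_zero n
  | insert i s hi ih =>
    rw [Finset.sum_insert hi, Finset.sum_insert hi]
    exact (h i (Finset.mem_insert_self _ _)).add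
      (ih fun j hj => h j (Finset.mem_insert_of_mem hj))

lemma dom_diff (h : Commute Y₁ Y₂) (J : ℕ) :
    Dom Y₁ Y₂ (((1 / 2 : ℝ) • (Y₁ + Y₂)) ^ J * (Y₁ - Y₂)) (2 / √(J + 1)) (J + 1) := by
  rw [avg_pow_diff h]
  refine (dom_sum (a := fun u => |drho J u| * 1) _ fun u hu => ?_).mono ?_
  · rw [Finset.mem_range] at hu
    have := (dom_mono (Y₁ := Y₁) (Y₂ := Y₂) u (J + 1 - u)).smul (drho J u)
    rwa [show u + (J + 1 - u) = J + 1 by omega] at this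
  · simpa using drho_abs_sum J

lemma dom_diff_pow (h : Commute Y₁ Y₂) (J r : ℕ) :
    Dom Y₁ Y₂ (((1 / 2 : ℝ) • (Y₁ + Y₂)) ^ J * (Y₁ ^ r - Y₂ ^ r)) (r * (2 / √(J + 1))) (J + r) := by
  rcases Nat.eq_zero_or_pos r with rfl | hr
  · simpa using dom_zero _
  rw [← h.mul_geom_sum₂, ← mul_assoc]
  have h2 : Dom Y₁ Y₂ (∑ i ∈ range r, Y₁ ^ i * Y₂ ^ (r - 1 - i)) (∑ _i ∈ range r, 1) (r - 1) :=
    dom_sum _ fun i hi => by
      rw [Finset.mem_range] at hi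
      have := dom_mono (Y₁ := Y₁) (Y₂ := Y₂) i (r - 1 - i)
      rwa [show i + (r - 1 - i) = r - 1 by omega] at this
  have := (dom_diff h J).mul h2
  rw [show J + 1 + (r - 1) = J + r by omega] at this
  refine this.mono (le_of_eq ?_)
  simp [mul_comm]

/-- the Thue-Morse difference operator -/
noncomputable def tmOp (Y₁ Y₂ : Module.End ℝ E) : ℕ → Module.End ℝ E
  | 0 => 1
  | m + 1 => (Y₂ ^ 2 ^ m - Y₁ ^ 2 ^ m) * tmOp Y₁ Y₂ m

lemma dom_tm (h : Commute Y₁ Y₂) (J m : ℕ) :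
    Dom Y₁ Y₂ (((1 / 2 : ℝ) • (Y₁ + Y₂)) ^ (m * J) * tmOp Y₁ Y₂ m)
      ((2 ^ m * (2 / √(J + 1))) ^ m) (m * J + (2 ^ m - 1)) := by
  induction m with
  | zero => simpa [tmOp] using dom_one
  | succ m ih =>
    set A : Module.End ℝ E := (1 / 2 : ℝ) • (Y₁ + Y₂) with hA
    have c1 : Commute A Y₁ := ((Commute.refl Y₁).add_left h.symm).smul_left _
    have c2 : Commute A Y₂ := (h.add_left (Commute.refl Y₂)).smul_left _
    have c3 : Commute (A ^ (m * J)) (Y₂ ^ 2 ^ m - Y₁ ^ 2 ^ m) :=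
      ((c2.pow_right _).sub_right (c1.pow_right _)).pow_left _
    have e : A ^ ((m + 1) * J) * tmOp Y₁ Y₂ (m + 1) =
        -(A ^ J * (Y₁ ^ 2 ^ m - Y₂ ^ 2 ^ m)) * (A ^ (m * J) * tmOp Y₁ Y₂ m) := by
      rw [tmOp, add_mul, one_mul, add_comm, pow_add, ← mul_neg, neg_sub, mul_assoc, mul_assoc,
        ← mul_assoc (A ^ (m * J)), c3.eq, mul_assoc]
    rw [e]
    have := (dom_diff_pow h J (2 ^ m)).neg.mul ih
    have h1 : 1 ≤ 2 ^ m := Nat.one_le_two_pow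
    rw [show J + 2 ^ m + (m * J + (2 ^ m - 1)) = (m + 1) * J + (2 ^ (m + 1) - 1) by
      rw [pow_succ, add_mul]; omega] at this
    refine this.mono ?_
    push_cast
    rw [← pow_succ']
    refine pow_le_pow_left₀ (by positivity) ?_ _
    refine mul_le_mul_of_nonneg_right ?_ (by positivity)
    exact pow_le_pow_right₀ one_le_two (Nat.le_succ m)

end generic

/-- pointwise size against powers of `Y` -/
noncomputable def sysAb {Y : Ms} (hY : Nn Y) : SizeSys (Lm Y) (Rm Y) where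
  N a F ε := Ab (Y ^ a) F ε
  nonneg h := h.nonneg
  zero a := ab_zero (hY.pow a)
  add h1 h2 := h1.add h2
  smul c h := h.smul c
  mono h1 h2 := h1.mono h2
  s1 h := by simpa [pow_succ'] using (ab_self hY).mul h
  s2 h := by simpa [pow_succ] using h.mul (ab_self hY)

/-- chi-square size against powers of `Y` -/
noncomputable def sysChi {Y : Ms} (hY : Prob Y) : SizeSys (Lm Y) (Rm Y) where
  N a F ε := 0 ≤ ε ∧ Chi (Y ^ a) F (ε ^ 2)
  nonneg h := h.1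
  zero a := ⟨le_rfl, by simpa using chi_zero (hY.nn.pow a)⟩
  add h1 h2 := ⟨add_nonneg h1.1 h2.1, h1.2.add_sq h2.2 h1.1 h2.1⟩
  smul c h := ⟨mul_nonneg (abs_nonneg _) h.1, by simpa [mul_pow] using h.2.smul c⟩
  mono h1 h2 := ⟨h1.1.trans h2, h1.2.mono (pow_le_pow_left₀ h1.1 h2 2)⟩
  s1 h := ⟨h.1, by simpa [pow_succ'] using h.2.prob_mul hY⟩
  s2 h := ⟨h.1, by simpa [pow_succ] using h.2.mul_prob hY⟩

/-- total variation size -/
noncomputable def sysL1 {Y : Ms} (hY : Prob Y) : SizeSys (Lm Y) 1 where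
  N _ F ε := L1 F ε
  nonneg h := h.nonneg
  zero _ := l1_zero
  add h1 h2 := h1.add h2
  smul c h := h.smul c
  mono h1 h2 := h1.mono h2
  s1 h := by simpa using hY.l1.mul h
  s2 h := h

lemma Sm.shift {P : Ms} {ν : ℕ} (h : Sm P ν) (hP : Prob P) {J u : ℕ} (hu : ν * J ≤ u) (s : ℕ) :
    L1 (P ^ (u + s) - P ^ u) ((2 * s + 2) / √(J + 1)) := by
  obtain ⟨T, R, μ, e, hT, hR, hμ⟩ := h.one hP hu
  have e1 : P ^ (u + s) - P ^ u = Lm (P ^ u) (P ^ s - 1) := by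
    rw [Lm_apply, mul_sub, mul_one, pow_add]
  have e2 : P ^ s - 1 = (Lm P ^ s - 1 ^ s : Op) 1 := by
    rw [Lm_pow]; simp
  rw [e1, e, LinearMap.add_apply, Module.End.mul_apply]
  have h1 : L1 ((A1 P ^ J) (P ^ s - 1)) (s * (2 / √(J + 1)) * 1) := by
    rw [e2, ← Module.End.mul_apply]
    exact dom_diff_pow (Commute.one_right (Lm P)) J s (sysL1 hP) 0 1 1 prob_one.l1
  have h2 := hT.l1 h1
  have h3 := hR.l1 ((hP.pow s).l1.sub prob_one.l1)
  refine (h2.add h3).mono ?_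
  have h4 := half_pow_le J
  have h5 := hR.nonneg
  have h6 : (0 : ℝ) ≤ s * (2 / √(J + 1)) * 1 := by positivity
  have h7 : (2 * s + 2 : ℝ) / √(J + 1) = s * (2 / √(J + 1)) * 1 + 1 / √(J + 1) * 2 := by ring
  rw [h7]
  nlinarith

lemma A2_pow_apply (P F : Ms) (J : ℕ) :
    (A2 P ^ J) F = ∑ u ∈ range (J + 1), rho J u • (P ^ u * F * P ^ (J - u)) := by
  have h : A2 P ^ J = ∑ u ∈ range (J + 1), rho J u • (Lm P ^ u * Rm P ^ (J - u)) :=
    avg_pow (commute_LR P P) J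
  rw [h, LinearMap.sum_apply]
  refine Finset.sum_congr rfl fun u _ => ?_
  rw [LinearMap.smul_apply, Lm_pow, Rm_pow, Module.End.mul_apply, Lm_apply, Rm_apply, mul_assoc]

lemma A2_pow_diff (P F : Ms) (J : ℕ) :
    (A2 P ^ J) (P * F - F * P) =
      ∑ u ∈ range (J + 2), drho J u • (P ^ u * F * P ^ (J + 1 - u)) := by
  have h : A2 P ^ J * (Lm P - Rm P) =
      ∑ u ∈ range (J + 2), drho J u • (Lm P ^ u * Rm P ^ (J + 1 - u)) :=
    avg_pow_diff (commute_LR P P) J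
  have e : (A2 P ^ J) (P * F - F * P) = (A2 P ^ J * (Lm P - Rm P)) F := rfl
  rw [e, h, LinearMap.sum_apply]
  refine Finset.sum_congr rfl fun u _ => ?_
  rw [LinearMap.smul_apply, Lm_pow, Rm_pow, Module.End.mul_apply, Lm_apply, Rm_apply, mul_assoc]

lemma A2_pow_pow (P : Ms) (J a : ℕ) : (A2 P ^ J) (P ^ a) = P ^ (a + J) := by
  rw [A2_pow_apply, Finset.sum_congr rfl fun u hu =>
    show rho J u • (P ^ u * P ^ a * P ^ (J - u)) = rho J u • P ^ (a + J) by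
      rw [Finset.mem_range] at hu
      rw [← pow_add, ← pow_add, show u + a + (J - u) = a + J by omega],
    ← Finset.sum_smul, rho_sum, one_smul]

/-- Thue-Morse alternating placements of `D` among copies of `Y` -/
noncomputable def tmM (Y D : Ms) : ℕ → Ms
  | 0 => D
  | m + 1 => tmM Y D m * Y ^ 2 ^ m - Y ^ 2 ^ m * tmM Y D m

lemma tmOp_apply (Y D : Ms) (m : ℕ) : tmOp (Lm Y) (Rm Y) m D = tmM Y D m := by
  induction m with
  | zero => rfl
  | succ m ih =>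
    have e : tmOp (Lm Y) (Rm Y) (m + 1) D =
        (Rm Y ^ 2 ^ m) (tmOp (Lm Y) (Rm Y) m D) - (Lm Y ^ 2 ^ m) (tmOp (Lm Y) (Rm Y) m D) := rfl
    rw [e, ih, Lm_pow, Rm_pow]; rfl

lemma tm_ab {Y D : Ms} {θ : ℝ} (h : Ab Y D θ) (J m : ℕ) :
    Ab (Y ^ (2 ^ m + m * J)) ((A2 Y ^ (m * J)) (tmM Y D m))
      ((2 ^ m * (2 / √(J + 1))) ^ m * θ) := by
  have := dom_tm (commute_LR Y Y) J m (sysAb h.nn) 1 D θ (by simpa [sysAb] using h)
  have h1 : 1 ≤ 2 ^ m := Nat.one_le_two_pow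
  rw [show 1 + (m * J + (2 ^ m - 1)) = 2 ^ m + m * J by omega] at this
  rw [← tmOp_apply]
  exact this

lemma tm_chi {Y D : Ms} {η : ℝ} (hY : Prob Y) (h : Chi Y D η) (J m : ℕ) :
    Chi (Y ^ (2 ^ m + m * J)) ((A2 Y ^ (m * J)) (tmM Y D m))
      (((2 ^ m * (2 / √(J + 1))) ^ m) ^ 2 * η) := by
  have := dom_tm (commute_LR Y Y) J m (sysChi hY) 1 D (√η)
    ⟨Real.sqrt_nonneg _, by simpa [Real.sq_sqrt h.nonneg] using h⟩
  have h1 : 1 ≤ 2 ^ m := Nat.one_le_two_pow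
  rw [show 1 + (m * J + (2 ^ m - 1)) = 2 ^ m + m * J by omega] at this
  have h2 := this.2
  rw [mul_pow, Real.sq_sqrt h.nonneg] at h2
  rw [← tmOp_apply]
  exact h2

/-- Bessel inequality for a family indexed by `0, …, S` -/
def Bes (P : Ms) (F : ℕ → Ms) (S : ℕ) (Λ : ℝ) : Prop :=
  ∀ α : ℕ → ℝ, Chi P (∑ s ∈ range (S + 1), α s • F s) (Λ * ∑ s ∈ range (S + 1), α s ^ 2)

lemma Bes.single {P : Ms} {F : ℕ → Ms} {S : ℕ} {Λ : ℝ} (h : Bes P F S Λ) {s : ℕ} (hs : s ≤ S) :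
    Chi P (F s) Λ := by
  have := h fun i => if i = s then 1 else 0
  have hs' : s ∈ range (S + 1) := Finset.mem_range.2 (by omega)
  simpa [ite_smul, hs'] using this

lemma Bes.nonneg {P : Ms} {F : ℕ → Ms} {S : ℕ} {Λ : ℝ} (h : Bes P F S Λ) : 0 ≤ Λ :=
  (h.single (Nat.zero_le S)).nonneg

lemma sq_sum_nonneg (α : ℕ → ℝ) (s : Finset ℕ) : 0 ≤ ∑ i ∈ s, α i ^ 2 :=
  Finset.sum_nonneg fun _ _ => sq_nonneg _

lemma Bes.mono {P : Ms} {F : ℕ → Ms} {S : ℕ} {Λ Λ' : ℝ} (h : Bes P F S Λ) (hΛ : Λ ≤ Λ') :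
    Bes P F S Λ' := fun α => (h α).mono (mul_le_mul_of_nonneg_right hΛ (sq_sum_nonneg _ _))

lemma Bes.congr {P : Ms} {F G : ℕ → Ms} {S : ℕ} {Λ : ℝ} (h : Bes P F S Λ)
    (e : ∀ s ≤ S, F s = G s) : Bes P G S Λ := fun α => by
  have := h α
  rwa [Finset.sum_congr rfl fun s hs => show α s • F s = α s • G s by
    rw [e s (by rw [Finset.mem_range] at hs; omega)]] at this

lemma bes_triv {P : Ms} {F : ℕ → Ms} {S : ℕ} {η : ℝ} (h : ∀ s ≤ S, Chi P (F s) η) :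
    Bes P F S ((S + 1) * η) := fun α => by
  have := Chi.sum (h 0 (Nat.zero_le _)).nn (range (S + 1)) (F := fun s => α s • F s)
    (η := fun s => α s ^ 2 * η) fun s hs =>
      (h s (by rw [Finset.mem_range] at hs; omega)).smul _
  rw [← Finset.sum_mul, Finset.card_range] at this
  convert this using 1; push_cast; ring

lemma bes_zero {P : Ms} (hP : Nn P) (S : ℕ) : Bes P (fun _ => 0) S 0 := fun α => by
  simpa using chi_zero hP

lemma Bes.add {P : Ms} {F G : ℕ → Ms} {S : ℕ} {a b : ℝ} (h1 : Bes P F S a) (h2 : Bes P G S b) :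
    Bes P (fun s => F s + G s) S (2 * a + 2 * b) := fun α => by
  have := (h1 α).add (h2 α)
  simp only [smul_add, Finset.sum_add_distrib]
  convert this using 1; ring

lemma Bes.neg {P : Ms} {F : ℕ → Ms} {S : ℕ} {a : ℝ} (h1 : Bes P F S a) :
    Bes P (fun s => -F s) S a := fun α => by
  simpa using (h1 α).neg

lemma Bes.sub {P : Ms} {F G : ℕ → Ms} {S : ℕ} {a b : ℝ} (h1 : Bes P F S a) (h2 : Bes P G S b) :
    Bes P (fun s => F s - G s) S (2 * a + 2 * b) := by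
  simpa [sub_eq_add_neg] using h1.add h2.neg

lemma Bes.add_sq {P : Ms} {F G : ℕ → Ms} {S : ℕ} {a b : ℝ} (h1 : Bes P F S (a ^ 2))
    (h2 : Bes P G S (b ^ 2)) (ha : 0 ≤ a) (hb : 0 ≤ b) :
    Bes P (fun s => F s + G s) S ((a + b) ^ 2) := fun α => by
  have h0 := sq_sum_nonneg α (range (S + 1))
  have e : ∀ c : ℝ, c ^ 2 * ∑ s ∈ range (S + 1), α s ^ 2 =
      (c * √(∑ s ∈ range (S + 1), α s ^ 2)) ^ 2 := fun c => by rw [mul_pow, Real.sq_sqrt h0]
  have f1 := h1 α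
  have f2 := h2 α
  rw [e] at f1 f2 ⊢
  have := f1.add_sq f2 (by positivity) (by positivity)
  simp only [smul_add, Finset.sum_add_distrib]
  rwa [add_mul]

lemma Bes.ref {P P' : Ms} {F : ℕ → Ms} {S : ℕ} {Λ c : ℝ} (h : Bes P F S Λ) (hP' : Nn P')
    (hc : 0 ≤ c) (hle : Le P (c • P')) : Bes P' F S (c * Λ) := fun α => by
  rw [mul_assoc]; exact (h α).ref hP' hc hle

lemma Bes.ref1 {P P' : Ms} {F : ℕ → Ms} {S : ℕ} {Λ : ℝ} (h : Bes P F S Λ) (hle : Le P P') :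
    Bes P' F S Λ := fun α => (h α).ref1 hle

lemma Bes.mk {Φ : Op} {μ : ℝ} (hΦ : Mk Φ μ) {P : Ms} {F : ℕ → Ms} {S : ℕ} {Λ : ℝ}
    (h : Bes P F S Λ) : Bes (Φ P) (fun s => Φ (F s)) S (μ * Λ) := fun α => by
  have := hΦ.chi (h α)
  rw [map_sum] at this
  simp only [map_smul] at this
  rwa [mul_assoc]

lemma chi_sep {Q H : Ms} {w : ℕ} {η : ℝ} (hQ : Prob Q) (hH : mass H = 0) (h : Chi (Q ^ w) H η)
    (α : ℕ → ℝ) (A : Finset ℕ) (hA : ∀ a ∈ A, ∀ b ∈ A, a < b → a + w ≤ b) (S : ℕ)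
    (hS : ∀ a ∈ A, a ≤ S) :
    Chi (Q ^ (S + w)) (∑ s ∈ A, α s • (Q ^ s * H * Q ^ (S - s))) (η * ∑ s ∈ A, α s ^ 2) := by
  induction A using Finset.induction_on_max generalizing S with
  | empty => simpa using chi_zero (hQ.nn.pow _)
  | insert a A ha ih =>
    have haS : a ≤ S := hS a (Finset.mem_insert_self _ _)
    have hna : a ∉ A := fun h => lt_irrefl _ (ha a h)
    have hsep : ∀ s ∈ A, s + w ≤ a := fun s hs =>
      hA s (Finset.mem_insert_of_mem hs) a (Finset.mem_insert_self _ _) (ha s hs)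
    have h1 : Chi (Q ^ a) (∑ s ∈ A, α s • (Q ^ s * H * Q ^ (a - w - s)))
        (η * ∑ s ∈ A, α s ^ 2) := by
      rcases A.eq_empty_or_nonempty with rfl | ⟨s, hs⟩
      · simpa using chi_zero (hQ.nn.pow _)
      · have := ih (fun x hx y hy => hA x (Finset.mem_insert_of_mem hx) y
          (Finset.mem_insert_of_mem hy)) (a - w) fun x hx => by have := hsep x hx; omega
        rwa [show a - w + w = a by have := hsep s hs; omega] at this
    have hm : mass (∑ s ∈ A, α s • (Q ^ s * H * Q ^ (a - w - s))) = 0 := by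
      rw [mass_sum]
      exact Finset.sum_eq_zero fun s _ => by simp [mass_smul, mass_mul, hH]
    have h2 := (chi_orth2 (hQ.pow a) (hQ.pow w) h1 (h.smul (α a)) hm).mul_prob (hQ.pow (S - a))
    rw [Finset.sum_insert hna, Finset.sum_insert hna]
    convert h2 using 1
    · rw [← pow_add, ← pow_add]; congr 1; omega
    · rw [add_mul, add_comm, mul_smul_comm, smul_mul_assoc, Finset.sum_mul, Finset.sum_mul]
      congr 1
      refine Finset.sum_congr rfl fun s hs => ?_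
      rw [smul_mul_assoc, smul_mul_assoc, mul_assoc _ (Q ^ w), mul_assoc _ (Q ^ (a - w - s)),
        ← pow_add, ← pow_add]
      have := hsep s hs
      congr 3; omega
    · ring

lemma bes_band {Q H : Ms} {w : ℕ} {η : ℝ} (hQ : Prob Q) (hH : mass H = 0) (h : Chi (Q ^ w) H η)
    (hw : 0 < w) (S : ℕ) : Bes (Q ^ (S + w)) (fun s => Q ^ s * H * Q ^ (S - s)) S (w * η) := by
  intro α
  have hm : ∀ s ∈ range (S + 1), s % w ∈ range w := fun s _ =>
    Finset.mem_range.2 (Nat.mod_lt _ hw)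
  rw [← Finset.sum_fiberwise_of_maps_to hm, ← Finset.sum_fiberwise_of_maps_to hm (fun s => α s ^ 2)]
  have := Chi.sum (hQ.nn.pow (S + w)) (range w) fun b _ =>
    chi_sep hQ hH h α ((range (S + 1)).filter fun s => s % w = b) (fun x hx y hy hxy => by
      rw [Finset.mem_filter] at hx hy
      have h1 : w ∣ y - x := (Nat.modEq_iff_dvd' hxy.le).1 (hx.2.trans hy.2.symm)
      have := Nat.le_of_dvd (by omega) h1
      omega) S fun x hx => by
      rw [Finset.mem_filter, Finset.mem_range] at hx; omega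
  rw [Finset.card_range, ← Finset.mul_sum, ← mul_assoc] at this
  exact this

end Vale.Agent.P321
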