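import Vale.Agent.P321.Pat

/-!
The second-order term gains from a hidden rigid shift at the finer scale.
-/

namespace Vale.Agent.P321

open Finset

/-- a core inside its padding, moved by `σ` -/
noncomputable def pad (P : Ms) (B σ : ℕ) (F : Ms) : Ms := P ^ (B + σ) * F * P ^ (B - σ)

lemma shift_pad (P F : Ms) {B σ : ℕ} (h : σ ≤ B) :
    P ^ σ * pad P B 0 F = pad P B σ F * P ^ σ := by
  unfold pad
  rw [← mul_assoc, ← mul_assoc, ← pow_add, mul_assoc _ (P ^ (B - σ)), ← pow_add,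
    Nat.sub_add_cancel h, add_zero, Nat.sub_zero, add_comm]

lemma shift_mul {U a a' b b' : Ms} (h1 : U * a = a' * U) (h2 : U * b = b' * U) :
    U * (a * b) = a' * b' * U := by
  rw [← mul_assoc, h1, mul_assoc, h2, mul_assoc]

lemma pad_sub (P F G : Ms) (B σ : ℕ) : pad P B σ (F - G) = pad P B σ F - pad P B σ G := by
  unfold pad; noncomm_ring

lemma pad_pow (P : Ms) {B σ : ℕ} (h : σ ≤ B) (n : ℕ) : pad P B σ (P ^ n) = P ^ (2 * B + n) := by
  unfold pad; rw [← pow_add, ← pow_add]; congr 1; omega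

lemma pad_prob {P F : Ms} (hP : Prob P) (hF : Prob F) (B σ : ℕ) : Prob (pad P B σ F) :=
  ((hP.pow _).mul hF).mul (hP.pow _)

lemma chi_pad {P F G : Ms} {η : ℝ} (hP : Prob P) (h : Chi G F η) (B σ : ℕ) :
    Chi (pad P B σ G) (pad P B σ F) η := (h.prob_mul (hP.pow _)).mul_prob (hP.pow _)

lemma ab_pad {P F G : Ms} {θ : ℝ} (hP : Nn P) (h : Ab G F θ) (B σ : ℕ) :
    Ab (pad P B σ G) (pad P B σ F) θ := by
  simpa [pad] using ((ab_self (hP.pow (B + σ))).mul h).mul (ab_self (hP.pow (B - σ)))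

section

variable {P Yt Xt : Ms} {B n S k : ℕ} {Λ ζ : ℝ} (hP : Prob P) (hY : Prob Yt) (hX : Prob Xt)
  (hS : S ≤ B) (hbes : Bes (P ^ (2 * B + n)) (fun σ => pad P B σ (Xt - Yt)) S Λ)
  (hζ : Chi (P ^ n) (Yt - P ^ n) ζ) (hk : k * (2 * ζ + 2 * Λ) ≤ 1 / 2)

include hP hS hζ in
lemma chi_Ys {σ : ℕ} (hσ : σ ≤ S) :
    Chi (P ^ (2 * B + n)) (pad P B σ Yt - P ^ (2 * B + n)) ζ := by
  have := chi_pad hP hζ B σ
  rwa [pad_sub, pad_pow P (hσ.trans hS)] at this

include hP hY hX hS hbes hζ hk in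
lemma chi_Gs {σ : ℕ} (hσ : σ ≤ S) (l : List Bool) (hl : l.length ≤ k) :
    Chi ((P ^ (2 * B + n)) ^ l.length)
      (pz (pad P B σ Xt) (pad P B σ Yt) l - pad P B σ Yt ^ l.length) (2 * k ^ 2 * Λ) := by
  have h1 := chi_Ys hP hS hζ hσ
  have h2 := hbes.single hσ
  have hζ0 := hζ.nonneg
  have hΛ := h2.nonneg
  rw [pad_sub] at h2
  have h3 := h1.add h2
  rw [sub_add_sub_cancel'] at h3
  have h4 := h3.uncenter (hP.pow _) (pad_prob hP hX B σ).one
  have h5 := ((h1.uncenter (hP.pow _) (pad_prob hP hY B σ).one)).mono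
    (by linarith : 1 + ζ ≤ 1 + (2 * ζ + 2 * Λ))
  refine (chi_pz_sub (by linarith) h4 h5 h2 l).mono ?_
  have h6 := one_add_pow_le' (by linarith : 0 ≤ 2 * ζ + 2 * Λ) hl hk
  have h7 : (l.length : ℝ) ^ 2 ≤ k ^ 2 := by
    have : (l.length : ℝ) ≤ k := by exact_mod_cast hl
    gcongr
  calc (l.length : ℝ) ^ 2 * (Λ * (1 + (2 * ζ + 2 * Λ)) ^ l.length) ≤ k ^ 2 * (Λ * 2) := by
        gcongr; linarith
    _ = _ := by ring

include hP hY hX hS hbes hζ hk in
lemma bes_avg (S' i : ℕ) (l : List Bool) (hl : i + 1 + l.length = k) :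
    Bes ((A2 P ^ S) ((P ^ (2 * B + n)) ^ (S' + k)))
      (fun s => (A2 P ^ S) ((P ^ (2 * B + n)) ^ (s + i) * (pad P B 0 (Xt - Yt) *
        (pz (pad P B 0 Xt) (pad P B 0 Yt) l - pad P B 0 Yt ^ l.length)) *
        (P ^ (2 * B + n)) ^ (S' - s))) S'
      (k * ((∑ σ ∈ range (S + 1), rho S σ ^ 2) * Λ * (2 * k ^ 2 * Λ))) := by
  set Q := P ^ (2 * B + n) with hQ
  have hQp : Prob Q := hP.pow _
  have hΛ := hbes.nonneg
  set H := ∑ σ ∈ range (S + 1), (rho S σ • pad P B σ (Xt - Yt)) *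
    (pz (pad P B σ Xt) (pad P B σ Yt) l - pad P B σ Yt ^ l.length) with hH
  have h1 : Chi (Q * Q ^ l.length) H
      (∑ σ ∈ range (S + 1), (rho S σ ^ 2 * Λ) * (2 * k ^ 2 * Λ)) := by
    refine chi_tensor _ hQp.nn (hQp.nn.pow _) _ _ _ _ (fun σ _ => by positivity) (fun α => ?_)
      fun σ hσ => chi_Gs hP hY hX hS hbes hζ hk (by rw [Finset.mem_range] at hσ; omega) l
        (by omega)
    have := hbes fun σ => α σ * rho S σ
    simp only [smul_smul]
    convert this using 1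
    rw [Finset.mul_sum]
    exact Finset.sum_congr rfl fun _ _ => by ring
  have hm : mass (Q ^ i * H) = 0 := by
    rw [mass_mul, hH, mass_sum, Finset.sum_eq_zero, mul_zero]
    intro σ _
    rw [mass_mul, mass_smul, pad_sub, mass_sub, (pad_prob hP hX B σ).one,
      (pad_prob hP hY B σ).one]
    simp
  have h2 := h1.prob_mul (hQp.pow i)
  rw [← pow_succ', ← pow_add, show i + (l.length + 1) = k by omega] at h2
  have h3 := (bes_band hQp hm h2 (by omega) S').mk (hP.pow S).mkR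
  rw [← Finset.sum_mul, ← Finset.sum_mul, one_mul] at h3
  have e0 : (A2 P ^ S) (Q ^ (S' + k)) = Rm (P ^ S) (Q ^ (S' + k)) := by
    rw [hQ, ← pow_mul, A2_pow_pow, Rm_apply, pow_add P _ S]
  rw [e0]
  refine h3.congr fun s _ => ?_
  rw [A2_pow_apply, Rm_apply, hH, Finset.mul_sum, Finset.mul_sum, Finset.sum_mul, Finset.sum_mul]
  refine Finset.sum_congr rfl fun σ hσ => ?_
  rw [Finset.mem_range] at hσ
  have hσB : σ ≤ B := by omega
  have c1 : ∀ a, P ^ σ * Q ^ a = Q ^ a * P ^ σ := fun a =>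
    shift_pow (by rw [hQ, ← pow_add, ← pow_add, add_comm]) a
  have c2 := shift_pad P (Xt - Yt) hσB
  have c3 : P ^ σ * (pz (pad P B 0 Xt) (pad P B 0 Yt) l - pad P B 0 Yt ^ l.length) =
      (pz (pad P B σ Xt) (pad P B σ Yt) l - pad P B σ Yt ^ l.length) * P ^ σ := by
    rw [mul_sub, sub_mul, shift_pz (shift_pad P Xt hσB) (shift_pad P Yt hσB),
      shift_pow (shift_pad P Yt hσB)]
  have c4 : P ^ S = P ^ σ * P ^ (S - σ) := by rw [← pow_add]; congr 1; omega
  simp only [smul_mul_assoc, mul_smul_comm]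
  congr 1
  rw [c4, shift_mul (shift_mul (c1 (s + i)) (shift_mul c2 c3)) (c1 (S' - s)), pow_add Q s i]
  simp only [mul_assoc]

include hP hY hX hS hbes hζ hk in
lemma bes_term {T R : Op} {μ G : ℝ}
    (e : Lm (P ^ (S * (2 * B + n))) * Rm (P ^ (S * (2 * B + n))) = T * A2 P ^ S + R)
    (hT : Mk T (1 - μ)) (hR : Mk R μ) (hG : ∑ σ ∈ range (S + 1), rho S σ ^ 2 + μ ≤ G)
    (S' : ℕ) (hn : (2 * S + S' + k : ℕ) * ζ ≤ 1 / 2)
    (hG2 : (2 * S + S' + k : ℕ) * ζ * (S' + 1) ≤ G)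
    (i : ℕ) (l : List Bool) (hl : i + 1 + l.length = k) :
    Bes ((P ^ (2 * B + n)) ^ (2 * S + S' + k))
      (fun s => pad P B 0 Yt ^ (S + s + i) * (pad P B 0 (Xt - Yt) *
        (pz (pad P B 0 Xt) (pad P B 0 Yt) l - pad P B 0 Yt ^ l.length)) *
        pad P B 0 Yt ^ (S + (S' - s))) S' (56 * k ^ 3 * Λ ^ 2 * G) := by
  have hav := bes_avg hP hY hX hS hbes hζ hk S' i l hl
  have hGs := chi_Gs hP hY hX hS hbes hζ hk (Nat.zero_le S) l (by omega)
  have hYs := chi_Ys hP hS hζ (Nat.zero_le S)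
  set Q := P ^ (2 * B + n) with hQ
  set Y := pad P B 0 Yt with hYd
  set H := pad P B 0 (Xt - Yt) * (pz (pad P B 0 Xt) Y l - Y ^ l.length) with hH
  have hQp : Prob Q := hP.pow _
  have hYp : Prob Y := pad_prob hP hY B 0
  have hΛ := hbes.nonneg
  have hζ0 := hζ.nonneg
  have hμ := hR.nonneg
  have hk1 : (1 : ℝ) ≤ k := by exact_mod_cast (by omega : 1 ≤ k)
  set η := Λ * (2 * k ^ 2 * Λ) with hη
  have hη0 : 0 ≤ η := by positivity
  have hHc : Chi (Q ^ (l.length + 1)) H η := by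
    rw [pow_succ']; exact (hbes.single (Nat.zero_le S)).mul hGs
  have hm : mass (Q ^ i * H) = 0 := by
    rw [mass_mul, hH, mass_mul, pad_sub, mass_sub, (pad_prob hP hX B 0).one, hYp.one]; simp
  have h2 := hHc.prob_mul (hQp.pow i)
  rw [← pow_add, show i + (l.length + 1) = k by omega] at h2
  have hb := (bes_band hQp hm h2 (by omega) S').mk hR
  have eW : ∀ F, (Lm (P ^ (S * (2 * B + n))) * Rm (P ^ (S * (2 * B + n)))) F =
      Q ^ S * (F * Q ^ S) := fun F => by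
    rw [hQ, ← pow_mul, mul_comm (2 * B + n)]; rfl
  have eref : (Lm (P ^ (S * (2 * B + n))) * Rm (P ^ (S * (2 * B + n)))) (Q ^ (S' + k)) =
      Q ^ (2 * S + S' + k) := by
    rw [eW, ← pow_add, ← pow_add]; congr 1; omega
  have m1 := (hav.mk hT).ref1 (eref ▸ le_of_decomp e hR (hQp.nn.pow (S' + k)))
  have m2 := hb.ref1 (eref ▸ le_of_decomp' e hT ((mk_A2 hP).pow S) (hQp.nn.pow (S' + k)))
  have m3 := m1.add m2
  have hp : ∀ u ≤ 2 * S + S' + k, (1 + ζ) ^ u ≤ 1 + 2 * (2 * S + S' + k : ℕ) * ζ := fun u hu =>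
    one_add_pow_le' hζ0 hu hn
  set x := ((2 * S + S' + k : ℕ) : ℝ) * ζ with hx
  have hx0 : 0 ≤ x := by positivity
  have hYc := hYs.uncenter hQp hYp.one
  have er : Bes (Q ^ (2 * S + S' + k)) (fun s => (Y ^ (S + s + i) - Q ^ (S + s + i)) * H *
      Y ^ (S + (S' - s)) + Q ^ (S + s + i) * H * (Y ^ (S + (S' - s)) - Q ^ (S + (S' - s)))) S'
      ((S' + 1) * (12 * x * η)) := by
    refine bes_triv fun s hs => ?_
    have a1 := (hYc.pow (S + s + i)).center (hQp.pow _) (hYp.pow _).one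
    have a2 := hYc.pow (S + (S' - s))
    have a3 := a2.center (hQp.pow _) (hYp.pow _).one
    have a4 := ((a1.mul hHc).mul a2).add ((hHc.prob_mul (hQp.pow (S + s + i))).mul a3)
    rw [← pow_add, ← pow_add,
      show S + s + i + (l.length + 1) + (S + (S' - s)) = 2 * S + S' + k by omega] at a4
    refine a4.mono ?_
    have b1 := hp (S + s + i) (by omega)
    have b2 := hp (S + (S' - s)) (by omega)
    have b3 : ((1 + ζ) ^ (S + s + i) - 1) * η * (1 + ζ) ^ (S + (S' - s)) ≤ (2 * x) * η * 2 := by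
      have : 0 ≤ (1 + ζ) ^ (S + s + i) - 1 := a1.nonneg
      gcongr <;> linarith
    have b4 : η * ((1 + ζ) ^ (S + (S' - s)) - 1) ≤ η * (2 * x) := by gcongr; linarith
    linarith
  refine ((m3.add er).congr fun s _ => ?_).mono ?_
  · have e1 : T ((A2 P ^ S) (Q ^ (s + i) * H * Q ^ (S' - s))) + R (Q ^ s * (Q ^ i * H) *
        Q ^ (S' - s)) = Q ^ (S + s + i) * H * Q ^ (S + (S' - s)) := by
      have := eW (Q ^ (s + i) * H * Q ^ (S' - s))
      rw [e, LinearMap.add_apply, Module.End.mul_apply] at this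
      rw [← mul_assoc (Q ^ s), ← pow_add, this, add_assoc S, pow_add Q S, add_comm S (S' - s),
        pow_add Q (S' - s)]
      simp only [mul_assoc]
    rw [e1]
    noncomm_ring
  · have hρ : 0 ≤ ∑ σ ∈ range (S + 1), rho S σ ^ 2 := Finset.sum_nonneg fun _ _ => sq_nonneg _
    set ρ := ∑ σ ∈ range (S + 1), rho S σ ^ 2
    have f1 : (1 - μ) * (k * (ρ * Λ * (2 * k ^ 2 * Λ))) ≤ ρ * (k * η) := by
      have : k * (ρ * Λ * (2 * k ^ 2 * Λ)) = ρ * (k * η) := by rw [hη]; ring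
      rw [this]
      have : 0 ≤ μ * (ρ * (k * η)) := by positivity
      linarith
    have f2 : (ρ + μ) * (k * η) ≤ G * (k * η) := by gcongr
    have f3 : x * (S' + 1) * η ≤ G * (k * η) := by
      have hG0 : 0 ≤ G := le_trans (by positivity) hG
      calc x * (S' + 1) * η ≤ G * η := by gcongr
        _ ≤ G * (k * η) := by gcongr; nlinarith
    have f4 : 56 * k ^ 3 * Λ ^ 2 * G = 28 * (G * (k * η)) := by rw [hη]; ring
    rw [f4]
    nlinarith

include hP hY hX hS hbes hζ hk in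
lemma bes_rem {T R : Op} {μ G : ℝ}
    (e : Lm (P ^ (S * (2 * B + n))) * Rm (P ^ (S * (2 * B + n))) = T * A2 P ^ S + R)
    (hT : Mk T (1 - μ)) (hR : Mk R μ) (hG : ∑ σ ∈ range (S + 1), rho S σ ^ 2 + μ ≤ G)
    (S' : ℕ) (hn : (2 * S + S' + k : ℕ) * ζ ≤ 1 / 2)
    (hG2 : (2 * S + S' + k : ℕ) * ζ * (S' + 1) ≤ G)
    (l : List Bool) : ∀ i : ℕ, i + l.length = k →
    Bes ((P ^ (2 * B + n)) ^ (2 * S + S' + k))
      (fun s => pad P B 0 Yt ^ (S + s + i) * rem (pad P B 0 Xt) (pad P B 0 Yt) l *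
        pad P B 0 Yt ^ (S + (S' - s))) S' ((l.length * √(56 * k ^ 3 * Λ ^ 2 * G)) ^ 2) := by
  have hQ : Nn ((P ^ (2 * B + n)) ^ (2 * S + S' + k)) := (hP.nn.pow _).pow _
  have hG0 : 0 ≤ G :=
    le_trans (add_nonneg (Finset.sum_nonneg fun _ _ => sq_nonneg _) hR.nonneg) hG
  induction l with
  | nil => intro i _; simpa [rem] using bes_zero hQ S'
  | cons b l ih =>
    intro i hi
    rw [List.length_cons] at hi
    have h1 := ih (i + 1) (by omega)
    have h2 : Bes ((P ^ (2 * B + n)) ^ (2 * S + S' + k))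
        (fun s => pad P B 0 Yt ^ (S + s + i) * (bif b then (pad P B 0 Xt - pad P B 0 Yt) *
          (pz (pad P B 0 Xt) (pad P B 0 Yt) l - pad P B 0 Yt ^ l.length) else 0) *
          pad P B 0 Yt ^ (S + (S' - s))) S' (√(56 * k ^ 3 * Λ ^ 2 * G) ^ 2) := by
      rw [Real.sq_sqrt (by positivity)]
      cases b
      · simpa using (bes_zero hQ S').mono (by positivity)
      · rw [← pad_sub]
        exact bes_term hP hY hX hS hbes hζ hk e hT hR hG S' hn hG2 i l (by omega)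
    refine ((h2.add_sq h1 (by positivity) (by positivity)).congr fun s _ => ?_).mono
      (le_of_eq ?_)
    · rw [rem, ← add_assoc (S + s) i 1, pow_succ]
      noncomm_ring
    · rw [List.length_cons]; push_cast; ring

end

end Vale.Agent.P321
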