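import Vale.Agent.P321.Base

/-!
Iterating the construction with explicit exponents.
-/

namespace Vale.Agent.P321

open Finset

lemma hp_le {a b : ℕ} (h : b ≤ a) : (1 / 2 : ℝ) ^ a ≤ (1 / 2) ^ b :=
  pow_le_pow_of_le_one (by norm_num) (by norm_num) h

lemma pw_le {a b c : ℕ} (h : a + c ≤ b) : (2 : ℝ) ^ a * (1 / 2) ^ b ≤ (1 / 2) ^ c := by
  calc (2 : ℝ) ^ a * (1 / 2) ^ b ≤ 2 ^ a * (1 / 2) ^ (a + c) := by gcongr 2 ^ a * ?_; exact hp_le h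
    _ = (1 / 2) ^ c := by rw [pow_add, ← mul_assoc, ← mul_pow]; norm_num

lemma cast_le_pow {n a : ℕ} (h : n ≤ 2 ^ a) : (n : ℝ) ≤ 2 ^ a := by exact_mod_cast h

/-- one level, with all sizes written as powers of two -/
def Lev (q : ℝ) (a x l τ : ℕ) (E : ℝ) : Prop :=
  ∃ (P Yt Xt : Ms) (B n S ν : ℕ) (Λ ζ θ' θ G : ℝ) (wx wy : List Bool),
    Inv P Yt Xt B n S ν Λ ζ θ' θ G ∧ S ≤ 2 ^ (6 * a) ∧ Λ ≤ (1 / 2) ^ l ∧
    Λ ^ 2 * G ≤ 4 * (1 / 2) ^ (2 * l + 3 * a) ∧ ζ ≤ (1 / 2) ^ (40 * a) ∧ (1 / 2) ^ (3 * a) ≤ G ∧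
    θ' ≤ (1 / 2) ^ (15 * a) ∧ θ ≤ (1 / 2) ^ τ ∧ ν ≤ 2 ^ x ∧ wx.length = wy.length ∧ wx ≠ wy ∧
    wy.length ≤ 2 ^ x ∧ L1 (pad P B 0 Xt - phi q wx) (2 ^ x * E) ∧
    L1 (pad P B 0 Yt - phi q wy) (2 ^ x * E)

lemma size_K {S S' ν m J a x y : ℕ} (hS : S ≤ 2 ^ (6 * a)) (hS' : S' + 1 = 2 ^ (12 * a))
    (hν : ν ≤ 2 ^ x) (hJ : J + 1 = 2 ^ (2 * y)) (hx : 12 * a + 4 ≤ x) :
    2 * (S + S' + (ν * (m * J) + 2 * 2 ^ m + 8)) + 2 ^ m ≤ 2 ^ (x + m + 2 * y + 3) := by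
  set A := 2 ^ (x + m + 2 * y) with hA
  have h1 : 2 ^ (6 * a) ≤ 2 ^ (12 * a) := Nat.pow_le_pow_right (by norm_num) (by omega)
  have h2 : 2 ^ (12 * a + 1) ≤ A := Nat.pow_le_pow_right (by norm_num) (by omega)
  have h3 : ν * (m * J) ≤ A := by
    rw [hA, pow_add, pow_add, mul_assoc]
    exact Nat.mul_le_mul hν (Nat.mul_le_mul Nat.lt_two_pow_self.le (by omega))
  have h4 : 2 ^ (m + 4) ≤ A := Nat.pow_le_pow_right (by norm_num) (by omega)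
  have h5 : 1 ≤ 2 ^ m := Nat.one_le_two_pow
  rw [pow_add _ _ 3, ← hA]
  rw [pow_add] at h2 h4
  omega

lemma word_ne {wx wy : List Bool} (hl : wx.length = wy.length) (hne : wx ≠ wy) (K m : ℕ) :
    rep K wy ++ pw wx wy (tm m).1 ++ rep K wy ≠ rep K wy ++ pw wx wy (tm m).2 ++ rep K wy := by
  obtain ⟨l, l', h1, h2⟩ := tm_head m
  intro h
  rw [List.append_left_inj, List.append_right_inj, h1, h2] at h
  have e1 : pw wx wy (true :: l) = wx ++ pw wx wy l := rfl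
  have e2 : pw wx wy (false :: l') = wy ++ pw wx wy l' := rfl
  rw [e1, e2] at h
  exact hne (List.append_inj h hl).1

lemma l1_block {X Y X' Y' : Ms} {e : ℝ} (hX : Prob X) (hY : Prob Y) (hX' : Prob X')
    (hY' : Prob Y') (h1 : L1 (X - X') e) (h2 : L1 (Y - Y') e) (K : ℕ) (l : List Bool) :
    L1 (Y ^ K * pz X Y l * Y ^ K - Y' ^ K * pz X' Y' l * Y' ^ K) ((2 * K + l.length : ℕ) * e) := by
  have i1 := l1_pow_sub' hY hY' h2 K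
  have i2 := l1_mul_sub (hY.pow K) ((hY'.pow K).mul (pz_prob hX' hY' l))
    (l1_mul_sub (pz_prob hX hY l) (hY'.pow K) i1 (l1_pz_sub hX hY hX' hY' h1 h2 l)) i1
  refine i2.mono (le_of_eq ?_)
  push_cast; ring

lemma num_lam {Λ G : ℝ} {a l m v J : ℕ} (hΛ : Λ ≤ (1 / 2) ^ l)
    (hG : Λ ^ 2 * G ≤ 4 * (1 / 2) ^ (2 * l + 3 * a)) (h1 : 5 * m + 15 ≤ a)
    (h2 : 14 * a + 4 + l ≤ 2 * (m * v)) (h3 : 14 * a + 4 + 2 * l ≤ m * J) :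
    4 * 2 ^ (12 * a) * ((1 / 2 : ℝ) ^ (m * v)) ^ 2 * Λ + 1792 * (2 ^ m) ^ 5 * Λ ^ 2 * G +
      4 * 2 ^ (12 * a) * (1 / 2) ^ (m * J) ≤ (1 / 2) ^ (2 * l + 2 * a) := by
  have t1 : 4 * 2 ^ (12 * a) * ((1 / 2 : ℝ) ^ (m * v)) ^ 2 * Λ ≤ (1 / 2) ^ (2 * l + 2 * a + 2) := by
    calc _ ≤ 4 * 2 ^ (12 * a) * ((1 / 2 : ℝ) ^ (m * v)) ^ 2 * (1 / 2) ^ l := by gcongr
      _ = 2 ^ (12 * a + 2) * (1 / 2) ^ (m * v * 2 + l) := by
          rw [pow_add, pow_add, pow_mul _ (m * v)]; ring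
      _ ≤ _ := pw_le (by omega)
  have t2 : 1792 * (2 ^ m) ^ 5 * Λ ^ 2 * G ≤ (1 / 2) ^ (2 * l + 2 * a + 2) := by
    calc _ = 1792 * (2 ^ m) ^ 5 * (Λ ^ 2 * G) := by ring
      _ ≤ 2048 * (2 ^ m) ^ 5 * (4 * (1 / 2) ^ (2 * l + 3 * a)) := by
          have : (1792 * (2 ^ m) ^ 5 : ℝ) * (Λ ^ 2 * G) ≤
            1792 * (2 ^ m) ^ 5 * (4 * (1 / 2) ^ (2 * l + 3 * a)) := by gcongr
          refine this.trans ?_
          gcongr; norm_num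
      _ = 2 ^ (m * 5 + 13) * (1 / 2) ^ (2 * l + 3 * a) := by rw [pow_add 2, pow_mul]; ring
      _ ≤ _ := pw_le (by omega)
  have t3 : 4 * 2 ^ (12 * a) * (1 / 2 : ℝ) ^ (m * J) ≤ (1 / 2) ^ (2 * l + 2 * a + 2) := by
    calc _ = 2 ^ (12 * a + 2) * (1 / 2 : ℝ) ^ (m * J) := by rw [pow_add]; ring
      _ ≤ _ := pw_le (by omega)
  rw [pow_add (1 / 2 : ℝ) (2 * l + 2 * a) 2] at t1 t2 t3
  have : (0 : ℝ) ≤ (1 / 2) ^ (2 * l + 2 * a) := by positivity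
  linarith

lemma num_six {Λ : ℝ} {a x l m ν Rb : ℕ} (hΛ0 : 0 ≤ Λ) (hΛ : Λ ≤ (1 / 2) ^ l) (hν : ν ≤ 2 ^ x)
    (h1 : 5 * m + 15 ≤ a) (h2 : x + 30 * a ≤ l) (h3 : Rb ≤ 300 * a) :
    2 ^ 43 * ((2 : ℝ) ^ m) ^ 2 * (4 * (2 ^ m) ^ 2 * Λ) ^ 2 * ν ^ 2 * Rb ≤ 1 := by
  have a1 := cast_le_pow hν
  have a2 : (Rb : ℝ) ≤ 2 ^ (a + 9) := cast_le_pow (by
    have : a < 2 ^ a := Nat.lt_two_pow_self
    rw [pow_add]; omega)
  calc _ ≤ 2 ^ 43 * ((2 : ℝ) ^ m) ^ 2 * (4 * (2 ^ m) ^ 2 * (1 / 2) ^ l) ^ 2 * (2 ^ x) ^ 2 *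
        2 ^ (a + 9) := by gcongr
    _ = 2 ^ (47 + m * 6 + x * 2 + (a + 9)) * (1 / 2) ^ (l * 2) := by
        simp only [pow_add, pow_mul]; ring
    _ ≤ (1 / 2) ^ 0 := pw_le (by omega)
    _ = 1 := pow_zero _

lemma num_a {ζ Λ : ℝ} {a l m : ℕ} (bζ : ζ ≤ (1 / 2) ^ (40 * a)) (bΛ : Λ ≤ (1 / 2) ^ l)
    (c1 : 5 * m + 15 ≤ a) (c2 : 140 * a ≤ l) : ((2 ^ m : ℕ) : ℝ) * (2 * ζ + 2 * Λ) ≤ 1 / 2 := by
  have h1 := bΛ.trans (hp_le (by omega : 40 * a ≤ l))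
  calc ((2 ^ m : ℕ) : ℝ) * (2 * ζ + 2 * Λ) ≤ (2 ^ m : ℕ) * (4 * (1 / 2) ^ (40 * a)) := by
        gcongr; linarith
    _ = 2 ^ (m + 2) * (1 / 2) ^ (40 * a) := by push_cast; ring
    _ ≤ (1 / 2) ^ 1 := pw_le (by omega)
    _ = _ := pow_one _

lemma num_b {n ζ : ℝ} {a b c : ℕ} (hn : n ≤ 2 ^ a) (h0 : 0 ≤ ζ) (h : ζ ≤ (1 / 2) ^ b)
    (hc : a + c ≤ b) : n * ζ ≤ (1 / 2) ^ c :=
  le_trans (by gcongr) (pw_le hc)

lemma num_c {n ζ : ℝ} {a : ℕ} (hn : n ≤ 2 ^ (12 * a + 2)) (h0 : 0 ≤ ζ) (ha : 1 ≤ a)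
    (h : ζ ≤ (1 / 2) ^ (40 * a)) : n * ζ * 2 ^ (12 * a) ≤ (1 / 2) ^ (3 * a) := by
  have h1 := num_b (c := 15 * a) hn h0 h (by omega)
  calc _ ≤ (1 / 2 : ℝ) ^ (15 * a) * 2 ^ (12 * a) := by gcongr
    _ ≤ _ := by rw [mul_comm]; exact pw_le (by omega)

lemma num_d {J m v y : ℕ} (hJ : J + 1 = 2 ^ (2 * y)) (hy : y = v + m + 1) :
    ((2 : ℝ) ^ m * (2 / √(J + 1))) ^ m ≤ (1 / 2) ^ (m * v) := by
  have h1 : (J : ℝ) + 1 = (2 ^ y) ^ 2 := by rw [← pow_mul, mul_comm]; exact_mod_cast hJ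
  rw [h1, Real.sqrt_sq (by positivity), mul_comm m v, pow_mul, hy]
  refine le_of_eq ?_
  congr 1
  rw [one_div_pow, pow_add, pow_add]; field_simp

lemma num_e {E : ℝ} {N x x' b : ℕ} (hE : 0 ≤ E) (hN : N ≤ 2 ^ b) (hb : 1 ≤ b)
    (h : b + x + 1 ≤ x') : (N : ℝ) * (2 ^ x * E) + 2 * E ≤ 2 ^ x' * E := by
  have h1 : N * 2 ^ x + 2 ≤ 2 ^ x' := by
    have h2 : N * 2 ^ x ≤ 2 ^ (b + x) := by rw [pow_add]; exact Nat.mul_le_mul_right _ hN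
    have h3 : 2 ^ (b + x + 1) ≤ 2 ^ x' := Nat.pow_le_pow_right (by norm_num) h
    have h4 : 2 ^ 1 ≤ 2 ^ (b + x) := Nat.pow_le_pow_right (by norm_num) (by omega)
    rw [pow_succ] at h3; omega
  have := mul_le_mul_of_nonneg_right (cast_le_pow h1) hE
  push_cast at this
  linarith

lemma num_f {L : ℝ} {l a : ℕ} (h0 : 0 ≤ L) (h : L ≤ (1 / 2) ^ l) :
    L ^ 2 * (3 * (1 / 2) ^ (6 * a)) ≤ 4 * (1 / 2) ^ (2 * l + 3 * (2 * a)) := by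
  rw [show 3 * (2 * a) = 6 * a by ring, pow_add, mul_comm 2 l, pow_mul _ l 2]
  have h1 : (0 : ℝ) ≤ ((1 / 2) ^ l) ^ 2 * (1 / 2) ^ (6 * a) := by positivity
  calc _ ≤ ((1 / 2 : ℝ) ^ l) ^ 2 * (3 * (1 / 2) ^ (6 * a)) := by gcongr
    _ ≤ _ := by linarith

lemma num_g {θ : ℝ} {m τ τ' u : ℕ} (h0 : 0 ≤ θ) (h : θ ≤ (1 / 2) ^ τ) (hu : τ ≤ u)
    (c6 : τ' + 2 * m + 4 ≤ 2 * τ) :
    2 * ((1 / 2) ^ u * θ + 4 * (2 ^ m) ^ 2 * θ ^ 2) ≤ (1 / 2) ^ τ' := by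
  have h1 : (1 : ℝ) ≤ (2 ^ m) ^ 2 := one_le_pow₀ (one_le_pow₀ one_le_two)
  have h2 : (0 : ℝ) ≤ ((1 / 2) ^ τ) ^ 2 := by positivity
  have h3 := hp_le hu
  have h4 : (1 / 2 : ℝ) ^ u * θ ≤ (1 / 2) ^ τ * (1 / 2) ^ τ := mul_le_mul h3 h h0 (by positivity)
  have h5 : 4 * ((2 : ℝ) ^ m) ^ 2 * θ ^ 2 ≤ 4 * (2 ^ m) ^ 2 * ((1 / 2) ^ τ) ^ 2 := by gcongr
  calc _ ≤ 16 * ((2 : ℝ) ^ m) ^ 2 * ((1 / 2) ^ τ) ^ 2 := by nlinarith
    _ = 2 ^ (m * 2 + 4) * (1 / 2) ^ (τ * 2) := by rw [pow_add, pow_mul, pow_mul]; ring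
    _ ≤ _ := pw_le (by omega)

lemma num_h {N ν a b c d : ℕ} (hN : N ≤ 2 ^ b) (hν : ν ≤ 2 ^ c) (h : a + b + c ≤ d) :
    2 ^ a * N * ν ≤ 2 ^ d := by
  calc _ ≤ 2 ^ a * 2 ^ b * 2 ^ c := by gcongr
    _ = 2 ^ (a + b + c) := by rw [← pow_add, ← pow_add]
    _ ≤ _ := Nat.pow_le_pow_right (by norm_num) h

lemma num_i {S S' m a : ℕ} (bS : S ≤ 2 ^ (6 * a)) (hS' : S' + 1 = 2 ^ (12 * a))
    (c1 : 5 * m + 15 ≤ a) : ((2 * S + S' + 2 ^ m : ℕ) : ℝ) ≤ 2 ^ (12 * a + 2) := cast_le_pow (by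
  have h1 : 2 ^ (6 * a + 1) ≤ 2 ^ (12 * a) := Nat.pow_le_pow_right (by norm_num) (by omega)
  have h2 : 2 ^ m ≤ 2 ^ (12 * a) := Nat.pow_le_pow_right (by norm_num) (by omega)
  rw [pow_add] at h1 ⊢; omega)

lemma num_j (a : ℕ) : (3 : ℝ) / √(2 ^ (12 * a)) = 3 * (1 / 2) ^ (6 * a) := by
  rw [show 12 * a = 6 * a * 2 by ring, pow_mul, Real.sqrt_sq (by positivity), one_div_pow]; ring

theorem lev_step {q E : ℝ} (hq : 0 ≤ q) (hq1 : q ≤ 1) {a x l τ : ℕ} (h : Lev q a x l τ E)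
    {m v y x' τ' : ℕ} (hm : 2 ≤ m) (hy : y = v + m + 1) (c1 : 5 * m + 15 ≤ a) (c2 : 140 * a ≤ l)
    (c3 : x + 30 * a ≤ l) (c4 : 12 * a + 4 ≤ x) (c5 : 40 * a + 2 * m + 4 ≤ τ)
    (c6 : τ' + 2 * m + 4 ≤ 2 * τ) (c7 : 2 * x + m + 2 * y + 20 ≤ x')
    (c8 : 2 * x + m + 2 * y + 11 ≤ 300 * a) (c9 : 14 * a + 4 + l ≤ 2 * (m * v)) (c10 : τ ≤ m * v)
    (c11 : 14 * a + 4 + 2 * l ≤ m * (2 * y)) (c12 : (1 / 2) ^ 2 ^ (2 * y) ≤ E) :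
    Lev q (2 * a) x' (2 * l + 2 * a) τ' E := by
  obtain ⟨P, Yt, Xt, B, n, S, ν, Λ, ζ, θ', θ, G, wx, wy, I, bS, bΛ, bG, bζ, bG', bθ', bθ, bν,
    hl, hne, bl, eX, eY⟩ := h
  obtain ⟨S', hS'⟩ : ∃ S', S' + 1 = 2 ^ (12 * a) := ⟨2 ^ (12 * a) - 1, by
    have := Nat.one_le_two_pow (n := 12 * a); omega⟩
  obtain ⟨J, hJ⟩ : ∃ J, J + 1 = 2 ^ (2 * y) := ⟨2 ^ (2 * y) - 1, by
    have := Nat.one_le_two_pow (n := 2 * y); omega⟩
  have hJy : 2 * y ≤ J := by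
    have : 2 * y < 2 ^ (2 * y) := Nat.lt_two_pow_self
    omega
  have hN := size_K (m := m) bS hS' bν hJ c4
  have hΛ0 := I.bes.nonneg
  have hθ0 := I.ab.nonneg
  have hE : 0 ≤ E := le_trans (by positivity) c12
  have hn := num_i bS hS' c1
  have hS'' : (S' : ℝ) + 1 = 2 ^ (12 * a) := by exact_mod_cast hS'
  obtain ⟨Yt', Xt', n', hn', I', eY', eX'⟩ := step I (m := m) (J := J) (S' := S')
    (Rb := 2 * x + m + 2 * y + 11) (e₁ := (1 / 2) ^ (m * v)) (by omega) (by omega) rfl rfl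
    (num_a bζ bΛ c1 c2)
    ((num_b (c := 1) hn I.chi.nonneg bζ (by omega)).trans (pow_one _).le)
    (by rw [hS'']; exact (num_c hn I.chi.nonneg (by omega) bζ).trans bG')
    ((num_b (c := 1) hn I.dom0 bθ' (by omega)).trans (pow_one _).le)
    ((num_b (c := 2) (cast_le_pow le_rfl) hθ0 bθ (by omega)).trans (by norm_num))
    (num_d hJ hy) (pow_le_one₀ (by norm_num) (by norm_num))
    (le_trans (Nat.mul_le_mul_right _ (Nat.mul_le_mul_right _ (by norm_num)))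
      (num_h (a := 8) hN bν (by omega)))
    (by rw [Nat.cast_pow, Nat.cast_ofNat]; exact num_six hΛ0 bΛ bν c1 c3 c8)
  obtain ⟨K, hK⟩ : ∃ K, K = S + S' + (ν * (m * J) + 2 * 2 ^ m + 8) := ⟨_, rfl⟩
  rw [← hK] at hN I' eY' eX'
  have bΛ' := num_lam (J := J) bΛ bG c1 c9 (c11.trans (Nat.mul_le_mul_left _ hJy))
  rw [hS'', num_j, Nat.cast_pow, Nat.cast_ofNat] at I'
  have herr := num_e (x := x) (x' := x') hE hN (by omega) (by omega)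
  have lb := fun l => l1_block (pad_prob I.pP I.pX B 0) (pad_prob I.pP I.pY B 0)
    (phi_prob hq hq1 wx) (phi_prob hq hq1 wy) eX eY K l
  refine ⟨_, _, _, _, _, _, _, _, _, _, _, _, rep K wy ++ pw wx wy (tm m).1 ++ rep K wy,
    rep K wy ++ pw wx wy (tm m).2 ++ rep K wy, I', ?_, bΛ', num_f I'.bes.nonneg bΛ', ?_, ?_, ?_,
    num_g hθ0 bθ c10 c6, num_h hN bν (by omega), ?_, word_ne hl hne K m, ?_, ?_, ?_⟩
  · rw [show 6 * (2 * a) = 12 * a by ring]; omega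
  · refine num_b (a := m * 2 + 2) (le_of_eq ?_) hΛ0 bΛ (by omega)
    rw [pow_add, pow_mul]; ring
  · rw [show 3 * (2 * a) = 6 * a by ring]
    have : (0 : ℝ) ≤ (1 / 2) ^ (6 * a) := by positivity
    linarith
  · refine num_b (a := m + 1) (le_of_eq ?_) hθ0 bθ (by omega)
    rw [pow_add]; ring
  · simp only [List.length_append, length_pw hl, (tm_length m).1, (tm_length m).2]
  · simp only [List.length_append, length_pw hl, (tm_length m).2, length_rep]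
    have := num_h (a := 0) (d := x') hN bl (by omega)
    rw [pow_zero, one_mul] at this
    refine le_of_eq_of_le ?_ this
    ring
  · rw [phi_append, phi_append, phi_rep, phi_pw]
    have h1 := eX'.add (lb (tm m).1)
    rw [sub_add_sub_cancel, (tm_length m).1] at h1
    refine h1.mono ?_
    have h2 : (1 / 2 : ℝ) ^ (m * J) ≤ E := (hp_le (by
      have : 2 * J ≤ m * J := Nat.mul_le_mul_right _ hm
      omega)).trans c12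
    linarith
  · rw [phi_append, phi_append, phi_rep, phi_pw, eY']
    have h1 := lb (tm m).2
    rw [(tm_length m).2] at h1
    refine h1.mono ?_
    linarith

lemma lev_zero {q : ℝ} (hq : 0 < q) (hq1 : q ≤ 1) : ∃ e₀ : ℕ, ∀ e ≥ e₀, ∀ τ ≤ 49 * e, ∀ z ≤ e,
    Lev q e (110 * e) (140 * e) τ ((1 / 2) ^ 2 ^ z) := by
  obtain ⟨e₀, h⟩ := base hq hq1
  refine ⟨e₀, fun e he τ hτ z hz => ?_⟩
  obtain ⟨x, y, X, h1, h2, h3, I, h4⟩ := h e he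
  have hp : ∀ P F, pad P 0 0 F = F := fun P F => by simp [pad]
  have h5 : (1 : ℝ) ≤ 2 ^ (110 * e) := one_le_pow₀ one_le_two
  refine ⟨_, _, _, _, _, _, _, _, _, _, _, _, x, y, I, Nat.zero_le _, hp_le (by omega), ?_,
    by positivity, pow_le_one₀ (by norm_num) (by norm_num), by positivity, hp_le hτ, le_rfl, h1, h2,
    h3, ?_, ?_⟩
  · rw [mul_one, ← pow_mul]
    have := hp_le (a := 149 * e * 2) (b := 2 * (140 * e) + 3 * e) (by omega)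
    have : (0 : ℝ) ≤ (1 / 2) ^ (2 * (140 * e) + 3 * e) := by positivity
    linarith
  · rw [hp]
    refine h4.mono ((hp_le (Nat.pow_le_pow_right (by norm_num) hz)).trans ?_)
    exact le_mul_of_one_le_left (by positivity) h5
  · rw [hp, sub_self]; exact l1_zero.mono (by positivity)

lemma lev_iter {q : ℝ} (hq : 0 ≤ q) (hq1 : q ≤ 1) {t w m : ℕ} (ht : 1 ≤ t)
    (hm : m = 2 * t * (155 + t)) (hw : 3 * m + 10 ≤ w)
    (h0 : Lev q (2 * t * w) (110 * (2 * t * w)) (140 * (2 * t * w)) (40 * (2 * t * w) + 2 * m + 4)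
      ((1 / 2) ^ 2 ^ (2 * w))) (j : ℕ) : j ≤ t →
    Lev q (2 * t * (2 ^ j * w)) (110 * (2 * t * (2 ^ j * w)) + 2 * j * (2 ^ j * w))
      ((140 + j) * (2 * t * (2 ^ j * w))) (40 * (2 * t * (2 ^ j * w)) + 2 * m + 4)
      ((1 / 2) ^ 2 ^ (2 * w)) := by
  induction j with
  | zero => intro _; simpa using h0
  | succ j ih =>
    intro hj
    have h := ih (by omega)
    have hb : w ≤ 2 ^ j * w := Nat.le_mul_of_pos_left _ (Nat.two_pow_pos j)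
    have e : 2 ^ (j + 1) * w = 2 * (2 ^ j * w) := by ring
    rw [e]
    generalize 2 ^ j * w = b at *
    obtain ⟨a, ha⟩ : ∃ a, a = 2 * t * b := ⟨_, rfl⟩
    have e2 : 2 * t * (2 * b) = 2 * a := by rw [ha]; ring
    rw [← ha] at h
    rw [e2]
    obtain ⟨v, hv⟩ : ∃ v, b = v + m + 1 := ⟨b - (m + 1), by omega⟩
    have f1 : 2 * b ≤ a := by rw [ha]; nlinarith
    have f2 : 2 * j * b ≤ j * a := by nlinarith
    have f3 : 2 * j * b ≤ a := by rw [ha]; nlinarith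
    have f4 : m * b = 155 * a + t * a := by rw [hm, ha]; ring
    have f5 : m * b ≤ 2 * (m * v) := by
      rw [mul_left_comm]; exact Nat.mul_le_mul_left _ (by omega)
    have f6 : j * a ≤ t * a := Nat.mul_le_mul_right _ (by omega)
    have f7 : (140 + j) * a = 140 * a + j * a := by ring
    have f8 : m * (2 * b) = 2 * (m * b) := by ring
    have f9 : 2 * (j + 1) * (2 * b) = 2 * (2 * j * b) + 4 * b := by ring
    have hm2 : 2 ≤ m := by rw [hm]; nlinarith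
    have := lev_step hq hq1 h (x' := 110 * (2 * a) + 2 * (j + 1) * (2 * b))
      (τ' := 40 * (2 * a) + 2 * m + 4) hm2 hv (by omega) (by omega) (by omega) (by omega)
      (by omega) (by omega) (by omega) (by omega) (by omega) (by omega) (by omega)
      (hp_le (Nat.pow_le_pow_right (by norm_num) (by omega)))
    rwa [show 2 * ((140 + j) * a) + 2 * a = (140 + (j + 1)) * (2 * a) by ring] at this

theorem close_words {q : ℝ} (hq : 0 < q) (hq1 : q ≤ 1) : ∃ w₀ : ℕ, ∀ t w : ℕ, 1 ≤ t →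
    6 * t * (155 + t) + 10 ≤ w → w₀ ≤ w → ∃ x y : List Bool, x.length = y.length ∧ x ≠ y ∧
      y.length ≤ 2 ^ (222 * t * (2 ^ t * w)) ∧
      L1 (phi q x - phi q y) (2 * (1 / 2) ^ (t * t * (2 ^ t * w))) := by
  obtain ⟨e₀, h⟩ := lev_zero hq hq1
  refine ⟨e₀, fun t w ht hw hw0 => ?_⟩
  have h1 : 2 * w ≤ 2 * t * w := by nlinarith
  have h2 := lev_iter hq.le hq1 ht rfl (by linarith) (h (2 * t * w) (by omega) _ (by nlinarith) _ h1)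
    t le_rfl
  obtain ⟨P, Yt, Xt, B, n, S, ν, Λ, ζ, θ', θ, G, wx, wy, I, -, bΛ, -, -, -, bθ', -, -,
    hl, hne, bl, eX, eY⟩ := h2
  have hb : 1 ≤ 2 ^ t * w := Nat.mul_pos (Nat.two_pow_pos t) (by omega)
  have ex : 110 * (2 * t * (2 ^ t * w)) + 2 * t * (2 ^ t * w) = 222 * t * (2 ^ t * w) := by ring
  rw [ex] at bl eX eY
  refine ⟨wx, wy, hl, hne, bl, ?_⟩
  have h3 := I.chiD (bθ'.trans ((hp_le (b := 1) (by nlinarith)).trans (pow_one _).le))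
  have h4 : L1 (pad P B 0 Xt - pad P B 0 Yt) ((1 / 2) ^ (t * t * (2 ^ t * w))) := by
    refine (h3.mono ?_).l1 (pad_prob I.pP I.pY B 0) (by positivity)
    rw [← pow_mul]
    refine num_b (a := 1) (by norm_num) I.bes.nonneg bΛ ?_
    nlinarith
  have h5 := (h4.sub eX).add eY
  have h6 : 222 * t * (2 ^ t * w) + 1 + t * t * (2 ^ t * w) ≤ 2 ^ (2 * w) := by
    have a1 : t ≤ 2 ^ t := Nat.lt_two_pow_self.le
    have a2 : w ≤ 2 ^ w := Nat.lt_two_pow_self.le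
    have a3 : 223 + t ≤ 2 ^ 8 * 2 ^ t := by have := Nat.two_pow_pos t; omega
    calc _ ≤ (223 + t) * t * (2 ^ t * w) := by nlinarith
      _ ≤ (2 ^ 8 * 2 ^ t) * 2 ^ t * (2 ^ t * 2 ^ w) := by gcongr
      _ = 2 ^ (8 + t + t + (t + w)) := by simp only [pow_add]
      _ ≤ _ := Nat.pow_le_pow_right (by norm_num) (by nlinarith)
  have h7 := pw_le h6
  rw [pow_succ] at h7
  convert h5.mono ?_ using 1
  · abel
  · linarith

end Vale.Agent.P321
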