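import Mathlib

/-!
Finitely supported signed measures on a monoid, as elements of the monoid algebra.
-/

namespace Vale.Agent.P321

open Finset

/-- finite binary words -/
abbrev Wd := FreeMonoid Bool

/-- finitely supported signed measures on words -/
abbrev Ms := MonoidAlgebra ℝ Wd

/-- integration of a function against a finitely supported signed measure -/
noncomputable def ev (F : Ms) (g : Wd → ℝ) : ℝ := F.coeff.sum fun w c => c * g w

lemma ev_eq (F : Ms) (g : Wd → ℝ) : ev F g = ∑ w ∈ F.coeff.support, F.coeff w * g w := rfl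

lemma ev_eq_of_subset (F : Ms) (g : Wd → ℝ) (s : Finset Wd) (hs : F.coeff.support ⊆ s) :
    ev F g = ∑ w ∈ s, F.coeff w * g w := by
  rw [ev_eq]
  refine Finset.sum_subset hs fun w _ hw => ?_
  rw [Finsupp.notMem_support_iff.1 hw, zero_mul]

lemma ev_add (F G : Ms) (g : Wd → ℝ) : ev (F + G) g = ev F g + ev G g := by
  unfold ev
  rw [MonoidAlgebra.coeff_add, Finsupp.sum_add_index']
  · intro; simp
  · intros; ring

@[simp] lemma ev_zero (g : Wd → ℝ) : ev (0 : Ms) g = 0 := by simp [ev]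

lemma ev_smul (c : ℝ) (F : Ms) (g : Wd → ℝ) : ev (c • F) g = c * ev F g := by
  rw [ev_eq_of_subset (c • F) g F.coeff.support, ev_eq, Finset.mul_sum]
  · refine Finset.sum_congr rfl fun w _ => ?_
    rw [MonoidAlgebra.coeff_smul_apply, smul_eq_mul, mul_assoc]
  · rw [MonoidAlgebra.coeff_smul]; exact Finsupp.support_smul

lemma ev_neg (F : Ms) (g : Wd → ℝ) : ev (-F) g = -ev F g := by
  have := ev_smul (-1) F g
  simpa using this

lemma ev_sub (F G : Ms) (g : Wd → ℝ) : ev (F - G) g = ev F g - ev G g := by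
  rw [sub_eq_add_neg, ev_add, ev_neg, sub_eq_add_neg]

lemma ev_sum {ι : Type*} (s : Finset ι) (F : ι → Ms) (g : Wd → ℝ) :
    ev (∑ i ∈ s, F i) g = ∑ i ∈ s, ev (F i) g := by
  classical
  induction s using Finset.induction_on with
  | empty => simp
  | insert a s ha ih => rw [Finset.sum_insert ha, Finset.sum_insert ha, ev_add, ih]

@[simp] lemma ev_single (w : Wd) (c : ℝ) (g : Wd → ℝ) :
    ev (MonoidAlgebra.single w c) g = c * g w := by
  unfold ev
  rw [MonoidAlgebra.coeff_single, Finsupp.sum_single_index]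
  simp

@[simp] lemma ev_one (g : Wd → ℝ) : ev (1 : Ms) g = g 1 := by
  rw [MonoidAlgebra.one_def, ev_single, one_mul]

lemma ev_fadd (F : Ms) (f g : Wd → ℝ) : ev F (fun w => f w + g w) = ev F f + ev F g := by
  simp only [ev_eq, mul_add, Finset.sum_add_distrib]

lemma ev_fsub (F : Ms) (f g : Wd → ℝ) : ev F (fun w => f w - g w) = ev F f - ev F g := by
  simp only [ev_eq, mul_sub, Finset.sum_sub_distrib]

lemma ev_fmul (F : Ms) (c : ℝ) (g : Wd → ℝ) : ev F (fun w => c * g w) = c * ev F g := by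
  simp only [ev_eq, Finset.mul_sum]
  exact Finset.sum_congr rfl fun w _ => by ring

lemma ev_fsum {ι : Type*} (F : Ms) (s : Finset ι) (g : ι → Wd → ℝ) :
    ev F (fun w => ∑ i ∈ s, g i w) = ∑ i ∈ s, ev F (g i) := by
  simp only [ev_eq, Finset.mul_sum]
  exact Finset.sum_comm

@[simp] lemma ev_fzero (F : Ms) : ev F (fun _ => 0) = 0 := by simp [ev_eq]

lemma ev_comm (F G : Ms) (h : Wd → Wd → ℝ) :
    ev F (fun w => ev G (fun v => h w v)) = ev G (fun v => ev F (fun w => h w v)) := by
  simp only [ev_eq, Finset.mul_sum]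
  rw [Finset.sum_comm]
  exact Finset.sum_congr rfl fun _ _ => Finset.sum_congr rfl fun _ _ => by ring

lemma ev_mul (F G : Ms) (g : Wd → ℝ) :
    ev (F * G) g = ev F (fun w => ev G (fun v => g (w * v))) := by
  induction F using MonoidAlgebra.induction_linear with
  | zero => simp
  | add a b ha hb => rw [add_mul, ev_add, ev_add, ha, hb]
  | single w c =>
    induction G using MonoidAlgebra.induction_linear with
    | zero => simp
    | add a b ha hb =>
      rw [mul_add, ev_add, ha, hb]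
      simp only [ev_single, ev_add]; ring
    | single v d => simp [MonoidAlgebra.single_mul_single, mul_assoc]

lemma ev_mul' (F G : Ms) (g : Wd → ℝ) :
    ev (F * G) g = ev G (fun v => ev F (fun w => g (w * v))) := by
  rw [ev_mul, ev_comm]

open Classical in
lemma ev_indicator (F : Ms) (w : Wd) :
    ev F (fun v => if v = w then 1 else 0) = F.coeff w := by
  rw [ev_eq_of_subset F _ (insert w F.coeff.support) (Finset.subset_insert _ _)]
  simp

lemma ev_ext {F G : Ms} (h : ∀ g, ev F g = ev G g) : F = G := by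
  classical
  ext w
  rw [← ev_indicator, ← ev_indicator, h]

lemma ev_lin (Φ : Ms →ₗ[ℝ] Ms) (F : Ms) (g : Wd → ℝ) :
    ev (Φ F) g = ev F (fun w => ev (Φ (MonoidAlgebra.single w 1)) g) := by
  induction F using MonoidAlgebra.induction_linear with
  | zero => simp
  | add a b ha hb => rw [map_add, ev_add, ev_add, ha, hb]
  | single w c =>
    have : MonoidAlgebra.single w c = c • (MonoidAlgebra.single w (1 : ℝ) : Ms) := by
      rw [MonoidAlgebra.smul_single, smul_eq_mul, mul_one]
    rw [ev_single, this, map_smul, ev_smul]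

/-- nonnegative measures -/
def Nn (F : Ms) : Prop := ∀ w, 0 ≤ F.coeff w

lemma Nn.ev_nonneg {F : Ms} (hF : Nn F) {g : Wd → ℝ} (hg : ∀ w, 0 ≤ g w) : 0 ≤ ev F g :=
  Finset.sum_nonneg fun w _ => mul_nonneg (hF w) (hg w)

lemma Nn.ev_mono {F : Ms} (hF : Nn F) {f g : Wd → ℝ} (h : ∀ w, f w ≤ g w) : ev F f ≤ ev F g :=
  Finset.sum_le_sum fun w _ => mul_le_mul_of_nonneg_left (h w) (hF w)

lemma nn_of_ev {F : Ms} (h : ∀ g : Wd → ℝ, (∀ w, 0 ≤ g w) → 0 ≤ ev F g) : Nn F := by
  classical
  intro w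
  rw [← ev_indicator]
  exact h _ fun v => by split_ifs <;> norm_num

lemma nn_zero : Nn (0 : Ms) := fun _ => le_rfl

lemma nn_single (w : Wd) {c : ℝ} (hc : 0 ≤ c) : Nn (MonoidAlgebra.single w c) :=
  nn_of_ev fun g hg => by rw [ev_single]; exact mul_nonneg hc (hg w)

lemma nn_one : Nn (1 : Ms) := nn_single 1 zero_le_one

lemma Nn.add {F G : Ms} (hF : Nn F) (hG : Nn G) : Nn (F + G) := fun w => by
  have := add_nonneg (hF w) (hG w)
  simpa using this

lemma Nn.smul {F : Ms} {c : ℝ} (hc : 0 ≤ c) (hF : Nn F) : Nn (c • F) := fun w => by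
  rw [MonoidAlgebra.coeff_smul_apply, smul_eq_mul]; exact mul_nonneg hc (hF w)

lemma Nn.sum {ι : Type*} {s : Finset ι} {F : ι → Ms} (h : ∀ i ∈ s, Nn (F i)) :
    Nn (∑ i ∈ s, F i) :=
  nn_of_ev fun g hg => by
    rw [ev_sum]; exact Finset.sum_nonneg fun i hi => (h i hi).ev_nonneg hg

lemma Nn.mul {F G : Ms} (hF : Nn F) (hG : Nn G) : Nn (F * G) :=
  nn_of_ev fun g hg => by
    rw [ev_mul]; exact hF.ev_nonneg fun w => hG.ev_nonneg fun v => hg _

lemma Nn.pow {F : Ms} (hF : Nn F) (n : ℕ) : Nn (F ^ n) := by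
  induction n with
  | zero => rw [pow_zero]; exact nn_one
  | succ n ih => rw [pow_succ]; exact ih.mul hF

/-- total mass -/
noncomputable def mass (F : Ms) : ℝ := ev F fun _ => 1

lemma mass_add (F G : Ms) : mass (F + G) = mass F + mass G := ev_add _ _ _
lemma mass_sub (F G : Ms) : mass (F - G) = mass F - mass G := ev_sub _ _ _
lemma mass_neg (F : Ms) : mass (-F) = -mass F := ev_neg _ _
lemma mass_smul (c : ℝ) (F : Ms) : mass (c • F) = c * mass F := ev_smul _ _ _
@[simp] lemma mass_zero : mass (0 : Ms) = 0 := ev_zero _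
@[simp] lemma mass_one : mass (1 : Ms) = 1 := ev_one _
lemma mass_sum {ι : Type*} (s : Finset ι) (F : ι → Ms) :
    mass (∑ i ∈ s, F i) = ∑ i ∈ s, mass (F i) := ev_sum _ _ _
lemma ev_const (F : Ms) (c : ℝ) : ev F (fun _ => c) = c * mass F := by
  have := ev_fmul F c (fun _ => 1)
  simpa [mass] using this
lemma mass_mul (F G : Ms) : mass (F * G) = mass F * mass G := by
  unfold mass
  rw [ev_mul, ev_const, mul_comm]; rfl
lemma mass_pow (F : Ms) (n : ℕ) : mass (F ^ n) = mass F ^ n := by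
  induction n with
  | zero => simp
  | succ n ih => rw [pow_succ, mass_mul, ih, pow_succ]
lemma Nn.mass_nonneg {F : Ms} (hF : Nn F) : 0 ≤ mass F := hF.ev_nonneg fun _ => zero_le_one

/-- probability measures -/
structure Prob (F : Ms) : Prop where
  nn : Nn F
  one : mass F = 1

lemma prob_one : Prob (1 : Ms) := ⟨nn_one, mass_one⟩
lemma Prob.mul {F G : Ms} (hF : Prob F) (hG : Prob G) : Prob (F * G) :=
  ⟨hF.nn.mul hG.nn, by rw [mass_mul, hF.one, hG.one, mul_one]⟩
lemma Prob.pow {F : Ms} (hF : Prob F) (n : ℕ) : Prob (F ^ n) :=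
  ⟨hF.nn.pow n, by rw [mass_pow, hF.one, one_pow]⟩

lemma Nn.cs {P : Ms} (hP : Nn P) (f g : Wd → ℝ) :
    (ev P fun w => f w * g w) ^ 2 ≤ (ev P fun w => f w ^ 2) * ev P fun w => g w ^ 2 := by
  simp only [ev_eq]
  refine Finset.sum_sq_le_sum_mul_sum_of_sq_le_mul _ (fun w _ => ?_) (fun w _ => ?_) fun w _ => ?_
  · exact mul_nonneg (hP w) (sq_nonneg _)
  · exact mul_nonneg (hP w) (sq_nonneg _)
  · exact le_of_eq (by ring)

lemma Nn.abs_ev_le {P : Ms} (hP : Nn P) {f g : Wd → ℝ} (h : ∀ w, |f w| ≤ g w) :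
    |ev P f| ≤ ev P g := by
  rw [abs_le]
  constructor
  · have h1 : ev P (fun w => (-1) * g w) ≤ ev P f :=
      hP.ev_mono fun w => by have := (abs_le.1 (h w)).1; linarith
    rw [ev_fmul] at h1; linarith
  · exact hP.ev_mono fun w => (abs_le.1 (h w)).2

/-- the measure with density `f` against `P` -/
noncomputable def wt (f : Wd → ℝ) (P : Ms) : Ms :=
  MonoidAlgebra.ofCoeff (Finsupp.onFinset P.coeff.support (fun w => f w * P.coeff w)
    fun w hw => by
      rw [Finsupp.mem_support_iff]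
      intro h; exact hw (by simp [h]))

@[simp] lemma coeff_wt (f : Wd → ℝ) (P : Ms) (w : Wd) : (wt f P).coeff w = f w * P.coeff w := rfl

lemma ev_wt (f : Wd → ℝ) (P : Ms) (g : Wd → ℝ) : ev (wt f P) g = ev P fun w => f w * g w := by
  rw [ev_eq_of_subset (wt f P) g P.coeff.support, ev_eq]
  · exact Finset.sum_congr rfl fun w _ => by rw [coeff_wt]; ring
  · intro w hw
    rw [Finsupp.mem_support_iff] at hw ⊢
    intro h; exact hw (by rw [coeff_wt, h, mul_zero])

end Vale.Agent.P321
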