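import Vale.Agent.P321.Dom

/-!
First-order term of a periodic array of weak cores.
-/

namespace Vale.Agent.P321

open Finset

lemma le_sqr {a b : ℝ} (hb : 0 ≤ b) (h : a ^ 2 ≤ b ^ 2) : a ≤ b :=
  (abs_le_of_sq_le_sq' h hb).2

lemma chi_pos {ι : Type*} {P E : Ms} {k : ℕ} {ε β : ℝ} (hP : Prob P) (hE : mass E = 0)
    (h : Chi (P ^ k) E ε) (hk : 0 < k) (I : Finset ι) (τ : ι → ℕ) (w : ι → ℝ) (S : ℕ)
    (hτ : ∀ x ∈ I, τ x ≤ S) (hw : ∀ x ∈ I, 0 ≤ w x)
    (hβ : ∀ t, ∑ x ∈ I with τ x = t, w x ≤ β) :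
    Chi (P ^ (S + k)) (∑ x ∈ I, w x • (P ^ τ x * E * P ^ (S - τ x)))
      (k * ε * (β * ∑ x ∈ I, w x)) := by
  have hm : ∀ x ∈ I, τ x ∈ range (S + 1) := fun x hx =>
    Finset.mem_range.2 (Nat.lt_succ_of_le (hτ x hx))
  have h1 := bes_band hP hE h hk S fun t => ∑ x ∈ I with τ x = t, w x
  rw [← Finset.sum_fiberwise_of_maps_to hm, ← Finset.sum_fiberwise_of_maps_to hm w]
  have e : ∀ t ∈ range (S + 1), ∑ x ∈ I with τ x = t, w x • (P ^ τ x * E * P ^ (S - τ x)) =
      (∑ x ∈ I with τ x = t, w x) • (P ^ t * E * P ^ (S - t)) := by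
    intro t _
    rw [Finset.sum_smul]
    exact Finset.sum_congr rfl fun x hx => by rw [(Finset.mem_filter.1 hx).2]
  rw [Finset.sum_congr rfl e]
  refine h1.mono (mul_le_mul_of_nonneg_left ?_ (mul_nonneg (Nat.cast_nonneg _) h.nonneg))
  rw [Finset.mul_sum]
  refine Finset.sum_le_sum fun t _ => ?_
  rw [sq]
  exact mul_le_mul_of_nonneg_right (hβ t)
    (Finset.sum_nonneg fun x hx => hw x (Finset.mem_filter.1 hx).1)

/-- `n` single placements of `E` at spacing `N`, starting at `a`, in a run of `T` copies of `P` -/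
noncomputable def pl (P E : Ms) (N T a n : ℕ) : Ms :=
  ∑ i ∈ range n, P ^ (a + i * N) * E * P ^ (T - (a + i * N))

lemma pl_mass {P E : Ms} (hE : mass E = 0) (N T a n : ℕ) : mass (pl P E N T a n) = 0 := by
  rw [pl, mass_sum]
  exact Finset.sum_eq_zero fun _ _ => by simp [mass_mul, hE]

lemma pl_mul_right (P E : Ms) {N T a n : ℕ} (h : a + n * N ≤ T + N) (d : ℕ) :
    pl P E N T a n * P ^ d = pl P E N (T + d) a n := by
  rw [pl, pl, Finset.sum_mul]
  refine Finset.sum_congr rfl fun i hi => ?_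
  rw [Finset.mem_range] at hi
  have : (i + 1) * N ≤ n * N := Nat.mul_le_mul_right _ hi
  rw [add_mul] at this
  rw [mul_assoc, ← pow_add, show T - (a + i * N) + d = T + d - (a + i * N) by omega]

lemma pl_mul_left (P E : Ms) (N T a n c : ℕ) :
    P ^ c * pl P E N T a n = pl P E N (T + c) (a + c) n := by
  rw [pl, pl, Finset.mul_sum]
  refine Finset.sum_congr rfl fun i _ => ?_
  rw [← mul_assoc, ← mul_assoc, ← pow_add, show c + (a + i * N) = a + c + i * N by omega,
    show T + c - (a + c + i * N) = T - (a + i * N) by omega]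

lemma pl_add (P E : Ms) (N T a n m : ℕ) :
    pl P E N T a (n + m) = pl P E N T a n + pl P E N T (a + n * N) m := by
  rw [pl, pl, pl, Finset.sum_range_add]
  congr 1
  refine Finset.sum_congr rfl fun i _ => ?_
  rw [add_mul, add_assoc]

lemma chi_avg_pl {P E : Ms} {k N : ℕ} {ε : ℝ} (hP : Prob P) (hE : mass E = 0)
    (h : Chi (P ^ k) E ε) (hk : 0 < k) (hN : 0 < N) (g J : ℕ) :
    Chi (P ^ (g * N + J + k)) ((A2 P ^ J) (pl P E N (g * N) 0 (g + 1)))
      (k * ε * ((1 / N + 2 / √(J + 1)) * (g + 1))) := by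
  have h1 := chi_pos (β := 1 / N + 2 / √(J + 1)) hP hE h hk (range (J + 1) ×ˢ range (g + 1))
    (fun x => x.1 + x.2 * N) (fun x => rho J x.1) (g * N + J) (fun x hx => by
      rw [Finset.mem_product, Finset.mem_range, Finset.mem_range] at hx
      have : x.2 * N ≤ g * N := Nat.mul_le_mul_right _ (by omega)
      omega) (fun x _ => rho_nonneg _ _) (fun t => by
      have hinj : Set.InjOn (fun x : ℕ × ℕ => x.1)
          ((range (J + 1) ×ˢ range (g + 1)).filter fun x => x.1 + x.2 * N = t) := by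
        rintro ⟨u, i⟩ hx ⟨v, j⟩ hy e
        simp only [Finset.coe_filter, Set.mem_ofPred_eq] at hx hy e
        subst e
        have : i * N = j * N := by omega
        rw [Nat.eq_of_mul_eq_mul_right hN this]
      rw [← Finset.sum_image (f := rho J) hinj]
      refine rho_sep_sum J N hN _ fun a ha b hb hab => ?_
      obtain ⟨⟨u, i⟩, hx, rfl⟩ := Finset.mem_image.1 ha
      obtain ⟨⟨v, j⟩, hy, rfl⟩ := Finset.mem_image.1 hb
      have hx := (Finset.mem_filter.1 hx).2
      have hy := (Finset.mem_filter.1 hy).2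
      simp only at hx hy hab ⊢
      have : j < i := by
        by_contra hc
        have : i * N ≤ j * N := Nat.mul_le_mul_right _ (by omega)
        omega
      have : (j + 1) * N ≤ i * N := Nat.mul_le_mul_right _ this
      rw [add_mul] at this
      omega)
  rw [Finset.sum_product, Finset.sum_product] at h1
  simp only [Finset.sum_const, Finset.card_range, nsmul_eq_mul] at h1
  rw [← Finset.mul_sum, rho_sum, mul_one] at h1
  push_cast at h1
  convert h1 using 1
  rw [A2_pow_apply]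
  refine Finset.sum_congr rfl fun u hu => ?_
  rw [pl, Finset.mul_sum, Finset.sum_mul, Finset.smul_sum]
  refine Finset.sum_congr rfl fun i hi => ?_
  rw [Finset.mem_range] at hu hi
  have : i * N ≤ g * N := Nat.mul_le_mul_right _ (by omega)
  rw [zero_add, ← mul_assoc, ← mul_assoc, ← pow_add, mul_assoc _ (P ^ _) (P ^ _), ← pow_add,
    show g * N - i * N + (J - u) = g * N + J - (u + i * N) by omega]

lemma le_of_decomp {W T R A : Op} {μ : ℝ} (e : W = T * A + R) (hR : Mk R μ) {F : Ms}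
    (hF : Nn F) : Le (T (A F)) (W F) := by
  rw [e]; exact le_add_right (hR.pos F hF)

lemma le_of_decomp' {W T R A : Op} {μ ν : ℝ} (e : W = T * A + R) (hT : Mk T μ) (hA : Mk A ν)
    {F : Ms} (hF : Nn F) : Le (R F) (W F) := by
  rw [e]; exact le_add_left (hT.pos _ (hA.pos F hF))

lemma chi_mid {P E : Ms} {k N ν : ℕ} {ε : ℝ} (hP : Prob P) (hS : Sm P ν) (hE : mass E = 0)
    (h : Chi (P ^ k) E ε) (hk : 0 < k) (hN : 0 < N) {g J a b : ℕ} (ha : ν * J ≤ a)
    (hb : ν * J ≤ b) :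
    Chi (P ^ (a + g * N + b + k)) (pl P E N (a + g * N + b) a (g + 1))
      (k * ε * (g + 1) * (2 / N + 10 / √(J + 1))) := by
  obtain ⟨T, R, μ, e, hT, hR, hμ⟩ := hS.two hP ha hb
  set H := pl P E N (g * N) 0 (g + 1)
  have e1 : pl P E N (a + g * N + b) a (g + 1) = (Lm (P ^ a) * Rm (P ^ b)) H := by
    rw [Module.End.mul_apply, Lm_apply, Rm_apply, pl_mul_right _ _ (by rw [add_mul]; omega),
      pl_mul_left, zero_add]
    congr 1; omega
  have e2 : P ^ (a + g * N + b + k) = (Lm (P ^ a) * Rm (P ^ b)) (P ^ (g * N + k)) := by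
    rw [Module.End.mul_apply, Lm_apply, Rm_apply, ← pow_add, ← pow_add]
    congr 1; omega
  have h1 := hT.chi (chi_avg_pl hP hE h hk hN g J)
  rw [show g * N + J + k = g * N + k + J by omega, ← A2_pow_pow] at h1
  have h1' := h1.ref1 (le_of_decomp e hR (hP.nn.pow _))
  have h2 := hR.chi (chi_avg_pl hP hE h hk hN g 0)
  rw [pow_zero, add_zero] at h2
  have h2' := h2.ref1 (le_of_decomp' e hT ((mk_A2 hP).pow J) (hP.nn.pow _))
  rw [e1, e2]
  have h3 := h1'.add h2'
  have e3 : (Lm (P ^ a) * Rm (P ^ b)) H = T ((A2 P ^ J) H) + R ((1 : Op) H) := by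
    rw [e]; rfl
  rw [e3]
  refine h3.mono ?_
  have hε := h.nonneg
  have hμ0 := hR.nonneg
  have h4 := hμ.trans (half_pow_le J)
  have hN1 : (1 : ℝ) / N ≤ 1 := by
    rw [div_le_one (by exact_mod_cast hN)]; exact_mod_cast hN
  have hN0 : (0 : ℝ) ≤ 1 / N := by positivity
  have hc : (0 : ℝ) ≤ k * ε * (g + 1) := by positivity
  have hs : (0 : ℝ) ≤ 1 / √(J + 1) := by positivity
  simp only [Nat.cast_zero, zero_add, Real.sqrt_one, div_one]
  have e4 : (2 : ℝ) / √(J + 1) = 2 * (1 / √(J + 1)) := by ring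
  have e5 : (10 : ℝ) / √(J + 1) = 10 * (1 / √(J + 1)) := by ring
  have e6 : (2 : ℝ) / N = 2 * (1 / N) := by ring
  rw [e4, e5, e6]
  set x := 1 / √((J : ℝ) + 1)
  set y := (1 : ℝ) / N
  set c := k * ε * (g + 1)
  have f1 : (1 - μ) * (k * ε * ((y + 2 * x) * (g + 1))) = (1 - μ) * (y + 2 * x) * c := by
    simp only [c]; ring
  have f2 : μ * (k * ε * ((y + 2) * (g + 1))) = μ * (y + 2) * c := by simp only [c]; ring
  rw [f1, f2]
  have f3 : (1 - μ) * (y + 2 * x) ≤ y + 2 * x := by nlinarith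
  have f4 : μ * (y + 2) ≤ 3 * x := by nlinarith
  nlinarith

lemma chi_mid' {P E : Ms} {k N ν : ℕ} {ε : ℝ} (hP : Prob P) (hS : Sm P ν) (hν : 0 < ν)
    (hE : mass E = 0) (h : Chi (P ^ k) E ε) (hk : 0 < k) (hN : 0 < N) {n m a T : ℕ}
    (hn : n ≤ 200 * N * ν) (hm : m ≤ n) (ha : n * N ≤ 64 * a)
    (hb : 64 * (a + m * N) + n * N ≤ 64 * (T + N)) :
    Chi (P ^ (T + k)) (pl P E N T a m) (110 * k * ε * √(ν / N) * √n) := by
  have hε := h.nonneg
  rcases Nat.eq_zero_or_pos m with rfl | hm0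
  · exact (by simpa [pl] using chi_zero (hP.nn.pow _) : Chi _ _ 0).mono (by positivity)
  obtain ⟨g, rfl⟩ : ∃ g, m = g + 1 := ⟨m - 1, by omega⟩
  rw [add_mul g] at hb
  obtain ⟨b, rfl⟩ : ∃ b, T = a + g * N + b := ⟨T - (a + g * N), by omega⟩
  set J := n * N / (64 * ν) with hJ
  have hJ1 : 64 * (ν * J) ≤ n * N := by
    rw [← mul_assoc]; exact Nat.mul_div_le _ _
  have hJ2 : n * N < 64 * ν * (J + 1) := Nat.lt_mul_div_succ _ (by omega)
  refine (chi_mid hP hS hE h hk hN (J := J) (by omega) (by omega)).mono ?_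
  have hN' : (0 : ℝ) < N := by exact_mod_cast hN
  have hν' : (0 : ℝ) < ν := by exact_mod_cast hν
  have hn' : (g : ℝ) + 1 ≤ n := by exact_mod_cast hm
  have hn0 : (0 : ℝ) < n := by have : (0 : ℝ) ≤ g := Nat.cast_nonneg _; linarith
  have hJ' : (0 : ℝ) < J + 1 := by positivity
  set s := √((ν : ℝ) / N) with hs
  set t := √(n : ℝ) with ht
  have hs0 : 0 < s := Real.sqrt_pos.2 (by positivity)
  have ht0 : 0 < t := Real.sqrt_pos.2 hn0
  have hs2 : s ^ 2 * N = ν := by rw [hs, Real.sq_sqrt (by positivity)]; field_simp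
  have ht2 : t ^ 2 = n := Real.sq_sqrt hn0.le
  have b1 : t / N ≤ 15 * s := by
    rw [div_le_iff₀ hN']
    refine le_sqr (by positivity) ?_
    have : (n : ℝ) ≤ 200 * N * ν := by exact_mod_cast hn
    nlinarith
  have b2 : t / √(J + 1) ≤ 8 * s := by
    rw [div_le_iff₀ (Real.sqrt_pos.2 hJ')]
    refine le_sqr (by positivity) ?_
    rw [mul_pow, Real.sq_sqrt hJ'.le, ht2]
    have h1 : (n : ℝ) * N ≤ 64 * ν * (J + 1) := by exact_mod_cast hJ2.le
    rw [← hs2] at h1
    have : n * (N : ℝ) ≤ (8 * s) ^ 2 * (J + 1) * N := by nlinarith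
    exact le_of_mul_le_mul_right this hN'
  have hc : (0 : ℝ) ≤ k * ε := by positivity
  have h5 : (0 : ℝ) ≤ 2 / N + 10 / √(J + 1) := by positivity
  calc k * ε * (g + 1) * (2 / N + 10 / √(J + 1))
      ≤ k * ε * t ^ 2 * (2 / N + 10 / √(J + 1)) := by rw [ht2]; gcongr
    _ = k * ε * t * (2 * (t / N) + 10 * (t / √(J + 1))) := by ring
    _ ≤ k * ε * t * (2 * (15 * s) + 10 * (8 * s)) := by gcongr
    _ = 110 * k * ε * s * t := by ring

end Vale.Agent.P321
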