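import Vale.Agent.P321.Seg

/-!
The number of periods of a periodic array of weak cores cannot be tracked.
-/

namespace Vale.Agent.P321

open Finset

lemma l1_pow_sub {P : Ms} {ν N G r D u v : ℕ} (hP : Prob P) (hS : Sm P ν) (hν : 0 < ν)
    (hr : 0 < r) (H1 : 100 * N * ν ≤ G * r ^ 2) (hD : (D + 1) * r ≤ N) (hu : G * N ≤ 4 * u)
    (hv : G * N ≤ 4 * v) (h1 : u ≤ v + D) (h2 : v ≤ u + D) : L1 (P ^ u - P ^ v) (2 / 5) := by
  set J := G * N / (4 * ν) with hJ
  have hJ1 : 4 * (ν * J) ≤ G * N := by rw [← mul_assoc]; exact Nat.mul_div_le _ _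
  have hJ2 : G * N < 4 * ν * (J + 1) := Nat.lt_mul_div_succ _ (by omega)
  have key : ∀ d ≤ D, (2 * d + 2 : ℝ) / √(J + 1) ≤ 2 / 5 := by
    intro d hd
    have hJ' : (0 : ℝ) < J + 1 := by positivity
    rw [div_le_iff₀ (Real.sqrt_pos.2 hJ')]
    refine le_sqr (by positivity) ?_
    rw [mul_pow, Real.sq_sqrt hJ'.le]
    have a1 : ((d : ℝ) + 1) * r ≤ N := by
      have : (d + 1) * r ≤ N := (Nat.mul_le_mul_right _ (by omega)).trans hD
      exact_mod_cast this
    have a2 : (100 : ℝ) * N * ν ≤ G * r ^ 2 := by exact_mod_cast H1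
    have a3 : (G : ℝ) * N ≤ 4 * ν * (J + 1) := by exact_mod_cast hJ2.le
    have hν' : (0 : ℝ) < ν := by exact_mod_cast hν
    have hr' : (0 : ℝ) < r := by exact_mod_cast hr
    have a4 : (((d : ℝ) + 1) * r) ^ 2 ≤ (N : ℝ) ^ 2 := pow_le_pow_left₀ (by positivity) a1 2
    have hN0 : (0 : ℝ) ≤ N := Nat.cast_nonneg _
    have a5 : (100 : ℝ) * N ^ 2 * ν ≤ 4 * ν * (J + 1) * r ^ 2 := by
      calc (100 : ℝ) * N ^ 2 * ν = (100 * N * ν) * N := by ring
        _ ≤ (G * r ^ 2) * N := by gcongr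
        _ = (G * N) * r ^ 2 := by ring
        _ ≤ _ := by gcongr
    have a6 : (25 : ℝ) * N ^ 2 ≤ (J + 1) * r ^ 2 := by
      have : (25 * N ^ 2 : ℝ) * ν ≤ (J + 1) * r ^ 2 * ν := by linarith
      exact le_of_mul_le_mul_right this hν'
    have a7 : (25 * ((d : ℝ) + 1) ^ 2) * r ^ 2 ≤ (J + 1) * r ^ 2 := by nlinarith
    have a8 := le_of_mul_le_mul_right a7 (by positivity)
    nlinarith
  rcases le_total u v with h | h
  · obtain ⟨d, rfl⟩ := Nat.exists_eq_add_of_le h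
    have := ((hS.shift hP (J := J) (u := u) (by omega) d).mono (key d (by omega))).neg
    rwa [neg_sub] at this
  · obtain ⟨d, rfl⟩ := Nat.exists_eq_add_of_le h
    exact (hS.shift hP (J := J) (u := v) (by omega) d).mono (key d (by omega))

lemma ovl_chain {P C : Ms} {K g h D : ℕ} (hP : Prob P) (hC : Prob C)
    (hst : ∀ a b a' b' : ℕ, h ≤ a → h ≤ b → h ≤ a' → h ≤ b' → a + b ≤ a' + b' + D →
      a' + b' ≤ a + b + D → L1 (seg P C K a g b - seg P C K a' g b') 1)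
    (α β : ℕ → ℕ) (hα : ∀ i, h ≤ α i ∧ α i + h ≤ 2 * K) (hβ : ∀ i, h ≤ β i ∧ β i + h ≤ 2 * K)
    (h1 : ∀ i, α (i + 1) + β i ≤ β (i + 1) + α i + D)
    (h2 : ∀ i, β (i + 1) + α i ≤ α (i + 1) + β i + D) (j : ℕ) :
    Ovl (seg P C K (2 * K - α 0) (j * (g + 1) + g) (α (j + 1)))
      (seg P C K (2 * K - β 0) (j * (g + 1) + g) (β (j + 1))) ((1 / 2) ^ (j + 1)) := by
  have st : ∀ i, Ovl (seg P C K (2 * K - α i) g (α (i + 1)))
      (seg P C K (2 * K - β i) g (β (i + 1))) (1 / 2) := by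
    intro i
    have := hα i; have := hβ i; have := hα (i + 1); have := hβ (i + 1)
    have := h1 i; have := h2 i
    exact ovl_of_l1 (seg_prob hP hC _ _ _ _) (seg_prob hP hC _ _ _ _)
      (hst _ _ _ _ (by omega) (by omega) (by omega) (by omega) (by omega) (by omega))
  induction j with
  | zero => simpa using st 0
  | succ j ih =>
    have := ih.mul (st (j + 1)) (by positivity) (by norm_num)
    have e1 := hα (j + 1)
    have e2 := hβ (j + 1)
    rw [seg_mul P C (by omega), seg_mul P C (by omega), ← pow_succ,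
      show j * (g + 1) + g + g + 1 = (j + 1) * (g + 1) + g by ring] at this
    exact this

lemma min_step (x s d : ℕ) : min x d ≤ min (x + s) d ∧ min (x + s) d ≤ min x d + s ∧
    min x d ≤ d := by
  omega

theorem nontrack {P C : Ms} {k K N ν R r : ℕ} {ε : ℝ} (hP : Prob P) (hC : Prob C) (hS : Sm P ν)
    (hν : 0 < ν) (hk : 0 < k) (hE : Chi (P ^ k) (C - P ^ k) ε) (hN : N = 2 * K + k)
    (hk2 : 2 ∣ k) (hK : 2 * k + 8 ≤ K) (hR : 1 ≤ R) (hr : 1 ≤ r) (hrN : 10 * r ≤ N)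
    (H1 : 100 * N * ν ≤ 2 ^ R * r ^ 2) (H2 : 2 ^ R ≤ 200 * N * ν)
    (H3 : 2 ^ 35 * (k : ℝ) ^ 2 * ε ^ 2 * ν * 2 ^ R * R ≤ N) :
    Ovl ((P ^ K * C * P ^ K) ^ (2 * r * 2 ^ R + 1)) ((P ^ K * C * P ^ K) ^ (2 * r * 2 ^ R + 1 + 1))
      ((1 / 2) ^ (2 * r + 1)) := by
  have hN0 : 0 < N := by omega
  have hε := hE.nonneg
  have hmE : mass (C - P ^ k) = 0 := by rw [mass_sub, hC.one, (hP.pow k).one, sub_self]
  obtain ⟨h, hh1, hh2⟩ : ∃ h, N ≤ 8 * h ∧ 8 * h ≤ N + 7 := ⟨(N + 7) / 8, by omega, by omega⟩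
  have hhK : h ≤ K := by omega
  have ha := fun n (hn : n ≤ 2 ^ R) => chi_pl (G := 2 ^ R) (α := 110 * k * ε * √(ν / N)) hP hmE
    (by positivity) hN hh1 hhK (fun n m a T h1 h2 h3 h4 =>
      chi_mid' hP hS hν hmE hE hk hN0 (h1.trans H2) h2 h3 h4) n hn
  have hRR : (50 * (110 * k * ε * √(ν / N))) ^ 2 * 2 ^ R * R ≤ 1 / 1024 := by
    have hN' : (0 : ℝ) < N := by exact_mod_cast hN0
    have e : (50 * (110 * k * ε * √(ν / N))) ^ 2 * 2 ^ R * R =
        5500 ^ 2 * (k ^ 2 * ε ^ 2 * ν * 2 ^ R * R) / N := by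
      rw [mul_pow, mul_pow, Real.sq_sqrt (by positivity)]; ring
    rw [e, div_le_iff₀ hN']
    have : 0 ≤ (k : ℝ) ^ 2 * ε ^ 2 * ν * 2 ^ R * R := by positivity
    nlinarith
  have hl := fun (g a b : ℕ) (hg : g < 2 ^ R) (h1 : h ≤ a) (h2 : h ≤ b) =>
    l1_seg hP hC hN hhK hR ha hRR hg h1 h2
  obtain ⟨g, hg⟩ : ∃ g, 2 ^ R = g + 1 := ⟨2 ^ R - 1, by have := Nat.one_le_two_pow (n := R); omega⟩
  have hg1 : 1 ≤ g := by
    have : 2 ^ 1 ≤ 2 ^ R := Nat.pow_le_pow_right (by norm_num) hR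
    omega
  obtain ⟨j, rfl⟩ : ∃ j, r = j + 1 := ⟨r - 1, by omega⟩
  obtain ⟨δ, δ', hδ, hδ1, hδ2⟩ : ∃ δ δ', 2 * δ + 2 * δ' = N ∧ 4 * δ ≤ N + 4 ∧ 4 * δ' ≤ N + 4 :=
    ⟨N / 4, N / 2 - N / 4, by omega, by omega, by omega⟩
  set s := (N / 4 + 1) / (j + 1) + 1 with hs
  have hs1 : N / 4 + 1 < (j + 1) * s := Nat.lt_mul_div_succ _ (by omega)
  have hs2 : (2 * s + 1) * (j + 1) ≤ N := by
    have : (j + 1) * ((N / 4 + 1) / (j + 1)) ≤ N / 4 + 1 := Nat.mul_div_le _ _
    have e : (2 * s + 1) * (j + 1) = 2 * ((j + 1) * ((N / 4 + 1) / (j + 1))) + 3 * (j + 1) := by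
      rw [hs]; ring
    omega
  have hst : ∀ a b a' b' : ℕ, h ≤ a → h ≤ b → h ≤ a' → h ≤ b' → a + b ≤ a' + b' + 2 * s →
      a' + b' ≤ a + b + 2 * s → L1 (seg P C K a g b - seg P C K a' g b') 1 := by
    intro a b a' b' h1 h2 h3 h4 h5 h6
    have eG : 2 ^ R * N = g * N + N := by rw [hg]; ring
    have i1 := hl g a b (by omega) h1 h2
    have i2 := hl g a' b' (by omega) h3 h4
    have i3 := l1_pow_sub (u := a + g * N + b + k) (v := a' + g * N + b' + k) hP hS hν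
      (by omega) H1 hs2 (by omega) (by omega) (by omega) (by omega)
    have := (i1.add i3).sub i2
    norm_num at this
    convert this using 1
  have hmin : ∀ i d : ℕ, min (i * s) d ≤ min ((i + 1) * s) d ∧
      min ((i + 1) * s) d ≤ min (i * s) d + s ∧ min (i * s) d ≤ d := by
    intro i d
    rw [add_mul, one_mul]
    exact min_step _ _ _
  have up := ovl_chain hP hC hst (fun i => K - min (i * s) δ) (fun i => K + min (i * s) δ)
    (fun i => by have := hmin i δ; omega) (fun i => by have := hmin i δ; omega)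
    (fun i => by have := hmin i δ; have := hmin (i + 1) δ; omega)
    (fun i => by have := hmin i δ; have := hmin (i + 1) δ; omega) j
  have down := ovl_chain hP hC hst (fun i => K + (δ' - min (i * s) δ'))
    (fun i => K - (δ' - min (i * s) δ'))
    (fun i => by have := hmin i δ'; omega) (fun i => by have := hmin i δ'; omega)
    (fun i => by have := hmin i δ'; have := hmin (i + 1) δ'; omega)
    (fun i => by have := hmin i δ'; have := hmin (i + 1) δ'; omega) j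
  have m1 : min ((j + 1) * s) δ = δ := min_eq_right (by omega)
  have m2 : min ((j + 1) * s) δ' = δ' := min_eq_right (by omega)
  simp only [zero_mul, Nat.zero_min, m1, m2, Nat.sub_zero, add_zero, Nat.sub_self] at up down
  have sw : Ovl (seg P C K (K + δ) 0 (K + δ')) (seg P C K (K - δ) 1 (K - δ')) (1 / 2) := by
    refine ovl_of_l1 (seg_prob hP hC _ _ _ _) (seg_prob hP hC _ _ _ _) ?_
    have i1 := hl 0 (K + δ) (K + δ') (by omega) (by omega) (by omega)
    have i2 := hl 1 (K - δ) (K - δ') (by omega) (by omega) (by omega)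
    rw [show K - δ + 1 * N + (K - δ') + k = K + δ + 0 * N + (K + δ') + k by omega] at i2
    have := (i1.sub i2).mono (by norm_num : (3 / 10 + 3 / 10 : ℝ) ≤ 1)
    rwa [sub_sub_sub_cancel_right] at this
  have := (up.mul sw (by positivity) (by norm_num)).mul down (by positivity) (by positivity)
  rw [seg_mul P C (by omega), seg_mul P C (by omega), seg_mul P C (by omega),
    seg_mul P C (by omega), show 2 * K - K = K by omega] at this
  rw [seg_pow, seg_pow, hg]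
  convert this using 2
  · ring
  · ring
  · ring

end Vale.Agent.P321
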