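import Vale.Agent.P321.Chi

/-!
Total variation size, positive operators, and the zero-two-law decomposition.
-/

namespace Vale.Agent.P321

open Finset

/-- total variation norm at most `ε` -/
def L1 (F : Ms) (ε : ℝ) : Prop := ∀ g : Wd → ℝ, (∀ w, |g w| ≤ 1) → |ev F g| ≤ ε

lemma L1.nonneg {F : Ms} {ε : ℝ} (h : L1 F ε) : 0 ≤ ε :=
  (abs_nonneg _).trans (h (fun _ => 0) fun _ => by simp)
lemma L1.mono {F : Ms} {a b : ℝ} (h : L1 F a) (hab : a ≤ b) : L1 F b :=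
  fun g hg => (h g hg).trans hab
lemma l1_zero : L1 0 0 := fun g _ => by simp
lemma L1.add {F G : Ms} {a b : ℝ} (h1 : L1 F a) (h2 : L1 G b) : L1 (F + G) (a + b) :=
  fun g hg => by rw [ev_add]; exact (abs_add_le _ _).trans (add_le_add (h1 g hg) (h2 g hg))
lemma L1.smul {F : Ms} {a : ℝ} (h : L1 F a) (c : ℝ) : L1 (c • F) (|c| * a) :=
  fun g hg => by rw [ev_smul, abs_mul]; exact mul_le_mul_of_nonneg_left (h g hg) (abs_nonneg _)
lemma L1.neg {F : Ms} {a : ℝ} (h : L1 F a) : L1 (-F) a :=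
  fun g hg => by rw [ev_neg, abs_neg]; exact h g hg
lemma L1.sub {F G : Ms} {a b : ℝ} (h1 : L1 F a) (h2 : L1 G b) : L1 (F - G) (a + b) := by
  rw [sub_eq_add_neg]; exact h1.add h2.neg
lemma L1.scale {F : Ms} {a b : ℝ} (h : L1 F a) {g : Wd → ℝ} (hg : ∀ w, |g w| ≤ b) :
    |ev F g| ≤ a * b := by
  have hb : 0 ≤ b := (abs_nonneg _).trans (hg 1)
  rcases hb.eq_or_lt with hb | hb
  · have : g = fun _ => 0 := funext fun w => abs_eq_zero.1 (le_antisymm (hb ▸ hg w) (abs_nonneg _))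
    rw [this, ← hb]; simp
  · have h1 := h (fun w => b⁻¹ * g w) fun w => by
      rw [abs_mul, abs_inv, abs_of_pos hb, inv_mul_le_iff₀ hb, mul_one]; exact hg w
    rw [ev_fmul, abs_mul, abs_inv, abs_of_pos hb, inv_mul_le_iff₀ hb] at h1
    linarith
lemma L1.mul {F G : Ms} {a b : ℝ} (h1 : L1 F a) (h2 : L1 G b) : L1 (F * G) (a * b) :=
  fun g hg => by rw [ev_mul]; exact h1.scale fun w => h2 _ fun v => hg _
lemma Nn.l1 {F : Ms} (h : Nn F) : L1 F (mass F) := fun _ hg => h.abs_ev_le hg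
lemma Prob.l1 {F : Ms} (h : Prob F) : L1 F 1 := h.one ▸ h.nn.l1
lemma Ab.l1 {P F : Ms} {θ : ℝ} (h : Ab P F θ) : L1 F (θ * mass P) := fun g hg =>
  (h.abs_ev g).trans (mul_le_mul_of_nonneg_left (h.nn.ev_mono hg) h.nonneg)
lemma Chi.l1 {P F : Ms} {ε : ℝ} (h : Chi P F (ε ^ 2)) (hP : Prob P) (hε : 0 ≤ ε) : L1 F ε := by
  intro g hg
  apply abs_le_of_sq_le_sq' _ hε |> abs_le.2
  refine (h.le g).trans ?_
  have : (ev P fun w => g w ^ 2) ≤ 1 := by
    rw [← hP.one]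
    exact hP.nn.ev_mono fun w => by
      have := hg w
      rw [← sq_abs]; nlinarith [abs_nonneg (g w)]
  nlinarith [sq_nonneg ε]
lemma L1.abs_mass {F : Ms} {a : ℝ} (h : L1 F a) : |mass F| ≤ a := h _ fun _ => by simp

/-- common part of mass at least `c` -/
def Ovl (F G : Ms) (c : ℝ) : Prop := ∃ V, Nn V ∧ Le V F ∧ Le V G ∧ c ≤ mass V

lemma Ovl.mul {F G F' G' : Ms} {c c' : ℝ} (h : Ovl F G c) (h' : Ovl F' G' c') (hc : 0 ≤ c)
    (hc' : 0 ≤ c') : Ovl (F * F') (G * G') (c * c') := by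
  obtain ⟨V, hV, h1, h2, h3⟩ := h
  obtain ⟨V', hV', h1', h2', h3'⟩ := h'
  exact ⟨V * V', hV.mul hV', h1.mul h1' hV hV', h2.mul h2' hV hV', by
    rw [mass_mul]; exact mul_le_mul h3 h3' hc' (hc.trans h3)⟩

lemma ovl_of_l1 {F G : Ms} (hF : Prob F) (hG : Prob G) (h : L1 (F - G) 1) : Ovl F G (1 / 2) := by
  classical
  let s : Wd → ℝ := fun w => if F.coeff w ≤ G.coeff w then 1 else 0
  refine ⟨wt s F + wt (fun w => 1 - s w) G, fun w => ?_, le_iff.2 fun w => ?_,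
    le_iff.2 fun w => ?_, ?_⟩
  · have := hF.nn w; have := hG.nn w
    simp only [MonoidAlgebra.coeff_add, Finsupp.add_apply, coeff_wt, s]
    split_ifs <;> linarith
  · simp only [MonoidAlgebra.coeff_add, Finsupp.add_apply, coeff_wt, s]
    split_ifs <;> linarith
  · simp only [MonoidAlgebra.coeff_add, Finsupp.add_apply, coeff_wt, s]
    split_ifs <;> linarith
  · have h1 := h (fun w => 2 * s w - 1) fun w => by
      simp only [s]; split_ifs <;> norm_num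
    rw [ev_sub, ev_fsub, ev_fsub, ev_fmul, ev_fmul, ev_const, ev_const, hF.one, hG.one] at h1
    rw [mass_add, mass_wt, mass_wt, ev_fsub, ev_const, hG.one]
    have := (abs_le.1 h1).1
    linarith

abbrev Op := Module.End ℝ Ms

/-- positive operators multiplying the total mass by `μ` -/
structure Mk (Φ : Op) (μ : ℝ) : Prop where
  pos : ∀ F, Nn F → Nn (Φ F)
  mass : ∀ F, mass (Φ F) = μ * mass F

lemma Mk.nonneg {Φ : Op} {μ : ℝ} (h : Mk Φ μ) : 0 ≤ μ := by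
  have := (h.pos 1 nn_one).mass_nonneg
  rwa [h.mass, mass_one, mul_one] at this
lemma Mk.le {Φ : Op} {μ : ℝ} (h : Mk Φ μ) {F G : Ms} (hFG : Le F G) : Le (Φ F) (Φ G) := by
  have := h.pos _ hFG
  unfold Le; rwa [map_sub] at this
lemma mk_one : Mk 1 1 := ⟨fun _ h => h, fun _ => (one_mul _).symm⟩
lemma mk_zero : Mk 0 0 := ⟨fun _ _ => nn_zero, fun _ => by simp⟩
lemma Mk.mul {Φ Ψ : Op} {μ ν : ℝ} (h1 : Mk Φ μ) (h2 : Mk Ψ ν) : Mk (Φ * Ψ) (μ * ν) :=
  ⟨fun F hF => h1.pos _ (h2.pos F hF), fun F => by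
    rw [Module.End.mul_apply, h1.mass, h2.mass, mul_assoc]⟩
lemma Mk.add {Φ Ψ : Op} {μ ν : ℝ} (h1 : Mk Φ μ) (h2 : Mk Ψ ν) : Mk (Φ + Ψ) (μ + ν) :=
  ⟨fun F hF => (h1.pos F hF).add (h2.pos F hF), fun F => by
    rw [LinearMap.add_apply, mass_add, h1.mass, h2.mass, add_mul]⟩
lemma Mk.smul {Φ : Op} {μ c : ℝ} (h : Mk Φ μ) (hc : 0 ≤ c) : Mk (c • Φ) (c * μ) :=
  ⟨fun F hF => (h.pos F hF).smul hc, fun F => by
    rw [LinearMap.smul_apply, mass_smul, h.mass, mul_assoc]⟩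
lemma Mk.pow {Φ : Op} (h : Mk Φ 1) (n : ℕ) : Mk (Φ ^ n) 1 := by
  induction n with
  | zero => rw [pow_zero]; exact mk_one
  | succ n ih => rw [pow_succ]; simpa using ih.mul h

lemma mass_single (w : Wd) (c : ℝ) : mass (MonoidAlgebra.single w c) = c := by
  unfold mass; rw [ev_single, mul_one]

lemma Mk.chi {Φ : Op} {μ : ℝ} (h : Mk Φ μ) {P F : Ms} {η : ℝ} (hF : Chi P F η) :
    Chi (Φ P) (Φ F) (μ * η) := by
  refine ⟨h.pos _ hF.nn, mul_nonneg h.nonneg hF.nonneg, fun g => ?_⟩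
  rw [ev_lin Φ F, ev_lin Φ P]
  refine (hF.le _).trans ?_
  rw [mul_comm μ η, mul_assoc, ← ev_fmul P μ]
  refine mul_le_mul_of_nonneg_left (hF.nn.ev_mono fun w => ?_) hF.nonneg
  have := (h.pos _ (nn_single w zero_le_one)).cs (fun _ => 1) g
  simp only [one_mul, one_pow, ev_const] at this
  rwa [h.mass, mass_single, mul_one] at this

lemma Mk.ab {Φ : Op} {μ : ℝ} (h : Mk Φ μ) {P F : Ms} {θ : ℝ} (hF : Ab P F θ) :
    Ab (Φ P) (Φ F) θ := by
  obtain ⟨h1, h2⟩ := (ab_iff hF.nn hF.nonneg).1 hF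
  refine (ab_iff (h.pos _ hF.nn) hF.nonneg).2 ⟨?_, ?_⟩
  · have := h.le h1; rwa [map_smul] at this
  · have := h.le h2; rwa [map_smul, map_neg] at this

lemma Mk.l1 {Φ : Op} {μ : ℝ} (h : Mk Φ μ) {F : Ms} {ε : ℝ} (hF : L1 F ε) : L1 (Φ F) (μ * ε) := by
  intro g hg
  rw [ev_lin Φ F, mul_comm]
  refine hF.scale fun w => ?_
  have := (h.pos _ (nn_single w zero_le_one)).l1 g hg
  rwa [h.mass, mass_single, mul_one] at this

/-- left multiplication -/
noncomputable def Lm (A : Ms) : Op := LinearMap.mulLeft ℝ A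
/-- right multiplication -/
noncomputable def Rm (A : Ms) : Op := LinearMap.mulRight ℝ A

@[simp] lemma Lm_apply (A F : Ms) : Lm A F = A * F := rfl
@[simp] lemma Rm_apply (A F : Ms) : Rm A F = F * A := rfl
lemma mk_Lm {A : Ms} (h : Nn A) : Mk (Lm A) (mass A) :=
  ⟨fun _ hF => h.mul hF, fun _ => mass_mul _ _⟩
lemma mk_Rm {A : Ms} (h : Nn A) : Mk (Rm A) (mass A) :=
  ⟨fun _ hF => hF.mul h, fun _ => by rw [Rm_apply, mass_mul, mul_comm]⟩
lemma Prob.mkL {A : Ms} (h : Prob A) : Mk (Lm A) 1 := h.one ▸ mk_Lm h.nn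
lemma Prob.mkR {A : Ms} (h : Prob A) : Mk (Rm A) 1 := h.one ▸ mk_Rm h.nn
lemma Lm_pow (A : Ms) (n : ℕ) : Lm A ^ n = Lm (A ^ n) := by
  induction n with
  | zero => apply LinearMap.ext; intro F; simp
  | succ n ih => rw [pow_succ, ih]; apply LinearMap.ext; intro F; simp [pow_succ, mul_assoc]
lemma Rm_pow (A : Ms) (n : ℕ) : Rm A ^ n = Rm (A ^ n) := by
  induction n with
  | zero => apply LinearMap.ext; intro F; simp
  | succ n ih => rw [pow_succ, ih]; apply LinearMap.ext; intro F; simp [pow_succ', mul_assoc]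
lemma commute_LR (A B : Ms) : Commute (Lm A) (Rm B) := by
  apply LinearMap.ext; intro F; simp [mul_assoc]

lemma decomp {W A V R₁ : Op} {p : ℝ} (hc : Commute W A) (hW : W = V * A + R₁) (hA : Mk A 1)
    (hV : Mk V p) (hR : Mk R₁ (1 - p)) (I J : ℕ) :
    ∃ (T R : Op) (μ : ℝ), W ^ I = T * A ^ J + R ∧ Mk T (1 - μ) ∧ Mk R μ ∧
      μ ≤ 2 ^ J * (1 - p / 2) ^ I := by
  have hp := hV.nonneg
  have hp1 := hR.nonneg
  have hWm : Mk W 1 := by
    have := (hV.mul hA).add hR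
    rw [hW]; convert this using 1; ring
  induction I generalizing J with
  | zero =>
    cases J with
    | zero => exact ⟨1, 0, 0, by simp, by simpa using mk_one, mk_zero, by simp⟩
    | succ J =>
      exact ⟨0, 1, 1, by simp, by simpa using mk_zero, mk_one, by
        simpa using one_le_pow₀ (one_le_two (α := ℝ))⟩
  | succ I ih =>
    cases J with
    | zero =>
      exact ⟨W ^ (I + 1), 0, 0, by simp, by simpa using hWm.pow _, mk_zero, by
        have : 0 ≤ 1 - p / 2 := by linarith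
        positivity⟩
    | succ J =>
      obtain ⟨T₁, R', μ₁, e₁, hT₁, hR', b₁⟩ := ih J
      obtain ⟨T₂, R'', μ₂, e₂, hT₂, hR'', b₂⟩ := ih (J + 1)
      refine ⟨V * T₁ + R₁ * T₂, V * R' * A + R₁ * R'', p * μ₁ + (1 - p) * μ₂, ?_, ?_, ?_, ?_⟩
      · have h1 : W ^ (I + 1) = V * (W ^ I * A) + R₁ * W ^ I := by
          rw [pow_succ', (hc.pow_left I).eq]
          nth_rewrite 1 [hW]
          rw [add_mul, mul_assoc]
        rw [h1]
        nth_rewrite 2 [e₂]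
        rw [e₁, pow_succ]
        noncomm_ring
      · convert (hV.mul hT₁).add (hR.mul hT₂) using 1; ring
      · convert ((hV.mul hR').mul hA).add (hR.mul hR'') using 1; ring
      · have h1 := mul_le_mul_of_nonneg_left b₁ hp
        have h2 := mul_le_mul_of_nonneg_left b₂ hp1
        rw [pow_succ (2 : ℝ) J] at h2 ⊢
        rw [pow_succ (1 - p / 2) I]
        nlinarith

lemma tail_le {p : ℝ} {r J : ℕ} (hp : p ≤ 1) (hr : 4 ≤ r * p) :
    (2 : ℝ) ^ J * (1 - p / 2) ^ (r * J) ≤ (1 / 2) ^ J := by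
  rw [pow_mul, ← mul_pow]
  have h0 : 0 ≤ 1 - p / 2 := by linarith
  refine pow_le_pow_left₀ (by positivity) ?_ J
  have h1 : (1 - p / 2) ^ r ≤ Real.exp (-(p / 2)) ^ r :=
    pow_le_pow_left₀ h0 (by have := Real.add_one_le_exp (-(p / 2)); linarith) r
  rw [← Real.exp_nat_mul] at h1
  have h2 : Real.exp (r * -(p / 2)) ≤ Real.exp (-2) := Real.exp_le_exp.2 (by linarith)
  have h3 : Real.exp (-2) ≤ 1 / 4 := by
    rw [Real.exp_neg, inv_le_comm₀ (Real.exp_pos _) (by norm_num)]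
    have := Real.add_one_le_exp (1 : ℝ)
    have e : Real.exp 2 = Real.exp 1 * Real.exp 1 := by rw [← Real.exp_add]; norm_num
    nlinarith
  linarith

/-- `ν` copies of `P` buy one hidden fair coin -/
def Sm (P : Ms) (ν : ℕ) : Prop :=
  ∃ (κ r : ℕ) (V : Ms), Nn V ∧ Le V (P ^ κ) ∧ Le V (P ^ (κ + 1)) ∧ 4 ≤ r * mass V ^ 2 ∧
    (κ + 1) * r ≤ ν

lemma Sm.mono {P : Ms} {ν ν' : ℕ} (h : Sm P ν) (hν : ν ≤ ν') : Sm P ν' := by
  obtain ⟨κ, r, V, h1, h2, h3, h4, h5⟩ := h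
  exact ⟨κ, r, V, h1, h2, h3, h4, h5.trans hν⟩

lemma sm_of_ovl {P : Ms} {κ r : ℕ} {c : ℝ} (h : Ovl (P ^ κ) (P ^ (κ + 1)) c) (hc : 0 ≤ c)
    (hr : 4 ≤ r * c ^ 2) : Sm P ((κ + 1) * r) := by
  obtain ⟨V, h1, h2, h3, h4⟩ := h
  refine ⟨κ, r, V, h1, h2, h3, hr.trans ?_, le_rfl⟩
  exact mul_le_mul_of_nonneg_left (pow_le_pow_left₀ hc h4 2) (Nat.cast_nonneg _)

/-- two-sided averaging operator -/
noncomputable def A2 (P : Ms) : Op := (1 / 2 : ℝ) • (Lm P + Rm P)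
/-- one-sided averaging operator -/
noncomputable def A1 (P : Ms) : Op := (1 / 2 : ℝ) • (Lm P + 1)

lemma mk_A2 {P : Ms} (hP : Prob P) : Mk (A2 P) 1 := by
  have := (hP.mkL.add hP.mkR).smul (by norm_num : (0 : ℝ) ≤ 1 / 2)
  rwa [show (1 / 2 : ℝ) * (1 + 1) = 1 by norm_num] at this
lemma mk_A1 {P : Ms} (hP : Prob P) : Mk (A1 P) 1 := by
  have := (hP.mkL.add mk_one).smul (by norm_num : (0 : ℝ) ≤ 1 / 2)
  rwa [show (1 / 2 : ℝ) * (1 + 1) = 1 by norm_num] at this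

lemma Sm.two {P : Ms} {ν : ℕ} (h : Sm P ν) (hP : Prob P) {J u v : ℕ} (hu : ν * J ≤ u)
    (hv : ν * J ≤ v) : ∃ (T R : Op) (μ : ℝ), Lm (P ^ u) * Rm (P ^ v) = T * A2 P ^ J + R ∧
      Mk T (1 - μ) ∧ Mk R μ ∧ μ ≤ (1 / 2) ^ J := by
  obtain ⟨κ, r, V, hV, h1, h2, h4, h5⟩ := h
  have hm : mass V ≤ 1 := by simpa [mass_pow, hP.one] using h1.mass_le
  have hm0 := hV.mass_nonneg
  set Z := P ^ (κ + 1) with hZ
  have hZp : Prob Z := hP.pow _
  have a1 : Nn (Z - V * P) := by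
    have := h1.mul_right hP.nn
    rwa [← pow_succ] at this
  have a2 : Nn (Z - P * V) := by
    have := h1.mul_left hP.nn
    rwa [← pow_succ'] at this
  have a3 : Nn (Z - V) := h2
  let R₁ : Op := (1 / 2 : ℝ) • ((Lm (Z - V * P) * Rm Z + Lm (V * P) * Rm (Z - V)) +
    (Lm Z * Rm (Z - P * V) + Lm (Z - V) * Rm (P * V)))
  have hR₁ : Mk R₁ (1 - mass V ^ 2) := by
    have := ((((mk_Lm a1).mul hZp.mkR).add ((mk_Lm (hV.mul hP.nn)).mul (mk_Rm a3))).add
      ((hZp.mkL.mul (mk_Rm a2)).add ((mk_Lm a3).mul (mk_Rm (hP.nn.mul hV))))).smul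
      (by norm_num : (0 : ℝ) ≤ 1 / 2)
    convert this using 1
    simp only [mass_sub, mass_mul, hP.one, hZp.one]; ring
  have hVV : Mk (Lm V * Rm V) (mass V ^ 2) := by
    rw [sq]; exact (mk_Lm hV).mul (mk_Rm hV)
  have hW : Lm Z * Rm Z = (Lm V * Rm V) * A2 P + R₁ := by
    apply LinearMap.ext; intro F
    simp only [R₁, A2, Module.End.mul_apply, LinearMap.add_apply, LinearMap.smul_apply, Lm_apply,
      Rm_apply, mul_smul_comm, ← smul_add]
    rw [show Z * (F * Z) = (1 / 2 : ℝ) • (Z * (F * Z) + Z * (F * Z)) by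
      rw [← two_smul ℝ, smul_smul]; norm_num]
    congr 1
    noncomm_ring
  have hc : Commute (Lm Z * Rm Z) (A2 P) := by
    rw [hZ, ← Lm_pow, ← Rm_pow]
    refine Commute.smul_right (Commute.add_right ?_ ?_) _
    · exact Commute.mul_left ((Commute.refl _).pow_left _) ((commute_LR P P).symm.pow_left _)
    · exact Commute.mul_left ((commute_LR P P).pow_left _) ((Commute.refl _).pow_left _)
  obtain ⟨T, R, μ, e, hT, hR, b⟩ := decomp hc hW (mk_A2 hP) hVV hR₁ (r * J) J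
  have hu' : (κ + 1) * (r * J) ≤ u := by nlinarith
  have hv' : (κ + 1) * (r * J) ≤ v := by nlinarith
  obtain ⟨u', rfl⟩ := Nat.exists_eq_add_of_le' hu'
  obtain ⟨v', rfl⟩ := Nat.exists_eq_add_of_le hv'
  have hO : Mk (Lm (P ^ u') * Rm (P ^ v')) 1 := by
    simpa using (hP.pow u').mkL.mul (hP.pow v').mkR
  refine ⟨Lm (P ^ u') * Rm (P ^ v') * T, Lm (P ^ u') * Rm (P ^ v') * R, μ, ?_,
    by simpa using hO.mul hT, by simpa using hO.mul hR,
    b.trans (tail_le (by nlinarith) h4)⟩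
  rw [mul_assoc _ T, ← mul_add, ← e, (commute_LR Z Z).mul_pow, Lm_pow, Rm_pow, hZ, ← pow_mul]
  apply LinearMap.ext; intro F
  simp only [Module.End.mul_apply, Lm_apply, Rm_apply, pow_add, mul_assoc]

lemma Sm.one {P : Ms} {ν : ℕ} (h : Sm P ν) (hP : Prob P) {J u : ℕ} (hu : ν * J ≤ u) :
    ∃ (T R : Op) (μ : ℝ), Lm (P ^ u) = T * A1 P ^ J + R ∧
      Mk T (1 - μ) ∧ Mk R μ ∧ μ ≤ (1 / 2) ^ J := by
  obtain ⟨κ, r, V, hV, h1, h2, h4, h5⟩ := h
  have hm : mass V ≤ 1 := by simpa [mass_pow, hP.one] using h1.mass_le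
  have hm0 := hV.mass_nonneg
  set Z := P ^ (κ + 1) with hZ
  have hZp : Prob Z := hP.pow _
  have a1 : Nn (Z - V * P) := by
    have := h1.mul_right hP.nn
    rwa [← pow_succ] at this
  have a3 : Nn (Z - V) := h2
  let R₁ : Op := (1 / 2 : ℝ) • (Lm (Z - V * P) + Lm (Z - V))
  have hR₁ : Mk R₁ (1 - mass V) := by
    have := ((mk_Lm a1).add (mk_Lm a3)).smul (by norm_num : (0 : ℝ) ≤ 1 / 2)
    convert this using 1
    simp only [mass_sub, mass_mul, hP.one, hZp.one]; ring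
  have hW : Lm Z = Lm V * A1 P + R₁ := by
    apply LinearMap.ext; intro F
    simp only [R₁, A1, Module.End.mul_apply, LinearMap.add_apply, LinearMap.smul_apply, Lm_apply,
      mul_smul_comm, ← smul_add, Module.End.one_apply]
    rw [show Z * F = (1 / 2 : ℝ) • (Z * F + Z * F) by
      rw [← two_smul ℝ, smul_smul]; norm_num]
    congr 1
    noncomm_ring
  have hc : Commute (Lm Z) (A1 P) := by
    rw [hZ, ← Lm_pow]
    exact Commute.smul_right (Commute.add_right ((Commute.refl _).pow_left _)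
      (Commute.one_right _)) _
  obtain ⟨T, R, μ, e, hT, hR, b⟩ := decomp hc hW (mk_A1 hP) (mk_Lm hV) hR₁ (r * J) J
  have hu' : (κ + 1) * (r * J) ≤ u := by nlinarith
  obtain ⟨u', rfl⟩ := Nat.exists_eq_add_of_le' hu'
  have hO : Mk (Lm (P ^ u')) 1 := (hP.pow u').mkL
  refine ⟨Lm (P ^ u') * T, Lm (P ^ u') * R, μ, ?_,
    by simpa using hO.mul hT, by simpa using hO.mul hR,
    b.trans (tail_le hm (h4.trans ?_))⟩
  · rw [mul_assoc _ T, ← mul_add, ← e, Lm_pow, hZ, ← pow_mul]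
    apply LinearMap.ext; intro F
    simp only [Module.End.mul_apply, Lm_apply, pow_add, mul_assoc]
  · exact mul_le_mul_of_nonneg_left (by nlinarith) (Nat.cast_nonneg _)

end Vale.Agent.P321
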