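import Vale.Agent.P321.NonTrack

/-!
Products of two nearby measures along a binary pattern.
-/

namespace Vale.Agent.P321

open Finset

lemma one_add_pow_le {x : ℝ} (hx : 0 ≤ x) {n : ℕ} (h : n * x ≤ 1 / 2) :
    (1 + x) ^ n ≤ 1 + 2 * n * x := by
  induction n with
  | zero => simp
  | succ n ih =>
    push_cast at h ⊢
    have h1 := ih (by nlinarith)
    have h2 : (0 : ℝ) ≤ n := Nat.cast_nonneg _
    rw [pow_succ]
    have := mul_le_mul_of_nonneg_right h1 (by linarith : 0 ≤ 1 + x)
    nlinarith

lemma one_add_pow_le' {x : ℝ} (hx : 0 ≤ x) {n k : ℕ} (hk : n ≤ k) (h : k * x ≤ 1 / 2) :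
    (1 + x) ^ n ≤ 1 + 2 * k * x :=
  (pow_le_pow_right₀ (by linarith) hk).trans (one_add_pow_le hx h)

/-- product along a pattern -/
noncomputable def pz (X Y : Ms) (l : List Bool) : Ms := (l.map fun b => bif b then X else Y).prod

@[simp] lemma pz_nil (X Y : Ms) : pz X Y [] = 1 := rfl
lemma pz_cons (X Y : Ms) (b : Bool) (l : List Bool) :
    pz X Y (b :: l) = (bif b then X else Y) * pz X Y l := rfl
lemma pz_append (X Y : Ms) (l l' : List Bool) : pz X Y (l ++ l') = pz X Y l * pz X Y l' := by
  simp [pz]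

lemma pz_prob {X Y : Ms} (hX : Prob X) (hY : Prob Y) (l : List Bool) : Prob (pz X Y l) := by
  induction l with
  | nil => exact prob_one
  | cons b l ih => rw [pz_cons]; cases b <;> [exact hY.mul ih; exact hX.mul ih]

/-- first-order part -/
noncomputable def r1 (X Y : Ms) : List Bool → Ms
  | [] => 0
  | b :: l => (bif b then X - Y else 0) * Y ^ l.length + Y * r1 X Y l

/-- higher-order part -/
noncomputable def rem (X Y : Ms) : List Bool → Ms
  | [] => 0
  | b :: l => (bif b then (X - Y) * (pz X Y l - Y ^ l.length) else 0) + Y * rem X Y l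

lemma pz_eq (X Y : Ms) (l : List Bool) : pz X Y l = Y ^ l.length + r1 X Y l + rem X Y l := by
  induction l with
  | nil => simp [r1, rem]
  | cons b l ih =>
    rw [pz_cons, r1, rem, List.length_cons, pow_succ']
    cases b
    · simp only [cond_false, zero_mul, zero_add]
      rw [← mul_add, ← mul_add, ← ih]
    · simp only [cond_true]
      have : Y * pz X Y l = Y * Y ^ l.length + Y * r1 X Y l + Y * rem X Y l := by
        rw [← mul_add, ← mul_add, ← ih]
      calc X * pz X Y l = Y * pz X Y l + (X - Y) * pz X Y l := by noncomm_ring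
        _ = _ := by rw [this]; noncomm_ring

lemma r1_append (X Y : Ms) (l l' : List Bool) :
    r1 X Y (l ++ l') = r1 X Y l * Y ^ l'.length + Y ^ l.length * r1 X Y l' := by
  induction l with
  | nil => simp [r1]
  | cons b l ih =>
    rw [List.cons_append, r1, r1, ih, List.length_append, List.length_cons, pow_add, pow_succ']
    noncomm_ring

/-- the Thue-Morse word and its complement -/
def tm : ℕ → List Bool × List Bool
  | 0 => ([true], [false])
  | m + 1 => ((tm m).1 ++ (tm m).2, (tm m).2 ++ (tm m).1)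

lemma tm_length (m : ℕ) : (tm m).1.length = 2 ^ m ∧ (tm m).2.length = 2 ^ m := by
  induction m with
  | zero => simp [tm]
  | succ m ih => simp only [tm, List.length_append, ih.1, ih.2, pow_succ]; omega

lemma r1_tm (X Y : Ms) (m : ℕ) : r1 X Y (tm m).1 - r1 X Y (tm m).2 = tmM Y (X - Y) m := by
  induction m with
  | zero => simp [tm, r1, tmM]
  | succ m ih =>
    rw [tmM, ← ih]
    simp only [tm, r1_append, (tm_length m).1, (tm_length m).2]
    noncomm_ring

lemma tm_head (m : ℕ) : ∃ l l', (tm m).1 = true :: l ∧ (tm m).2 = false :: l' := by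
  induction m with
  | zero => exact ⟨[], [], rfl, rfl⟩
  | succ m ih =>
    obtain ⟨l, l', h1, h2⟩ := ih
    exact ⟨l ++ (tm m).2, l' ++ (tm m).1, by rw [tm, h1]; rfl, by rw [tm]; simp only [h2]; rfl⟩

lemma chi_pz {Q X Y : Ms} {c : ℝ} (hX : Chi Q X c) (hY : Chi Q Y c) (l : List Bool) :
    Chi (Q ^ l.length) (pz X Y l) (c ^ l.length) := by
  induction l with
  | nil => simpa using chi_one
  | cons b l ih =>
    rw [pz_cons, List.length_cons, pow_succ', pow_succ']
    cases b <;> [exact hY.mul ih; exact hX.mul ih]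

lemma chi_pz_sub {Q X Y : Ms} {c Λ : ℝ} (hc : 1 ≤ c) (hX : Chi Q X c) (hY : Chi Q Y c)
    (hD : Chi Q (X - Y) Λ) (l : List Bool) :
    Chi (Q ^ l.length) (pz X Y l - Y ^ l.length) ((l.length : ℝ) ^ 2 * (Λ * c ^ l.length)) := by
  have hΛ := hD.nonneg
  induction l with
  | nil => simpa using chi_zero nn_one
  | cons b l ih =>
    have hb : Chi Q ((bif b then X else Y) - Y) Λ := by
      cases b
      · simpa using (chi_zero hX.nn).mono hΛ
      · exact hD
    set t := Λ * c ^ (l.length + 1) with ht
    have ht0 : 0 ≤ t := by positivity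
    have h1 : Chi (Q * Q ^ l.length) (((bif b then X else Y) - Y) * pz X Y l) (√t ^ 2) := by
      refine (hb.mul (chi_pz hX hY l)).mono ?_
      rw [Real.sq_sqrt ht0, ht]
      exact mul_le_mul_of_nonneg_left (pow_le_pow_right₀ hc (Nat.le_succ _)) hΛ
    have h2 : Chi (Q * Q ^ l.length) (Y * (pz X Y l - Y ^ l.length)) ((l.length * √t) ^ 2) := by
      refine (hY.mul ih).mono (le_of_eq ?_)
      rw [mul_pow, Real.sq_sqrt ht0, ht]; ring
    have h3 := h1.add_sq h2 (by positivity) (by positivity)
    rw [pz_cons, List.length_cons, pow_succ' Q, pow_succ' Y]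
    convert h3 using 1
    · noncomm_ring
    · rw [← ht]; push_cast
      have := Real.sq_sqrt ht0
      nlinarith

lemma ab_pz_sub {X Y : Ms} {θ : ℝ} (hD : Ab Y (X - Y) θ) (l : List Bool) :
    Ab (Y ^ l.length) (pz X Y l - Y ^ l.length) ((1 + θ) ^ l.length - 1) := by
  have hθ := hD.nonneg
  induction l with
  | nil => simpa using ab_zero nn_one
  | cons b l ih =>
    have hb : Ab Y ((bif b then X else Y) - Y) θ := by
      cases b
      · simpa using (ab_zero hD.nn).mono hθ
      · exact hD
    have h0 := ih.add (ab_self (hD.nn.pow l.length))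
    rw [sub_add_cancel, sub_add_cancel] at h0
    have h3 := (hb.mul h0).add ((ab_self hD.nn).mul ih)
    rw [pz_cons, List.length_cons, pow_succ' Y]
    convert h3 using 1
    · noncomm_ring
    · ring

lemma ab_rem {X Y : Ms} {θ : ℝ} (hD : Ab Y (X - Y) θ) {k : ℕ} (hk : k * θ ≤ 1 / 2)
    (l : List Bool) (hl : l.length ≤ k) :
    Ab (Y ^ l.length) (rem X Y l) (l.length * (2 * k * θ ^ 2)) := by
  have hθ := hD.nonneg
  induction l with
  | nil => simpa [rem] using ab_zero nn_one
  | cons b l ih =>
    rw [List.length_cons] at hl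
    have h1 : Ab (Y * Y ^ l.length) (bif b then (X - Y) * (pz X Y l - Y ^ l.length) else 0)
        (2 * k * θ ^ 2) := by
      cases b
      · exact (ab_zero (hD.nn.mul (hD.nn.pow _))).mono (by positivity)
      · refine (hD.mul (ab_pz_sub hD l)).mono ?_
        have := one_add_pow_le' hθ (by omega : l.length ≤ k) hk
        nlinarith
    have h2 := h1.add ((ab_self hD.nn).mul (ih (by omega)))
    rw [rem, List.length_cons, pow_succ' Y]
    convert h2 using 1
    push_cast; ring

lemma l1_mul_sub {A B A' B' : Ms} {a b : ℝ} (hB : Prob B) (hA' : Prob A') (h1 : L1 (A - A') a)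
    (h2 : L1 (B - B') b) : L1 (A * B - A' * B') (a + b) := by
  have := (h1.mul hB.l1).add (hA'.l1.mul h2)
  rw [mul_one, one_mul] at this
  convert this using 1
  noncomm_ring

lemma l1_pow_sub' {Y Y' : Ms} {e : ℝ} (hY : Prob Y) (hY' : Prob Y') (h : L1 (Y - Y') e) (n : ℕ) :
    L1 (Y ^ n - Y' ^ n) (n * e) := by
  induction n with
  | zero => simpa using l1_zero
  | succ n ih =>
    have := l1_mul_sub hY (hY'.pow n) ih h
    rw [pow_succ, pow_succ]
    convert this using 1
    push_cast; ring

lemma l1_pz_sub {X Y X' Y' : Ms} {e : ℝ} (hX : Prob X) (hY : Prob Y) (hX' : Prob X')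
    (hY' : Prob Y') (h1 : L1 (X - X') e) (h2 : L1 (Y - Y') e) (l : List Bool) :
    L1 (pz X Y l - pz X' Y' l) (l.length * e) := by
  induction l with
  | nil => simpa using l1_zero
  | cons b l ih =>
    rw [pz_cons, pz_cons, List.length_cons]
    cases b
    · refine (l1_mul_sub (pz_prob hX hY l) hY' h2 ih).mono (le_of_eq ?_)
      push_cast; ring
    · refine (l1_mul_sub (pz_prob hX hY l) hX' h1 ih).mono (le_of_eq ?_)
      push_cast; ring

lemma shift_pow {U Y Y' : Ms} (h : U * Y = Y' * U) (n : ℕ) : U * Y ^ n = Y' ^ n * U := by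
  induction n with
  | zero => simp
  | succ n ih => rw [pow_succ, ← mul_assoc, ih, mul_assoc, h, pow_succ, mul_assoc]

lemma shift_pz {U X Y X' Y' : Ms} (h1 : U * X = X' * U) (h2 : U * Y = Y' * U) (l : List Bool) :
    U * pz X Y l = pz X' Y' l * U := by
  induction l with
  | nil => simp
  | cons b l ih =>
    rw [pz_cons, pz_cons, ← mul_assoc, mul_assoc _ (pz X' Y' l), ← ih]
    cases b
    · simp only [cond_false]; rw [h2, mul_assoc]
    · simp only [cond_true]; rw [h1, mul_assoc]

end Vale.Agent.P321
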