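import Vale.Agent.P321.Mid

/-!
A periodic array of weak cores is close to the pure background on short stretches.
-/

namespace Vale.Agent.P321

open Finset

lemma chi_pl_step {P E : Ms} {k K N e m a T₂ : ℕ} {x y : ℝ} (hP : Prob P) (hE : mass E = 0)
    (hN : N = 2 * K + k)
    (hL : Chi (P ^ (a + e * N + K + k)) (pl P E N (a + e * N + K) a (e + 1)) x)
    (hR : Chi (P ^ (T₂ + k)) (pl P E N T₂ (m * N + K) (e + 1)) x)
    (hM : Chi (P ^ (T₂ + (a + e * N + K + k) + k))
      (pl P E N (T₂ + (a + e * N + K + k)) (a + (e + 1) * N) m) y) :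
    Chi (P ^ (T₂ + (a + e * N + K + k) + k))
      (pl P E N (T₂ + (a + e * N + K + k)) a (e + 1 + (m + (e + 1)))) (5 / 2 * x + 5 * y) := by
  have e1 : (e + 1) * N = e * N + N := by ring
  have hO := chi_orth2 (hP.pow _) (hP.pow _) hL hR (pl_mass hE _ _ _ _)
  rw [← pow_add, pl_mul_right _ _ (by omega), pl_mul_left,
    show a + e * N + K + k + (T₂ + k) = T₂ + (a + e * N + K + k) + k by omega,
    show a + e * N + K + (T₂ + k) = T₂ + (a + e * N + K + k) by omega,
    show m * N + K + (a + e * N + K + k) = a + (e + 1) * N + m * N by omega] at hO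
  have h1 := hO.add_t hM (by norm_num : (0 : ℝ) < 1 / 4)
  rw [pl_add P E N _ a (e + 1), pl_add P E N _ _ m, add_comm (pl P E N _ _ m),
    ← add_assoc (pl P E N _ a _)]
  refine h1.mono (le_of_eq ?_)
  ring

lemma chi_pl {P E : Ms} {k K N h G : ℕ} {α : ℝ} (hP : Prob P) (hE : mass E = 0) (hα : 0 ≤ α)
    (hN : N = 2 * K + k) (hh : N ≤ 8 * h) (hK : h ≤ K)
    (hmid : ∀ n m a T : ℕ, n ≤ G → m ≤ n → n * N ≤ 64 * a →
      64 * (a + m * N) + n * N ≤ 64 * (T + N) → Chi (P ^ (T + k)) (pl P E N T a m) (α * √n))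
    (n : ℕ) : n ≤ G → ∀ a T : ℕ, h ≤ a → a + n * N + h ≤ T + N →
      Chi (P ^ (T + k)) (pl P E N T a n) (50 * α * √n) := by
  induction n using Nat.strong_induction_on with
  | _ n ih =>
    intro hn a T ha hT
    have hs := Real.sqrt_nonneg (n : ℝ)
    rcases Nat.lt_or_ge n 8 with h8 | h8
    · have : n * N ≤ 8 * N := Nat.mul_le_mul_right _ h8.le
      refine (hmid n n a T hn le_rfl (by omega) (by omega)).mono ?_
      nlinarith [mul_nonneg hα hs]
    · obtain ⟨e, he⟩ : ∃ e, n / 8 = e + 1 := ⟨n / 8 - 1, by omega⟩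
      have he1 : 8 * (e + 1) ≤ n := by omega
      have he2 : n ≤ 64 * e + 64 := by omega
      clear he
      obtain ⟨m, hm⟩ : ∃ m, n = (e + 1) + (m + (e + 1)) := ⟨n - 2 * (e + 1), by omega⟩
      have hnN : n * N = 2 * (e * N) + 2 * N + m * N := by rw [hm]; ring
      have hn64 : n * N ≤ 64 * (e * N) + 64 * N := by
        have : n * N ≤ (64 * e + 64) * N := Nat.mul_le_mul_right _ he2
        rw [add_mul, mul_assoc] at this; exact this
      have e1 : (e + 1) * N = e * N + N := by ring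
      obtain ⟨T₂, rfl⟩ : ∃ T₂, T = T₂ + (a + e * N + K + k) :=
        ⟨T - (a + e * N + K + k), by omega⟩
      have hL := ih (e + 1) (by omega) (by omega) a (a + e * N + K) ha (by omega)
      have hR := ih (e + 1) (by omega) (by omega) (m * N + K) T₂ (by omega) (by omega)
      have hM := hmid n m (a + (e + 1) * N) (T₂ + (a + e * N + K + k)) hn (by omega) (by omega)
        (by omega)
      have h1 := chi_pl_step hP hE hN hL hR hM
      rw [← hm] at h1
      refine h1.mono ?_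
      have h2 : √((e + 1 : ℕ) : ℝ) ≤ 0.36 * √n := by
        refine le_sqr (by positivity) ?_
        rw [mul_pow, Real.sq_sqrt (Nat.cast_nonneg _), Real.sq_sqrt (Nat.cast_nonneg _)]
        have h3 : ((8 * (e + 1) : ℕ) : ℝ) ≤ n := by exact_mod_cast he1
        have h4 : (0 : ℝ) ≤ n := Nat.cast_nonneg _
        push_cast at h3 ⊢
        linarith
      have h3 := mul_le_mul_of_nonneg_left h2 hα
      linarith

/-- `g + 1` cores `C` at spacing `2 K`, with end gaps `a` and `b` -/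
noncomputable def seg (P C : Ms) (K a g b : ℕ) : Ms :=
  P ^ a * C * (P ^ (2 * K) * C) ^ g * P ^ b

lemma seg_prob {P C : Ms} (hP : Prob P) (hC : Prob C) (K a g b : ℕ) : Prob (seg P C K a g b) :=
  (((hP.pow _).mul hC).mul (((hP.pow _).mul hC).pow _)).mul (hP.pow _)

lemma seg_mul (P C : Ms) {K a g b a' g' b' : ℕ} (h : b + a' = 2 * K) :
    seg P C K a g b * seg P C K a' g' b' = seg P C K a (g + g' + 1) b' := by
  unfold seg
  rw [add_right_comm, pow_add _ (g + 1), pow_succ _ g, ← h, pow_add]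
  simp only [mul_assoc]

lemma seg_pow (P C : Ms) (K g : ℕ) : (P ^ K * C * P ^ K) ^ (g + 1) = seg P C K K g K := by
  induction g with
  | zero => simp [seg]
  | succ g ih =>
    rw [pow_succ, ih, ← seg_mul P C (g' := 0) (a' := K) (b := K) (by omega)]
    simp [seg]

lemma chi_seg {P C : Ms} {k K N h R : ℕ} {α : ℝ} (hP : Prob P) (hC : Prob C)
    (hN : N = 2 * K + k) (hK : h ≤ K)
    (ha : ∀ n ≤ 2 ^ R, ∀ a T : ℕ, h ≤ a → a + n * N + h ≤ T + N →
      Chi (P ^ (T + k)) (pl P (C - P ^ k) N T a n) (α * √n))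
    (hR : α ^ 2 * 2 ^ R * R ≤ 1 / 1024) (r : ℕ) : r ≤ R → ∀ g < 2 ^ r, ∀ a b : ℕ, h ≤ a → h ≤ b →
      Chi (P ^ (a + g * N + b + k))
        (seg P C K a g b - P ^ (a + g * N + b + k) - pl P (C - P ^ k) N (a + g * N + b) a (g + 1))
        ((4 * r + 512 * (α ^ 2 * 2 ^ r) * R ^ 2) * (α ^ 2 * 2 ^ r)) := by
  have hE : mass (C - P ^ k) = 0 := by rw [mass_sub, hC.one, (hP.pow k).one, sub_self]
  induction r with
  | zero =>
    intro _ g hg a b _ _
    obtain rfl : g = 0 := by omega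
    have : seg P C K a 0 b - P ^ (a + 0 * N + b + k) -
        pl P (C - P ^ k) N (a + 0 * N + b) a (0 + 1) = 0 := by
      simp only [seg, pl, zero_add, Finset.sum_range_one, zero_mul, add_zero, pow_zero, mul_one,
        Nat.add_sub_cancel_left, mul_sub, sub_mul, ← pow_add]
      rw [show a + k + b = a + b + k by omega]; abel
    rw [this]
    exact (chi_zero (hP.nn.pow _)).mono (by positivity)
  | succ r ih =>
    intro hr g hg a b ha' hb
    set y := α ^ 2 * 2 ^ r with hy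
    have hy0 : 0 ≤ y := by positivity
    have hy2 : α ^ 2 * 2 ^ (r + 1) = 2 * y := by rw [hy, pow_succ]; ring
    have hr0 : (0 : ℝ) ≤ r := Nat.cast_nonneg _
    have hrR : (r : ℝ) + 1 ≤ R := by exact_mod_cast hr
    rw [hy2]
    push_cast
    rcases Nat.lt_or_ge g (2 ^ r) with hg' | hg'
    · refine (ih (by omega) g hg' a b ha' hb).mono ?_
      have : 0 ≤ y * R ^ 2 * y := by positivity
      nlinarith
    obtain ⟨g₁, hg₁⟩ : ∃ g₁, 2 ^ r = g₁ + 1 := ⟨2 ^ r - 1, by have := Nat.one_le_two_pow (n := r); omega⟩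
    obtain ⟨g₂, rfl⟩ : ∃ g₂, g = g₁ + g₂ + 1 := ⟨g - 2 ^ r, by omega⟩
    have hg₂ : g₂ < 2 ^ r := by rw [pow_succ] at hg; omega
    have hpow : 2 ^ r ≤ 2 ^ R := Nat.pow_le_pow_right (by norm_num) (by omega)
    set B := (4 * r + 512 * y * R ^ 2) * y with hB
    have hyR : y * R ≤ 1 / 1024 := by
      refine le_trans ?_ hR
      have : (2 : ℝ) ^ r ≤ 2 ^ R := by exact_mod_cast hpow
      rw [hy]; gcongr
    have hB0 : 0 ≤ B := by positivity
    have hB1 : B ≤ 8 * R * y := by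
      have : 512 * y * R ^ 2 ≤ 4 * R := by nlinarith
      rw [hB]; nlinarith
    have hf : ∀ g < 2 ^ r, ∀ a b : ℕ, h ≤ a → h ≤ b → Chi (P ^ (a + g * N + b + k))
        (seg P C K a g b - P ^ (a + g * N + b + k)) (2 * B + 2 * √y) := by
      intro g hg a b h1 h2
      have i1 := ih (by omega) g hg a b h1 h2
      have i2 := ha (g + 1) (by omega) a (a + g * N + b) h1 (by rw [add_mul]; omega)
      have i3 := i1.add i2
      rw [sub_add_cancel] at i3
      refine i3.mono ?_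
      have : α * √((g + 1 : ℕ) : ℝ) ≤ √y := by
        refine Real.le_sqrt_of_sq_le ?_
        rw [mul_pow, Real.sq_sqrt (Nat.cast_nonneg _), hy]
        have : ((g + 1 : ℕ) : ℝ) ≤ 2 ^ r := by exact_mod_cast hg
        gcongr
      linarith
    have mseg : ∀ a g b n : ℕ, mass (seg P C K a g b - P ^ n) = 0 := fun a g b n => by
      rw [mass_sub, (seg_prob hP hC _ _ _ _).one, (hP.pow _).one, sub_self]
    have h3 := chi_orth3 (hP.pow _) (hP.pow _) (ih (by omega) g₁ (by omega) a K ha' hK)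
      (hf g₁ (by omega) a K ha' hK) (ih (by omega) g₂ hg₂ K b hK hb) (hf g₂ hg₂ K b hK hb)
      (by rw [mass_sub, mseg, pl_mass hE, sub_self]) (mseg _ _ _ _) (mseg _ _ _ _)
    have eN : (g₁ + g₂ + 1) * N = g₁ * N + g₂ * N + N := by ring
    have eN' : (g₁ + 1) * N = g₁ * N + N := by ring
    have e1 : P ^ (a + (g₁ + g₂ + 1) * N + b + k) =
        P ^ (a + g₁ * N + K + k) * P ^ (K + g₂ * N + b + k) := by
      rw [← pow_add]; congr 1; omega
    have e2 : pl P (C - P ^ k) N (a + (g₁ + g₂ + 1) * N + b) a (g₁ + g₂ + 1 + 1) =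
        pl P (C - P ^ k) N (a + g₁ * N + K) a (g₁ + 1) * P ^ (K + g₂ * N + b + k) +
        P ^ (a + g₁ * N + K + k) * pl P (C - P ^ k) N (K + g₂ * N + b) K (g₂ + 1) := by
      rw [pl_mul_right _ _ (by omega), pl_mul_left,
        show g₁ + g₂ + 1 + 1 = (g₁ + 1) + (g₂ + 1) by omega, pl_add]
      congr 2 <;> omega
    rw [e1, e2, ← seg_mul P C (b := K) (a' := K) (by omega)]
    convert h3.mono ?_ using 1
    · noncomm_ring
    · have hs := Real.sq_sqrt hy0
      have hs0 := Real.sqrt_nonneg y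
      have f1 : (2 * B + 2 * √y) * (2 * B + 2 * √y) ≤ 8 * B ^ 2 + 8 * y := by
        nlinarith [sq_nonneg (B - √y)]
      have f2 : B ^ 2 ≤ (8 * R * y) ^ 2 := pow_le_pow_left₀ hB0 hB1 2
      have : 0 ≤ y * R ^ 2 * y := by positivity
      nlinarith

lemma l1_seg {P C : Ms} {k K N h R : ℕ} {α : ℝ} (hP : Prob P) (hC : Prob C)
    (hN : N = 2 * K + k) (hK : h ≤ K) (hR1 : 1 ≤ R)
    (ha : ∀ n ≤ 2 ^ R, ∀ a T : ℕ, h ≤ a → a + n * N + h ≤ T + N →
      Chi (P ^ (T + k)) (pl P (C - P ^ k) N T a n) (α * √n))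
    (hR : α ^ 2 * 2 ^ R * R ≤ 1 / 1024) {g a b : ℕ} (hg : g < 2 ^ R) (h1 : h ≤ a) (h2 : h ≤ b) :
    L1 (seg P C K a g b - P ^ (a + g * N + b + k)) (3 / 10) := by
  have i1 := chi_seg hP hC hN hK ha hR R le_rfl g hg a b h1 h2
  have i2 := ha (g + 1) (by omega) a (a + g * N + b) h1 (by rw [add_mul]; omega)
  have i3 := i1.add i2
  rw [sub_add_cancel] at i3
  refine (i3.mono ?_).l1 (hP.pow _) (by norm_num)
  set y := α ^ 2 * 2 ^ R with hy
  have hy0 : 0 ≤ y := by positivity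
  have hR' : (1 : ℝ) ≤ R := by exact_mod_cast hR1
  have h3 : α * √((g + 1 : ℕ) : ℝ) ≤ 1 / 32 := by
    refine le_sqr (by norm_num) ?_
    rw [mul_pow, Real.sq_sqrt (Nat.cast_nonneg _)]
    have : ((g + 1 : ℕ) : ℝ) ≤ 2 ^ R := by exact_mod_cast hg
    have : α ^ 2 * ((g + 1 : ℕ) : ℝ) ≤ y := by rw [hy]; gcongr
    nlinarith
  have h4 : 0 ≤ y * R := by positivity
  nlinarith

end Vale.Agent.P321
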