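import Vale.Agent.P321.Gain

/-!
One level of the recursive construction.
-/

namespace Vale.Agent.P321

open Finset

/-- the data carried from one level to the next -/
structure Inv (P Yt Xt : Ms) (B n S ν : ℕ) (Λ ζ θ' θ G : ℝ) : Prop where
  pP : Prob P
  pY : Prob Yt
  pX : Prob Xt
  hS : S ≤ B
  bes : Bes (P ^ (2 * B + n)) (fun σ => pad P B σ (Xt - Yt)) S Λ
  chi : Chi (P ^ n) (Yt - P ^ n) ζ
  dom : Le ((1 - θ') • P ^ n) Yt
  dom0 : 0 ≤ θ'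
  ab : Ab (pad P B 0 Yt) (pad P B 0 Xt - pad P B 0 Yt) θ
  sm : Sm (pad P B 0 Yt) ν
  pos : 0 < ν
  gain : ∃ (T R : Op) (μ : ℝ),
    Lm (P ^ (S * (2 * B + n))) * Rm (P ^ (S * (2 * B + n))) = T * A2 P ^ S + R ∧
    Mk T (1 - μ) ∧ Mk R μ ∧ ∑ σ ∈ range (S + 1), rho S σ ^ 2 + μ ≤ G

lemma le_two_smul {Q Y : Ms} {c : ℝ} (hQ : Nn Q) (h : Le (c • Q) Y) (hc : 1 / 2 ≤ c) :
    Le Q ((2 : ℝ) • Y) := by
  have h1 := ((le_smul_of_le hQ hc).trans h).smul (by norm_num : (0 : ℝ) ≤ 2)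
  rwa [smul_smul, show (2 : ℝ) * (1 / 2) = 1 by norm_num, one_smul] at h1

lemma dom_pow {Q Y : Ms} {θ : ℝ} (hQ : Nn Q) (h : Le ((1 - θ) • Q) Y) (h0 : 0 ≤ θ) {n : ℕ}
    (hn : 1 ≤ n) (hθ : n * θ ≤ 1 / 2) : Le (Q ^ n) ((2 : ℝ) • Y ^ n) := by
  have hn' : (1 : ℝ) ≤ n := by exact_mod_cast hn
  have h1 : θ ≤ 1 / 2 := by nlinarith
  have h2 := h.pow (hQ.smul (by linarith)) n
  rw [smul_pow] at h2
  refine le_two_smul (hQ.pow n) h2 ?_
  have := one_add_mul_le_pow (a := -θ) (by linarith) n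
  rw [← sub_eq_add_neg] at this
  linarith

lemma Inv.domY {P Yt Xt : Ms} {B n S ν : ℕ} {Λ ζ θ' θ G : ℝ}
    (h : Inv P Yt Xt B n S ν Λ ζ θ' θ G) : Le ((1 - θ') • P ^ (2 * B + n)) (pad P B 0 Yt) := by
  have := (h.dom.mul_left (h.pP.nn.pow (B + 0))).mul_right (h.pP.nn.pow (B - 0))
  rw [mul_smul_comm, smul_mul_assoc] at this
  rw [← pad_pow P (Nat.zero_le B)]
  exact this

lemma Inv.chiD {P Yt Xt : Ms} {B n S ν : ℕ} {Λ ζ θ' θ G : ℝ}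
    (h : Inv P Yt Xt B n S ν Λ ζ θ' θ G) (hθ : θ' ≤ 1 / 2) :
    Chi (pad P B 0 Yt) (pad P B 0 Xt - pad P B 0 Yt) (2 * Λ) := by
  rw [← pad_sub]
  exact (h.bes.single (Nat.zero_le S)).ref h.ab.nn (by norm_num)
    (le_two_smul (h.pP.nn.pow _) h.domY (by linarith))

lemma exists_pow_between {x : ℕ} (hx : 2 ≤ x) : ∃ R, 1 ≤ R ∧ x ≤ 2 ^ R ∧ 2 ^ R ≤ 2 * x := by
  have h1 : 0 < Nat.clog 2 x := Nat.clog_pos one_lt_two (by omega)
  refine ⟨Nat.clog 2 x, h1, Nat.le_pow_clog one_lt_two x, ?_⟩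
  have h2 := Nat.pow_pred_clog_lt_self one_lt_two (x := x) (by omega)
  obtain ⟨r, hr⟩ : ∃ r, Nat.clog 2 x = r + 1 := ⟨Nat.clog 2 x - 1, by omega⟩
  rw [hr] at h2 ⊢
  rw [Nat.pred_succ] at h2
  rw [pow_succ]; omega

lemma sm_next {Y C : Ms} {k K ν Rb : ℕ} {ε : ℝ} (hY : Prob Y) (hC : Prob C) (hS : Sm Y ν)
    (hν : 0 < ν) (hk : 0 < k) (hE : Chi (Y ^ k) (C - Y ^ k) ε) (hk2 : 2 ∣ k) (hK : 2 * k + 8 ≤ K)
    (hRm : 200 * (2 * K + k) * ν ≤ 2 ^ Rb) (H : 2 ^ 43 * (k : ℝ) ^ 2 * ε ^ 2 * ν ^ 2 * Rb ≤ 1) :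
    Sm (Y ^ K * C * Y ^ K) (2 ^ 17 * (2 * K + k) * ν) := by
  set N := 2 * K + k with hN
  have hNν : 1 ≤ N * ν := Nat.mul_pos (by omega) hν
  obtain ⟨R, hR1, hR2, hR3⟩ := exists_pow_between (x := 100 * (N * ν)) (by omega)
  have hR4 : R ≤ Rb := by
    apply (Nat.pow_le_pow_iff_right one_lt_two).1
    rw [mul_assoc] at hRm; omega
  have h := nontrack (r := 1) hY hC hS hν hk hE hN hk2 hK hR1 le_rfl (by omega)
    (by rw [mul_assoc]; omega) (by rw [mul_assoc]; omega) (by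
      have a1 : (2 : ℝ) ^ R ≤ 2 * (100 * (N * ν)) := by exact_mod_cast hR3
      have a2 : (R : ℝ) ≤ Rb := by exact_mod_cast hR4
      calc 2 ^ 35 * (k : ℝ) ^ 2 * ε ^ 2 * ν * 2 ^ R * R
          ≤ 2 ^ 35 * (k : ℝ) ^ 2 * ε ^ 2 * ν * (2 * (100 * (N * ν))) * Rb := by gcongr
        _ = (200 / 256) * (2 ^ 43 * (k : ℝ) ^ 2 * ε ^ 2 * ν ^ 2 * Rb) * N := by ring
        _ ≤ (200 / 256) * 1 * N := by gcongr
        _ ≤ N := by have : (0 : ℝ) ≤ N := Nat.cast_nonneg _; linarith)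
  refine (sm_of_ovl (r := 256) h (by positivity) (by norm_num)).mono ?_
  rw [mul_assoc (2 ^ 17)]; omega

section core

variable {X Y : Ms} {T R : Op} {μ θ Λ e₁ : ℝ} {m J k K₂ : ℕ} (hXp : Prob X) (hYp : Prob Y)
  (hk : k = 2 ^ m) (e : Lm (Y ^ K₂) * Rm (Y ^ K₂) = T * A2 Y ^ (m * J) + R)
  (hT : Mk T (1 - μ)) (hR : Mk R μ) (hab : Ab Y (X - Y) θ) (h5 : k * θ ≤ 1 / 4)
  (he : (2 ^ m * (2 / √(J + 1))) ^ m ≤ e₁) (he1 : e₁ ≤ 1) (hD : Chi Y (X - Y) (2 * Λ))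

lemma core_W (Y F : Ms) (K₂ : ℕ) : (Lm (Y ^ K₂) * Rm (Y ^ K₂)) F = Y ^ K₂ * F * Y ^ K₂ := by
  rw [mul_assoc]; rfl

lemma core_ref (Y : Ms) (K₂ k : ℕ) : Y ^ K₂ * Y ^ k * Y ^ K₂ = Y ^ (2 * K₂ + k) := by
  rw [← pow_add, ← pow_add]; congr 1; omega

include e in
lemma core_W' (F : Ms) : T ((A2 Y ^ (m * J)) F) = Y ^ K₂ * F * Y ^ K₂ - R F := by
  rw [← core_W, e, LinearMap.add_apply, Module.End.mul_apply, add_sub_cancel_right]

include hYp e hR in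
lemma core_le1 : Le (T ((A2 Y ^ (m * J)) (Y ^ k))) (Y ^ (2 * K₂ + k)) := by
  rw [← core_ref, ← core_W]; exact le_of_decomp e hR (hYp.nn.pow k)

include hYp e hT in
lemma core_le2 : Le (R (Y ^ k)) (Y ^ (2 * K₂ + k)) := by
  rw [← core_ref, ← core_W]
  exact le_of_decomp' e hT ((mk_A2 hYp).pow (m * J)) (hYp.nn.pow k)

lemma core_delta (X Y : Ms) (m : ℕ) : pz X Y (tm m).1 - pz X Y (tm m).2 =
    tmM Y (X - Y) m + (rem X Y (tm m).1 - rem X Y (tm m).2) := by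
  rw [pz_eq X Y (tm m).1, pz_eq X Y (tm m).2, (tm_length m).1, (tm_length m).2, ← r1_tm]; abel

include hk hab h5 in
lemma core_rem : Ab (Y ^ k) (rem X Y (tm m).1 - rem X Y (tm m).2) (4 * k ^ 2 * θ ^ 2) := by
  have hla : (tm m).1.length = k := by rw [hk]; exact (tm_length m).1
  have hlb : (tm m).2.length = k := by rw [hk]; exact (tm_length m).2
  have i1 := ab_rem hab (k := k) (by linarith) _ hla.le
  have i2 := ab_rem hab (k := k) (by linarith) _ hlb.le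
  rw [hla] at i1; rw [hlb] at i2
  exact (i1.sub i2).mono (le_of_eq (by ring))

include hYp hk hab h5 in
lemma core_dom :
    Le ((1 - 2 * k * θ) • Y ^ (2 * K₂ + k)) (Y ^ K₂ * pz X Y (tm m).2 * Y ^ K₂) := by
  have hlb : (tm m).2.length = k := by rw [hk]; exact (tm_length m).2
  have i1 := (ab_pz_sub hab (tm m).2).mono (θ' := 2 * k * θ) (by
    have := one_add_pow_le' hab.nonneg hlb.le (by linarith); linarith)
  rw [hlb] at i1
  have i2 := (i1.le_down.mul_left (hYp.nn.pow K₂)).mul_right (hYp.nn.pow K₂)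
  rwa [mul_smul_comm, smul_mul_assoc, core_ref] at i2

include hXp hYp hk e hT hR hab h5 he in
lemma core_ab : Ab (Y ^ K₂ * pz X Y (tm m).2 * Y ^ K₂)
    (T ((A2 Y ^ (m * J)) (pz X Y (tm m).1 - pz X Y (tm m).2)))
    (2 * (e₁ * θ + 4 * k ^ 2 * θ ^ 2)) := by
  have hθ := hab.nonneg
  have i1 := tm_ab hab J m
  rw [← hk, ← A2_pow_pow] at i1
  have i2 := (hT.ab ((i1.mono (mul_le_mul_of_nonneg_right he hθ)).add
    (((mk_A2 hYp).pow (m * J)).ab (core_rem hk hab h5)))).ref1 (core_le1 hYp e hR)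
  rw [← map_add, ← core_delta] at i2
  exact i2.ref (((hYp.pow _).mul (pz_prob hXp hYp _)).mul (hYp.pow _)).nn (by norm_num)
    (le_two_smul (hYp.nn.pow _) (core_dom hYp hk hab h5) (by linarith))

include hXp hYp hk e hT hR hab h5 he he1 in
lemma core_prob : Prob (Y ^ K₂ * pz X Y (tm m).2 * Y ^ K₂ +
    T ((A2 Y ^ (m * J)) (pz X Y (tm m).1 - pz X Y (tm m).2))) := by
  have hθ := hab.nonneg
  have hk1' : (1 : ℝ) ≤ k := by rw [hk]; exact_mod_cast Nat.one_le_two_pow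
  have habs := core_ab hXp hYp hk e hT hR hab h5 he
  constructor
  · have hkθ : 4 * (k : ℝ) ^ 2 * θ ^ 2 ≤ 1 / 4 := by
      have : (k * θ) ^ 2 ≤ (1 / 4) ^ 2 := pow_le_pow_left₀ (by positivity) h5 2
      nlinarith
    have i1 := habs.mono (θ' := 1) (by
      have : θ ≤ 1 / 4 := by nlinarith
      nlinarith)
    nth_rewrite 1 [← add_sub_cancel_left (Y ^ K₂ * pz X Y (tm m).2 * Y ^ K₂) (T _)] at i1
    have := i1.le_down
    rw [sub_self, zero_smul] at this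
    exact this.nn nn_zero
  · rw [mass_add, hT.mass, ((mk_A2 hYp).pow (m * J)).mass, mass_sub, (pz_prob hXp hYp _).one,
      (pz_prob hXp hYp _).one, (((hYp.pow _).mul (pz_prob hXp hYp _)).mul (hYp.pow _)).one]
    simp

include hXp hYp hk hD in
lemma core_chi (h1 : k * (2 * Λ) ≤ 1 / 2) :
    Chi (Y ^ k) (pz X Y (tm m).2 - Y ^ k) (4 * k ^ 2 * Λ) := by
  have hlb : (tm m).2.length = k := by rw [hk]; exact (tm_length m).2
  have hΛ := hD.nonneg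
  have i1 := hD.uncenter hYp hXp.one
  have i2 := chi_pz_sub (by linarith) i1 ((chi_self hYp).mono (by linarith)) hD (tm m).2
  rw [hlb] at i2
  refine i2.mono ?_
  have := one_add_pow_le (x := 2 * Λ) hΛ (n := k) h1
  have h7 : (1 + 2 * Λ) ^ k ≤ 2 := by linarith
  calc (k : ℝ) ^ 2 * (2 * Λ * (1 + 2 * Λ) ^ k) ≤ k ^ 2 * (2 * Λ * 2) := by gcongr
    _ = _ := by ring

include hYp hk e hT hR hab h5 he hD in
lemma core_bes {S S' : ℕ} {L : ℝ} (hμ : μ ≤ (1 / 2) ^ (m * J))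
    (hb : Bes (Y ^ (2 * S + S' + k)) (fun s => Y ^ (S + s + 0) * rem X Y (tm m).1 *
      Y ^ (S + (S' - s)) - Y ^ (S + s + 0) * rem X Y (tm m).2 * Y ^ (S + (S' - s))) S' L) :
    Bes (Y ^ (2 * (S + S') + (2 * K₂ + k))) (fun s => pad Y (S + S') s
      (T ((A2 Y ^ (m * J)) (pz X Y (tm m).1 - pz X Y (tm m).2)))) S'
      (4 * (S' + 1) * e₁ ^ 2 * Λ + 4 * L + 4 * (S' + 1) * (1 / 2) ^ (m * J)) := by
  have hθ := hab.nonneg
  have hΛ := hD.nonneg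
  have hμ0 := hR.nonneg
  have hpp : ∀ s ≤ S', pad Y (S + S') s (Y ^ (2 * K₂ + k)) = Y ^ (2 * (S + S') + (2 * K₂ + k)) :=
    fun s hs => pad_pow Y (by omega) _
  have i1 : Bes (Y ^ (2 * (S + S') + (2 * K₂ + k)))
      (fun s => pad Y (S + S') s (T ((A2 Y ^ (m * J)) (tmM Y (X - Y) m)))) S'
      ((S' + 1) * (e₁ ^ 2 * (2 * Λ))) := bes_triv fun s hs => by
    have j1 := tm_chi hYp hD J m
    rw [← hk, ← A2_pow_pow] at j1
    rw [← hpp s hs]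
    refine chi_pad hYp (((hT.chi j1).ref1 (core_le1 hYp e hR)).mono ?_) _ _
    have j2 : ((2 ^ m * (2 / √((J : ℝ) + 1))) ^ m) ^ 2 * (2 * Λ) ≤ e₁ ^ 2 * (2 * Λ) := by gcongr
    have j3 : 0 ≤ μ * (((2 ^ m * (2 / √((J : ℝ) + 1))) ^ m) ^ 2 * (2 * Λ)) := by positivity
    linarith
  have i2 : Bes (Y ^ (2 * (S + S') + (2 * K₂ + k)))
      (fun s => pad Y (S + S') s (R (rem X Y (tm m).1 - rem X Y (tm m).2))) S'
      ((S' + 1) * (1 / 2) ^ (m * J)) := bes_triv fun s hs => by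
    rw [← hpp s hs]
    refine chi_pad hYp (((hR.chi ((core_rem hk hab h5).chi (hYp.pow k))).ref1
      (core_le2 hYp e hT)).mono ?_) _ _
    have hkθ : 4 * (k : ℝ) ^ 2 * θ ^ 2 ≤ 1 / 4 := by
      have : (k * θ) ^ 2 ≤ (1 / 4) ^ 2 := pow_le_pow_left₀ (by positivity) h5 2
      nlinarith
    have j1 : (4 * (k : ℝ) ^ 2 * θ ^ 2) ^ 2 ≤ 1 := pow_le_one₀ (by positivity) (by linarith)
    nlinarith
  have i3 := hb.mk ((hYp.pow (S' + K₂)).mkL.mul (hYp.pow K₂).mkR)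
  rw [Module.End.mul_apply, Lm_apply, Rm_apply, ← pow_add, ← pow_add,
    show S' + K₂ + (2 * S + S' + k + K₂) = 2 * (S + S') + (2 * K₂ + k) by omega] at i3
  refine ((i1.add (i3.sub i2)).congr fun s hs => ?_).mono (le_of_eq ?_)
  · rw [core_delta, map_add, map_add, core_W' e (rem X Y _ - rem X Y _), Module.End.mul_apply,
      Lm_apply, Rm_apply, ← sub_mul, ← mul_sub]
    unfold pad
    rw [mul_add, add_mul, mul_sub (Y ^ (S + S' + s)), sub_mul]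
    congr 2
    simp only [← mul_assoc, ← pow_add]
    simp only [mul_assoc, ← pow_add]
    rw [show S' + K₂ + (S + s + 0) = S + S' + s + K₂ by omega,
      show S + (S' - s) + K₂ = K₂ + (S + S' - s) by omega]
  · ring

end core

lemma pad_core (Y F : Ms) (B K₂ : ℕ) :
    pad Y B 0 (Y ^ K₂ * F * Y ^ K₂) = Y ^ (B + K₂) * F * Y ^ (B + K₂) := by
  rw [pad, add_zero, Nat.sub_zero, pow_add Y B K₂]
  nth_rewrite 2 [← pow_add]
  rw [add_comm B K₂, pow_add Y K₂]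
  simp only [mul_assoc]

theorem step {P Yt Xt : Ms} {B n S ν : ℕ} {Λ ζ θ' θ G : ℝ}
    (I : Inv P Yt Xt B n S ν Λ ζ θ' θ G) {m J S' Rb k K : ℕ} {e₁ : ℝ} (hm : 1 ≤ m) (hJ : 1 ≤ J)
    (hk : k = 2 ^ m) (hK : K = S + S' + (ν * (m * J) + 2 * k + 8))
    (h1 : k * (2 * ζ + 2 * Λ) ≤ 1 / 2) (h2 : (2 * S + S' + k : ℕ) * ζ ≤ 1 / 2)
    (h3 : (2 * S + S' + k : ℕ) * ζ * (S' + 1) ≤ G) (h4 : (2 * S + S' + k : ℕ) * θ' ≤ 1 / 2)
    (h5 : k * θ ≤ 1 / 4) (he : (2 ^ m * (2 / √(J + 1))) ^ m ≤ e₁) (he1 : e₁ ≤ 1)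
    (hRb : 200 * (2 * K + k) * ν ≤ 2 ^ Rb)
    (h6 : 2 ^ 43 * (k : ℝ) ^ 2 * (4 * k ^ 2 * Λ) ^ 2 * ν ^ 2 * Rb ≤ 1) :
    ∃ (Yt' Xt' : Ms) (n' : ℕ), 2 * (S + S') + n' = 2 * K + k ∧
      Inv (pad P B 0 Yt) Yt' Xt' (S + S') n' S' (2 ^ 17 * (2 * K + k) * ν)
        (4 * (S' + 1) * e₁ ^ 2 * Λ + 1792 * k ^ 5 * Λ ^ 2 * G + 4 * (S' + 1) * (1 / 2) ^ (m * J))
        (4 * k ^ 2 * Λ) (2 * k * θ) (2 * (e₁ * θ + 4 * k ^ 2 * θ ^ 2)) (3 / √(S' + 1)) ∧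
      pad (pad P B 0 Yt) (S + S') 0 Yt' = pad P B 0 Yt ^ K *
        pz (pad P B 0 Xt) (pad P B 0 Yt) (tm m).2 * pad P B 0 Yt ^ K ∧
      L1 (pad (pad P B 0 Yt) (S + S') 0 Xt' - pad P B 0 Yt ^ K *
        pz (pad P B 0 Xt) (pad P B 0 Yt) (tm m).1 * pad P B 0 Yt ^ K) (2 * (1 / 2) ^ (m * J)) := by
  obtain ⟨T₀, R₀, μ₀, e₀, hT₀, hR₀, hG⟩ := I.gain
  have hk1 : 1 ≤ k := by rw [hk]; exact Nat.one_le_two_pow
  have hk2 : 2 ∣ k := by rw [hk]; exact dvd_pow_self 2 (by omega)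
  have hla : (tm m).1.length = k := by rw [hk]; exact (tm_length m).1
  have hlb : (tm m).2.length = k := by rw [hk]; exact (tm_length m).2
  have hb1 := bes_rem I.pP I.pY I.pX I.hS I.bes I.chi h1 e₀ hT₀ hR₀ hG S' h2 h3 (tm m).1 0
    (by omega)
  have hb2 := bes_rem I.pP I.pY I.pX I.hS I.bes I.chi h1 e₀ hT₀ hR₀ hG S' h2 h3 (tm m).2 0
    (by omega)
  have hθ'0 := I.dom0
  have hdn := dom_pow (I.pP.nn.pow _) I.domY hθ'0 (n := 2 * S + S' + k) (by omega) h4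
  have hD := I.chiD (by
    have : (1 : ℝ) ≤ (2 * S + S' + k : ℕ) := by exact_mod_cast (by omega : 1 ≤ 2 * S + S' + k)
    nlinarith)
  have hab := I.ab
  have hsm := I.sm
  have hν := I.pos
  have hζ := I.chi.nonneg
  have hθ := hab.nonneg
  have hG0 : 0 ≤ G :=
    le_trans (add_nonneg (Finset.sum_nonneg fun _ _ => sq_nonneg _) hR₀.nonneg) hG
  have hYp : Prob (pad P B 0 Yt) := pad_prob I.pP I.pY B 0
  have hXp : Prob (pad P B 0 Xt) := pad_prob I.pP I.pX B 0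
  have hb3 := (hb1.sub hb2).ref (hYp.nn.pow _) (by norm_num) hdn
  have h1' : k * (2 * Λ) ≤ 1 / 2 := by
    have : 0 ≤ k * (2 * ζ) := by positivity
    linarith
  rw [hla, hlb, mul_pow, Real.sq_sqrt (by positivity)] at hb3
  generalize pad P B 0 Yt = Y at *
  generalize pad P B 0 Xt = X at *
  clear e₀ hT₀ hR₀ hG h2 h3 h4 I hb1 hb2 hdn h1
  obtain ⟨K₂, hK₂⟩ : ∃ K₂, K₂ = ν * (m * J) + 2 * k + 8 := ⟨_, rfl⟩
  rw [← hK₂] at hK
  obtain ⟨T, R, μ, e, hT, hR, hμ⟩ := hsm.two hYp (J := m * J) (u := K₂) (v := K₂) (by omega)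
    (by omega)
  have hpa := pz_prob hXp hYp (tm m).1
  have hpb := pz_prob hXp hYp (tm m).2
  have hε := core_chi hXp hYp hk hD h1'
  refine ⟨_, _, 2 * K₂ + k, by omega, ⟨hYp, ((hYp.pow _).mul hpb).mul (hYp.pow _),
    core_prob hXp hYp hk e hT hR hab h5 he he1, by omega, ?_, ?_, core_dom hYp hk hab h5,
    by positivity, ?_, ?_, ?_, ?_⟩, by rw [pad_core, hK], ?_⟩
  · rw [add_sub_cancel_left]
    refine (core_bes hYp hk e hT hR hab h5 he hD hμ hb3).mono (le_of_eq ?_)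
    ring
  · have := (hε.prob_mul (hYp.pow K₂)).mul_prob (hYp.pow K₂)
    rwa [mul_sub, sub_mul, core_ref] at this
  · rw [← pad_sub, add_sub_cancel_left]
    exact ab_pad hYp.nn (core_ab hXp hYp hk e hT hR hab h5 he) _ _
  · rw [pad_core, ← hK]
    exact sm_next hYp hpb hsm hν hk1 hε hk2 (by omega) hRb h6
  · exact Nat.mul_pos (Nat.mul_pos (by norm_num) (by omega)) hν
  · have hνN : ν * S' ≤ S' * (2 * (S + S') + (2 * K₂ + k)) := by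
      rw [mul_comm]
      refine Nat.mul_le_mul_left _ ?_
      have : ν * 1 ≤ ν * (m * J) := Nat.mul_le_mul_left _ (Nat.mul_pos hm hJ)
      omega
    obtain ⟨T', R', μ', e', hT', hR', hμ'⟩ := hsm.two hYp hνN hνN
    refine ⟨T', R', μ', e', hT', hR', ?_⟩
    have j1 := rho_sq_sum S' (range (S' + 1))
    have j2 := hμ'.trans (half_pow_le S')
    have : (3 : ℝ) / √(S' + 1) = 2 / √(S' + 1) + 1 / √(S' + 1) := by ring
    linarith
  · rw [core_W' e, hK, ← pad_core, ← pad_sub]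
    have j1 := (hR.l1 (hpa.l1.sub hpb.l1)).neg
    have j2 := ((hYp.pow (S + S' + 0)).l1.mul j1).mul (hYp.pow (S + S' - 0)).l1
    convert j2.mono ?_ using 1
    · unfold pad; congr 2; noncomm_ring
    · linarith

end Vale.Agent.P321
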