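import Vale.Agent.P321.Step

/-!
Removing the atypical traces at the bottom level.
-/

namespace Vale.Agent.P321

open Finset

lemma lazy_pow (V : Ms) (c : ℝ) (M : ℕ) : (c • (1 : Ms) + V) ^ M =
    ∑ j ∈ range (M + 1), ((M.choose j : ℝ) * c ^ j) • V ^ (M - j) := by
  rw [((Commute.one_left V).smul_left c).add_pow]
  refine Finset.sum_congr rfl fun j _ => ?_
  rw [← nsmul_eq_mul', ← Nat.cast_smul_eq_nsmul ℝ, smul_pow, one_pow, smul_mul_assoc, one_mul,
    smul_smul]

lemma lazy_dom {V : Ms} {c : ℝ} {r J M : ℕ} (hV : Nn V) (hc : 0 ≤ c) (hc1 : c ≤ 1)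
    (hm : mass V = 1 - c) (hJ : 0 < J) (hM : M + 1 = r * J) (hr : 4 ≤ r * c) :
    ∃ Bad, Nn Bad ∧ mass Bad ≤ (1 / 2) ^ J ∧
      Le ((c • (1 : Ms) + V) ^ (M + 1)) ((r : ℝ) • (c • (1 : Ms) + V) ^ M + Bad) := by
  have hU : Nn (c • (1 : Ms) + V) := (nn_one.smul hc).add hV
  have hJ' : (0 : ℝ) < J := by exact_mod_cast hJ
  refine ⟨(2 : ℝ) ^ J • ((c / 2) • (1 : Ms) + V) ^ (M + 1),
    (((nn_one.smul (by linarith)).add hV).pow _).smul (by positivity), ?_, ?_⟩
  · rw [mass_smul, mass_pow, mass_add, mass_smul, mass_one, hm, hM,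
      show c / 2 * 1 + (1 - c) = 1 - c / 2 by ring]
    exact tail_le hc1 hr
  have e1 : (c * r) • (c • (1 : Ms) + V) ^ M = ∑ j ∈ range (M + 1 + 1),
      ((j : ℝ) / J * (((M + 1).choose j : ℝ) * c ^ j)) • V ^ (M + 1 - j) := by
    rw [Finset.sum_range_succ' _ (M + 1), lazy_pow, Finset.smul_sum]
    simp only [Nat.cast_zero, zero_div, zero_mul, zero_smul, add_zero]
    refine Finset.sum_congr rfl fun j _ => ?_
    rw [smul_smul, Nat.add_sub_add_right]
    congr 1
    have h1 : ((M : ℝ) + 1) * M.choose j = (M + 1).choose (j + 1) * ((j : ℝ) + 1) := by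
      exact_mod_cast Nat.add_one_mul_choose_eq M j
    have h2 : (M : ℝ) + 1 = r * J := by exact_mod_cast hM
    rw [h2] at h1
    push_cast
    field_simp
    linear_combination c * c ^ j * h1
  have e2 : Le ((c • (1 : Ms) + V) ^ (M + 1)) ((c * r) • (c • (1 : Ms) + V) ^ M +
      (2 : ℝ) ^ J • ((c / 2) • (1 : Ms) + V) ^ (M + 1)) := by
    rw [e1, lazy_pow, lazy_pow, Finset.smul_sum, ← Finset.sum_add_distrib]
    unfold Le
    rw [← Finset.sum_sub_distrib]
    refine Nn.sum fun j _ => ?_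
    rw [smul_smul, ← add_smul, ← sub_smul]
    refine (hV.pow _).smul ?_
    have h0 : 0 ≤ ((M + 1).choose j : ℝ) * c ^ j := by positivity
    have h1 : 1 ≤ (j : ℝ) / J + 2 ^ J * (1 / 2) ^ j := by
      rcases le_total J j with h | h
      · have : (1 : ℝ) ≤ j / J := by rw [le_div_iff₀ hJ', one_mul]; exact_mod_cast h
        have : (0 : ℝ) ≤ 2 ^ J * (1 / 2) ^ j := by positivity
        linarith
      · have : (1 : ℝ) ≤ 2 ^ J * (1 / 2) ^ j := by
          rw [one_div_pow, mul_one_div, le_div_iff₀ (by positivity), one_mul]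
          exact pow_le_pow_right₀ one_le_two h
        have : (0 : ℝ) ≤ j / J := by positivity
        linarith
    have e3 : (c / 2) ^ j = (1 / 2) ^ j * c ^ j := by rw [← mul_pow]; congr 1; ring
    rw [e3]
    nlinarith [mul_le_mul_of_nonneg_right h1 h0]
  refine e2.trans (Le.add (le_smul_of_le (hU.pow _) ?_) Le.rfl)
  exact mul_le_of_le_one_left (Nat.cast_nonneg _) hc1

lemma trim {Q Y Bad D : Ms} {C θ η β : ℝ} (hY : Prob Y) (hB : Nn Bad) (hC : 0 ≤ C)
    (hβ : mass Bad ≤ β) (hle : Le Q (C • Y + Bad)) (hab : Ab Q D θ) (hchi : Chi Q D η)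
    (hm : mass D = 0) : ∃ D', mass D' = 0 ∧ Ab Y D' (2 * C * θ + 2 * β * θ) ∧
      Chi Y D' (2 * (2 * C * η) + 2 * (2 * β * θ) ^ 2) ∧ L1 (D' - D) (4 * β * θ) := by
  classical
  have hθ := hab.nonneg
  let s : Wd → ℝ := fun w => if 2 * Bad.coeff w ≤ Q.coeff w then 1 else 0
  have hle' := le_iff.1 hle
  simp only [MonoidAlgebra.coeff_add, Finsupp.add_apply, MonoidAlgebra.coeff_smul_apply,
    smul_eq_mul] at hle'
  have hs2 : ∀ w, s w * s w = s w := fun w => by simp only [s]; split_ifs <;> norm_num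
  have hsQ : Nn (wt s Q) := fun w => by
    rw [coeff_wt]; exact mul_nonneg (by simp only [s]; split_ifs <;> norm_num) (hab.nn w)
  have h1 : Le (wt s Q) ((2 * C) • Y) := le_iff.2 fun w => by
    have := hle' w
    have := mul_nonneg hC (hY.nn w)
    simp only [coeff_wt, MonoidAlgebra.coeff_smul_apply, smul_eq_mul, s]
    split_ifs <;> linarith
  have h2 : Ab (wt s Q) (wt s D) θ := ⟨hsQ, hθ, fun w => by
    have := hab.le w
    simp only [coeff_wt, s]
    split_ifs <;> simp [this]⟩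
  have h3 : Chi (wt s Q) (wt s D) η := ⟨hsQ, hchi.nonneg, fun g => by
    rw [ev_wt, ev_wt]
    refine (hchi.le _).trans (le_of_eq ?_)
    congr 2
    funext w
    rw [mul_pow, sq (s w), hs2]⟩
  have h4 : Ab Bad (wt s D - D) (2 * θ) := ⟨hB, by positivity, fun w => by
    have := hab.le w
    have := hB w
    simp only [MonoidAlgebra.coeff_sub, Finsupp.sub_apply, coeff_wt, s]
    split_ifs with h
    · simp only [one_mul, sub_self, abs_zero]; positivity
    · rw [zero_mul, zero_sub, abs_neg]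
      nlinarith⟩
  have h5 : L1 (wt s D - D) (2 * β * θ) := h4.l1.mono (by nlinarith)
  have h6 : |mass (wt s D)| ≤ 2 * β * θ := by
    have := h5.abs_mass
    rwa [mass_sub, hm, sub_zero] at this
  refine ⟨wt s D - mass (wt s D) • Y, by rw [mass_sub, mass_smul, hY.one, mul_one, sub_self],
    ?_, ?_, ?_⟩
  · refine ((h2.ref hY.nn (by positivity) h1).sub ((ab_self hY.nn).smul _)).mono ?_
    linarith
  · refine ((h3.ref hY.nn (by positivity) h1).sub ((chi_self hY).smul _)).mono ?_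
    have := sq_le_sq' (abs_le.1 h6).1 (abs_le.1 h6).2
    linarith
  · have := h5.sub (hY.l1.smul (mass (wt s D)))
    rw [sub_right_comm]
    exact this.mono (by linarith)

end Vale.Agent.P321
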